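import Vale.Agent.P084.Smooth.Main
import Vale.Agent.P084.Reduction

/-!
From an isometry of spheres to its linear extension, in infinite dimension.
-/

open Set Filter Topology Metric

namespace Vale.Agent.P084.Smooth

variable {X Y : Type*} [NormedAddCommGroup X] [NormedSpace ℝ X]
  [NormedAddCommGroup Y] [NormedSpace ℝ Y]

lemma nice_of_smooth_lur [CompleteSpace X]
    (hs : ∀ x : X, x ≠ 0 → ContDiffAt ℝ 3 (fun y : X => ‖y‖) x)
    (hl : ∀ x : X, ‖x‖ = 1 → ∀ ε > (0 : ℝ), ∃ δ > (0 : ℝ), ∀ y : X, ‖y‖ = 1 → ε ≤ ‖y - x‖ →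
      ‖y + x‖ ≤ 2 - δ) :
    Nice X := by
  refine ⟨inferInstance, hl, fun x hx => ?_⟩
  · have hx0 := ne_zero_of_norm_one hx
    obtain ⟨r, hr, C, hC, h⟩ :=
      (C11At.of_contDiffAt ((hs x hx0).of_le (by norm_num : (2 : WithTop ℕ∞) ≤ 3))).data
    refine ⟨r / 2, by linarith, 2 * C, fun y k hy hk => ?_⟩
    have h1 := ((h y (by linarith)).2 (y + k) (by
      have := norm_add_le (y - x) k
      rw [show y - x + k = y + k - x by abel] at this
      linarith)).1
    have h2 := ((h y (by linarith)).2 (y - k) (by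
      have := norm_sub_le (y - x) k
      rw [show y - x - k = y - k - x by abel] at this
      linarith)).1
    rw [add_sub_cancel_left] at h1
    rw [show y - k - y = -k by abel, map_neg, norm_neg] at h2
    rw [Real.norm_eq_abs, abs_le] at h1 h2
    linarith

/-- The homogeneous extension as a structure. -/
lemma exists_ext (f : sphere (0 : X) 1 → sphere (0 : Y) 1) (hf : Isometry f)
    (hs : Function.Surjective f) : ∃ S : Ext X Y, ∀ x : sphere (0 : X) 1, S.F x = f x := by
  set g := Function.surjInv hs with hg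
  have h1 : ∀ y, f (g y) = y := Function.surjInv_eq hs
  have h2 : ∀ x, g (f x) = x := fun x => hf.injective (h1 (f x))
  have hgi : Isometry g := fun a b => by rw [← hf, h1, h1]
  refine ⟨{
    F := homExt f
    G := homExt g
    norm_F := norm_homExt f
    smul_F := fun t x ht => homExt_smul f ht x
    GF := homExt_homExt f h2
    FG := homExt_homExt g h1
    iso := fun x y hx hy => ?_
    lipF := fun x y => by
      simpa [dist_eq_norm] using (homExt_lipschitz f hf).dist_le_mul x y
    lipG := fun x y => by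
      simpa [dist_eq_norm] using (homExt_lipschitz g hgi).dist_le_mul x y },
    fun x => homExt_sphere f x⟩
  have := hf.dist_eq ⟨x, mem_sphere_zero_iff_norm.2 hx⟩ ⟨y, mem_sphere_zero_iff_norm.2 hy⟩
  rw [Subtype.dist_eq, Subtype.dist_eq, dist_eq_norm, dist_eq_norm] at this
  rw [← homExt_sphere, ← homExt_sphere] at this
  exact this

/-- In infinite dimension the isometry extends linearly. -/
theorem linear_extension [CompleteSpace X]
    (hs : ∀ x : X, x ≠ 0 → ContDiffAt ℝ 3 (fun y : X => ‖y‖) x)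
    (hc : ∀ x : X, ‖x‖ = 1 → ∀ ε > (0 : ℝ), ∃ δ > (0 : ℝ), ∀ y : X, ‖y‖ = 1 → ε ≤ ‖y - x‖ →
      ‖y + x‖ ≤ 2 - δ)
    (hinf : ¬ FiniteDimensional ℝ X)
    (f : sphere (0 : X) 1 → sphere (0 : Y) 1) (hf : Isometry f) (hsurj : Function.Surjective f) :
    ∃ T : X ≃ₗᵢ[ℝ] Y, ∀ x : sphere (0 : X) 1, T (x : X) = (f x : Y) := by
  obtain ⟨S, hS⟩ := exists_ext f hf hsurj
  have hd : ∀ x : X, x ≠ 0 → ContDiffAt ℝ 2 (dn : X → X →L[ℝ] ℝ) x := fun x hx =>
    (hs x hx).fderiv_right (by norm_num)
  obtain ⟨T, hT⟩ := S.exists_linearIsometryEquiv (nice_of_smooth_lur hs hc)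
    (fun x hx => C11At.of_contDiffAt (hd x hx))
    (fun x hx => ((hd x hx).fderiv_right (m := 1) (by norm_num)).differentiableAt (by simp))
    (fun x hx => (hs x hx).isSymmSndFDerivAt (by simp; norm_num)) hinf
  exact ⟨T, fun x => (hT _).trans (hS x)⟩

end Vale.Agent.P084.Smooth
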