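import Mathlib

/-!
Maps with a locally uniform quadratic first order remainder.
-/

open Set Filter Topology Metric

namespace Vale.Agent.P084.Smooth

variable {E F : Type*} [NormedAddCommGroup E] [NormedSpace ℝ E]
  [NormedAddCommGroup F] [NormedSpace ℝ F]

/-- Near `x₀` the first order remainder of `g` is quadratic. -/
def C11At (g : E → F) (x₀ : E) : Prop :=
  ∃ r > (0 : ℝ), ∃ C : ℝ, 0 ≤ C ∧ ∀ x y, ‖x - x₀‖ ≤ r → ‖y - x₀‖ ≤ r →
    ‖g y - g x - fderiv ℝ g x (y - x)‖ ≤ C * ‖y - x‖ ^ 2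

lemma hasFDerivAt_of_quad {g : E → F} {x : E} {A : E →L[ℝ] F} {r C : ℝ} (hr : 0 < r)
    (h : ∀ y, ‖y - x‖ ≤ r → ‖g y - g x - A (y - x)‖ ≤ C * ‖y - x‖ ^ 2) : HasFDerivAt g A x := by
  rw [hasFDerivAt_iff_tendsto]
  refine squeeze_zero' (Eventually.of_forall fun y => by positivity)
    (g := fun y => max C 0 * ‖y - x‖) ?_ ?_
  · filter_upwards [Metric.closedBall_mem_nhds x hr] with y hy
    rw [mem_closedBall, dist_eq_norm] at hy
    rcases eq_or_ne ‖y - x‖ 0 with h0 | h0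
    · simp [h0]
    rw [inv_mul_le_iff₀ (lt_of_le_of_ne (norm_nonneg _) (Ne.symm h0))]
    refine (h y hy).trans ?_
    have := le_max_left C 0
    nlinarith [sq_nonneg ‖y - x‖]
  · exact ((continuous_id.sub continuous_const).norm.const_mul _).tendsto' x 0 (by simp)

lemma C11At.of_exists {g : E → F} {x₀ : E}
    (h : ∃ r > (0 : ℝ), ∃ C : ℝ, ∀ x, ‖x - x₀‖ ≤ r → ∃ A : E →L[ℝ] F, ∀ y, ‖y - x₀‖ ≤ r →
      ‖g y - g x - A (y - x)‖ ≤ C * ‖y - x‖ ^ 2) : C11At g x₀ := by
  obtain ⟨r, hr, C, h⟩ := h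
  refine ⟨r / 2, by linarith, max C 0, le_max_right _ _, fun x y hx hy => ?_⟩
  obtain ⟨A, hA⟩ := h x (by linarith)
  have hd : HasFDerivAt g A x := hasFDerivAt_of_quad (by linarith : 0 < r / 2) fun z hz =>
    hA z (by linarith [norm_sub_le_norm_sub_add_norm_sub z x x₀])
  rw [hd.fderiv]
  exact (hA y (by linarith)).trans
    (mul_le_mul_of_nonneg_right (le_max_left _ _) (sq_nonneg _))

namespace C11At

variable {g : E → F} {x₀ : E}

/-- All local data at once: derivative, quadratic remainder and Lipschitz derivative. -/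
lemma data (h : C11At g x₀) : ∃ r > (0 : ℝ), ∃ C : ℝ, 0 ≤ C ∧ ∀ x, ‖x - x₀‖ ≤ r →
    HasFDerivAt g (fderiv ℝ g x) x ∧ ∀ y, ‖y - x₀‖ ≤ r →
      ‖g y - g x - fderiv ℝ g x (y - x)‖ ≤ C * ‖y - x‖ ^ 2 ∧
      ‖fderiv ℝ g y - fderiv ℝ g x‖ ≤ C * ‖y - x‖ ∧ ‖g y - g x‖ ≤ C * ‖y - x‖ := by
  obtain ⟨r, hr, C, hC, h⟩ := h
  set L := ‖fderiv ℝ g x₀‖
  refine ⟨r / 4, by linarith, 6 * C + 8 * C * r + L, by positivity, fun x hx => ?_⟩
  have hderiv : HasFDerivAt g (fderiv ℝ g x) x :=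
    hasFDerivAt_of_quad (by linarith : 0 < r / 2) fun z hz =>
      h x z (by linarith) (by linarith [norm_sub_le_norm_sub_add_norm_sub z x x₀])
  have lip : ∀ x y : E, ‖x - x₀‖ ≤ r / 4 → ‖y - x₀‖ ≤ r / 4 →
      ‖fderiv ℝ g y - fderiv ℝ g x‖ ≤ 6 * C * ‖y - x‖ := by
    intro x y hx hy
    refine ContinuousLinearMap.opNorm_le_bound _ (by positivity) fun v => ?_
    rcases eq_or_ne v 0 with rfl | hv
    · simp
    rcases eq_or_ne y x with rfl | hne
    · simp
    have ht : 0 < ‖y - x‖ := norm_pos_iff.2 (sub_ne_zero.2 hne)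
    have hv' : 0 < ‖v‖ := norm_pos_iff.2 hv
    set k := (‖y - x‖ / ‖v‖) • v
    have hk : ‖k‖ = ‖y - x‖ := by
      simp only [k, norm_smul, Real.norm_of_nonneg (div_nonneg ht.le hv'.le)]
      field_simp
    have hyk : ‖y + k - x₀‖ ≤ r := by
      have := norm_add_le (y - x₀) k
      rw [show y - x₀ + k = y + k - x₀ by abel] at this
      linarith [norm_sub_le_norm_sub_add_norm_sub y x₀ x, norm_sub_rev x x₀]
    have h1 := h y (y + k) (by linarith) hyk
    have h2 := h x y (by linarith) (by linarith)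
    have h3 := h x (y + k) (by linarith) hyk
    rw [add_sub_cancel_left, hk] at h1
    have h3' : ‖y + k - x‖ ≤ 2 * ‖y - x‖ := by
      have := norm_add_le (y - x) k
      rw [show y - x + k = y + k - x by abel] at this
      linarith
    have e : fderiv ℝ g y k - fderiv ℝ g x k = (g (y + k) - g x - fderiv ℝ g x (y + k - x)) -
        (g (y + k) - g y - fderiv ℝ g y k) - (g y - g x - fderiv ℝ g x (y - x)) := by
      rw [show y + k - x = (y - x) + k by abel, map_add]; abel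
    have hmain : ‖(fderiv ℝ g y - fderiv ℝ g x) k‖ ≤ 6 * C * ‖y - x‖ ^ 2 := by
      rw [sub_apply, e]
      refine (norm_sub_le _ _).trans ?_
      refine (add_le_add (norm_sub_le _ _) h2).trans ?_
      nlinarith [mul_le_mul_of_nonneg_left (pow_le_pow_left₀ (norm_nonneg _) h3' 2) hC]
    simp only [k, map_smul, norm_smul, Real.norm_of_nonneg (div_nonneg ht.le hv'.le)] at hmain
    rw [div_mul_eq_mul_div, div_le_iff₀ hv'] at hmain
    nlinarith
  refine ⟨hderiv, fun y hy => ⟨(h x y (by linarith) (by linarith)).trans ?_,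
    (lip x y hx hy).trans ?_, ?_⟩⟩
  · gcongr; nlinarith [norm_nonneg (fderiv ℝ g x₀)]
  · gcongr; nlinarith [norm_nonneg (fderiv ℝ g x₀)]
  · have h1 := h x y (by linarith) (by linarith)
    have h2 := norm_le_norm_add_norm_sub' (fderiv ℝ g x) (fderiv ℝ g x₀)
    have h3 := lip x₀ x (by simpa using by linarith) hx
    have h4 := (fderiv ℝ g x).le_opNorm (y - x)
    have h5 := norm_le_norm_add_norm_sub' (g y - g x) (fderiv ℝ g x (y - x))
    have h6 : ‖y - x‖ ≤ r := by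
      linarith [norm_sub_le_norm_sub_add_norm_sub y x₀ x, norm_sub_rev x x₀]
    have h7 : ‖fderiv ℝ g x‖ ≤ L + 6 * C * r := by
      nlinarith
    nlinarith [mul_le_mul_of_nonneg_right h7 (norm_nonneg (y - x)),
      mul_le_mul_of_nonneg_left h6 (mul_nonneg hC (norm_nonneg (y - x))),
      mul_nonneg hC (norm_nonneg (y - x)), mul_nonneg (mul_nonneg hC hr.le) (norm_nonneg (y - x))]

lemma continuousAt (h : C11At g x₀) : ContinuousAt g x₀ := by
  obtain ⟨r, hr, C, _, h⟩ := h.data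
  exact (h x₀ (by simpa using hr.le)).1.continuousAt

lemma hasFDerivAt (h : C11At g x₀) : HasFDerivAt g (fderiv ℝ g x₀) x₀ := by
  obtain ⟨r, hr, C, _, h⟩ := h.data
  exact (h x₀ (by simpa using hr.le)).1

lemma continuousAt_fderiv (h : C11At g x₀) : ContinuousAt (fderiv ℝ g) x₀ := by
  obtain ⟨r, hr, C, hC, h⟩ := h.data
  rw [ContinuousAt, tendsto_iff_norm_sub_tendsto_zero]
  refine squeeze_zero' (Eventually.of_forall fun _ => norm_nonneg _)
    (g := fun y => C * ‖y - x₀‖) ?_ ?_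
  · filter_upwards [Metric.closedBall_mem_nhds x₀ hr] with y hy
    rw [mem_closedBall, dist_eq_norm] at hy
    exact ((h x₀ (by simpa using hr.le)).2 y hy).2.1
  · exact ((continuous_id.sub continuous_const).norm.const_mul _).tendsto' x₀ 0 (by simp)

lemma comp {G : Type*} [NormedAddCommGroup G] [NormedSpace ℝ G] {φ : F → G}
    (hφ : C11At φ (g x₀)) (h : C11At g x₀) : C11At (φ ∘ g) x₀ := by
  obtain ⟨r, hr, C, hC, hg⟩ := h.data
  obtain ⟨s, hs, K, hK, hf⟩ := hφ.data
  refine .of_exists ⟨min r (s / (C + 1)), by positivity,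
    K * C * C + (‖fderiv ℝ φ (g x₀)‖ + K * s) * C, fun x hx => ?_⟩
  have hball : ∀ y, ‖y - x₀‖ ≤ min r (s / (C + 1)) → ‖g y - g x₀‖ ≤ s := fun y hy => by
    refine (((hg x₀ (by simpa using hr.le)).2 y (hy.trans (min_le_left _ _))).2.2).trans ?_
    have := hy.trans (min_le_right _ _)
    rw [le_div_iff₀ (by positivity)] at this
    nlinarith [norm_nonneg (y - x₀)]
  refine ⟨(fderiv ℝ φ (g x)).comp (fderiv ℝ g x), fun y hy => ?_⟩
  obtain ⟨q1, -, q3⟩ := (hg x (hx.trans (min_le_left _ _))).2 y (hy.trans (min_le_left _ _))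
  obtain ⟨p1, -, -⟩ := (hf (g x) (hball x hx)).2 (g y) (hball y hy)
  obtain ⟨-, p2, -⟩ := (hf (g x₀) (by simpa using hs.le)).2 (g x) (hball x hx)
  have hop : ‖fderiv ℝ φ (g x)‖ ≤ ‖fderiv ℝ φ (g x₀)‖ + K * s :=
    (norm_le_norm_add_norm_sub' _ _).trans (add_le_add le_rfl
      (p2.trans (mul_le_mul_of_nonneg_left (hball x hx) hK)))
  simp only [Function.comp_apply, ContinuousLinearMap.comp_apply]
  rw [show φ (g y) - φ (g x) - fderiv ℝ φ (g x) (fderiv ℝ g x (y - x)) =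
      (φ (g y) - φ (g x) - fderiv ℝ φ (g x) (g y - g x)) +
        fderiv ℝ φ (g x) (g y - g x - fderiv ℝ g x (y - x)) by simp only [map_sub]; abel]
  refine (norm_add_le _ _).trans ((add_le_add (p1.trans (mul_le_mul_of_nonneg_left
    (pow_le_pow_left₀ (norm_nonneg _) q3 2) hK)) ((ContinuousLinearMap.le_opNorm _ _).trans
    (mul_le_mul hop q1 (norm_nonneg _) (by positivity)))).trans (le_of_eq (by ring)))

lemma congr {g' : E → F} (h : C11At g x₀) (e : g' =ᶠ[𝓝 x₀] g) : C11At g' x₀ := by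
  obtain ⟨r, hr, C, _, h⟩ := h
  obtain ⟨s, hs, hs'⟩ := Metric.mem_nhds_iff.1 e
  refine .of_exists ⟨min r (s / 2), by positivity, C, fun x hx => ⟨fderiv ℝ g x, fun y hy => ?_⟩⟩
  have m : ∀ z, ‖z - x₀‖ ≤ min r (s / 2) → g' z = g z := fun z hz => hs' (by
    rw [mem_ball, dist_eq_norm]; linarith [hz.trans (min_le_right _ _)])
  rw [m x hx, m y hy]
  exact h x y (hx.trans (min_le_left _ _)) (hy.trans (min_le_left _ _))

lemma prodMk {G : Type*} [NormedAddCommGroup G] [NormedSpace ℝ G] {g' : E → G}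
    (h : C11At g x₀) (h' : C11At g' x₀) : C11At (fun x => (g x, g' x)) x₀ := by
  obtain ⟨r, hr, C, hC, hg⟩ := h
  obtain ⟨r', hr', C', hC', hg'⟩ := h'
  refine .of_exists ⟨min r r', by positivity, C + C', fun x hx =>
    ⟨(fderiv ℝ g x).prod (fderiv ℝ g' x), fun y hy => ?_⟩⟩
  have a := hg x y (hx.trans (min_le_left _ _)) (hy.trans (min_le_left _ _))
  have b := hg' x y (hx.trans (min_le_right _ _)) (hy.trans (min_le_right _ _))
  simp only [ContinuousLinearMap.prod_apply, Prod.mk_sub_mk, Prod.norm_def]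
  refine max_le (a.trans ?_) (b.trans ?_) <;> gcongr <;> linarith

end C11At

lemma C11At.of_contDiffAt {g : E → F} {x₀ : E} (h : ContDiffAt ℝ 2 g x₀) : C11At g x₀ := by
  have hd : ContDiffAt ℝ 1 (fderiv ℝ g) x₀ := h.fderiv_right (by norm_num)
  obtain ⟨K, t, ht, hK⟩ := hd.exists_lipschitzOnWith
  have hev : ∀ᶠ x in 𝓝 x₀, DifferentiableAt ℝ g x :=
    (h.of_le (by norm_num : (1 : WithTop ℕ∞) ≤ 2)).eventually (by simp) |>.mono
      fun x hx => hx.differentiableAt (by simp)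
  obtain ⟨s, hs, hs'⟩ := Metric.mem_nhds_iff.1 (Filter.inter_mem ht hev)
  refine .of_exists ⟨s / 2, by linarith, K, fun x hx => ⟨fderiv ℝ g x, fun y hy => ?_⟩⟩
  have hseg : segment ℝ x y ⊆ ball x₀ s := (convex_ball x₀ s).segment_subset
    (by rw [mem_ball, dist_eq_norm]; linarith) (by rw [mem_ball, dist_eq_norm]; linarith)
  have := (convex_segment x y).norm_image_sub_le_of_norm_hasFDerivWithin_le' (f := g)
    (f' := fderiv ℝ g) (φ := fderiv ℝ g x) (C := K * ‖y - x‖)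
    (fun z hz => ((hs' (hseg hz)).2).hasFDerivAt.hasFDerivWithinAt)
    (fun z hz => (hK.norm_sub_le (hs' (hseg hz)).1 (hs' (hseg (left_mem_segment ℝ x y))).1).trans
      (mul_le_mul_of_nonneg_left (norm_sub_le_of_mem_segment hz) K.coe_nonneg))
    (left_mem_segment ℝ x y) (right_mem_segment ℝ x y)
  rwa [mul_assoc, ← sq] at this

/-- A map which is differentiable in each of a norming set of observations is differentiable. -/
theorem exists_linear_approx {W V : Type*} [NormedAddCommGroup W] [NormedSpace ℝ W]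
    [CompleteSpace W] [NormedAddCommGroup V] [NormedSpace ℝ V] (P : Set (W →L[ℝ] V)) {K : ℝ}
    (hK : 0 ≤ K) (hP : ∀ (w : W) (B : ℝ), 0 ≤ B → (∀ T ∈ P, ‖T w‖ ≤ B) → ‖w‖ ≤ K * B)
    {g : E → W} {x₀ : E} {r C L : ℝ} (hr : 0 < r) (hC : 0 ≤ C)
    (hlip : ∀ x y, ‖x - x₀‖ ≤ r → ‖y - x₀‖ ≤ r → ‖g y - g x‖ ≤ L * ‖y - x‖)
    (h : ∀ x, ‖x - x₀‖ ≤ r → ∀ T ∈ P, ∃ D : E →L[ℝ] V, ∀ y, ‖y - x₀‖ ≤ r →
      ‖T (g y - g x) - D (y - x)‖ ≤ C * ‖y - x‖ ^ 2) : C11At g x₀ := by
  refine .of_exists ⟨r / 2, by linarith, K * C, fun x hx => ?_⟩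
  choose D hD using h x (by linarith)
  have hpos : ∀ d : E, 0 < r / (2 * (‖d‖ + 1)) := fun d => by positivity
  have hin : ∀ (d : E) (s : ℝ), |s| ≤ r / (2 * (‖d‖ + 1)) → ‖x + s • d - x₀‖ ≤ r := fun d s hs => by
    refine (norm_le_norm_add_norm_sub' _ (x - x₀)).trans ?_
    rw [show x + s • d - x₀ - (x - x₀) = s • d by abel, norm_smul, Real.norm_eq_abs]
    rw [le_div_iff₀ (by positivity)] at hs
    nlinarith [abs_nonneg s, norm_nonneg d]
  set q : E → ℝ → W := fun d s => s⁻¹ • (g (x + s • d) - g x)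
  have hq : ∀ (d : E) (s : ℝ), s ≠ 0 → |s| ≤ r / (2 * (‖d‖ + 1)) → ∀ (T : W →L[ℝ] V) (hT : T ∈ P),
      ‖T (q d s) - D T hT d‖ ≤ C * ‖d‖ ^ 2 * |s| := fun d s hs0 hs T hT => by
    have := hD T hT (x + s • d) (hin d s hs)
    rw [add_sub_cancel_left, map_smul, norm_smul, mul_pow, Real.norm_eq_abs, sq_abs] at this
    rw [show T (q d s) - D T hT d = s⁻¹ • (T (g (x + s • d) - g x) - s • D T hT d) by
      rw [smul_sub, smul_smul, inv_mul_cancel₀ hs0, one_smul]; simp [q], norm_smul, norm_inv,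
      Real.norm_eq_abs, inv_mul_le_iff₀ (abs_pos.2 hs0)]
    refine this.trans (le_of_eq ?_)
    rw [← sq_abs s]; ring
  have hcau : ∀ d : E, ∃ w : W, ∀ (T : W →L[ℝ] V) (hT : T ∈ P), T w = D T hT d := by
    intro d
    set s : ℕ → ℝ := fun n => r / (2 * (‖d‖ + 1)) / ((n : ℝ) + 1) with hsdef
    have hs0 : ∀ n, 0 < s n := fun n => div_pos (hpos d) (by positivity)
    have hsle : ∀ n, |s n| ≤ r / (2 * (‖d‖ + 1)) := fun n => by
      rw [abs_of_pos (hs0 n)]
      exact div_le_self (hpos d).le (le_add_of_nonneg_left n.cast_nonneg)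
    have hslim : Tendsto s atTop (𝓝 0) :=
      Tendsto.div_atTop tendsto_const_nhds (tendsto_atTop_add_const_right _ 1
        tendsto_natCast_atTop_atTop)
    have hc : CauchySeq fun n => q d (s n) := by
      rw [cauchySeq_iff_le_tendsto_0]
      refine ⟨fun N => K * (2 * (C * ‖d‖ ^ 2 * s N)), fun N => ?_, fun m n N hm hn => ?_, ?_⟩
      · have := hs0 N; positivity
      · have := hs0 N
        rw [dist_eq_norm]
        refine hP _ _ (by positivity) fun T hT => ?_
        have a1 := hq d _ (hs0 m).ne' (hsle m) T hT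
        have a2 := hq d _ (hs0 n).ne' (hsle n) T hT
        rw [abs_of_pos (hs0 m)] at a1
        rw [abs_of_pos (hs0 n)] at a2
        have hmono : ∀ j, N ≤ j → s j ≤ s N := fun j hj =>
          div_le_div_of_nonneg_left (hpos d).le (by positivity) (by gcongr)
        rw [map_sub, show T (q d (s m)) - T (q d (s n)) =
          (T (q d (s m)) - D T hT d) - (T (q d (s n)) - D T hT d) by abel]
        refine (norm_sub_le _ _).trans ?_
        have c0 : 0 ≤ C * ‖d‖ ^ 2 := by positivity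
        nlinarith [mul_le_mul_of_nonneg_left (hmono m hm) c0,
          mul_le_mul_of_nonneg_left (hmono n hn) c0]
      · simpa using ((hslim.const_mul (C * ‖d‖ ^ 2)).const_mul 2).const_mul K
    obtain ⟨w, hw⟩ := cauchySeq_tendsto_of_complete hc
    refine ⟨w, fun T hT => tendsto_nhds_unique ((T.continuous.tendsto w).comp hw) ?_⟩
    rw [tendsto_iff_norm_sub_tendsto_zero]
    refine squeeze_zero (fun n => norm_nonneg _) (fun n => hq d _ (hs0 n).ne' (hsle n) T hT) ?_
    simpa using (tendsto_norm_zero.comp hslim).const_mul (C * ‖d‖ ^ 2)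
  choose A hA using hcau
  have sep : ∀ u v : W, (∀ T ∈ P, T u = T v) → u = v := fun u v huv => by
    have h0 := hP (u - v) 0 le_rfl fun T hT => by rw [map_sub, huv T hT, sub_self, norm_zero]
    rw [mul_zero] at h0
    exact sub_eq_zero.1 (norm_le_zero_iff.1 h0)
  have hquad : ∀ y, ‖y - x₀‖ ≤ r → ‖g y - g x - A (y - x)‖ ≤ K * C * ‖y - x‖ ^ 2 := fun y hy => by
    rw [mul_assoc]
    refine hP _ _ (by positivity) fun T hT => ?_
    rw [map_sub, hA]
    exact hD T hT y hy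
  let A₀ : E →ₗ[ℝ] W :=
    { toFun := A
      map_add' := fun a b => sep _ _ fun T hT => by
        rw [map_add, hA _ T hT, hA _ T hT, hA _ T hT, map_add]
      map_smul' := fun c a => sep _ _ fun T hT => by
        rw [RingHom.id_apply, map_smul, hA _ T hT, hA _ T hT, map_smul] }
  refine ⟨A₀.mkContinuous (L + K * C * r) fun d => ?_, fun y hy => hquad y (by linarith)⟩
  rcases eq_or_ne d 0 with rfl | hd
  · simp
  set t := r / (2 * (‖d‖ + 1))
  have ht : 0 < t := hpos d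
  have hb := hquad _ (hin d t (abs_of_pos ht).le)
  have hl := hlip x _ (by linarith) (hin d t (abs_of_pos ht).le)
  rw [add_sub_cancel_left, norm_smul, Real.norm_of_nonneg ht.le] at hb hl
  have e : A (t • d) = t • A d := A₀.map_smul t d
  rw [e] at hb
  have h1 : t * ‖A d‖ ≤ t * ((L + K * C * r) * ‖d‖) := by
    have := norm_le_norm_add_norm_sub' (t • A d) (g (x + t • d) - g x)
    rw [norm_smul, Real.norm_of_nonneg ht.le, norm_sub_rev (t • A d)] at this
    have h2 : t * ‖d‖ ≤ r := by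
      have e : t * (2 * (‖d‖ + 1)) = r := div_mul_cancel₀ r (by positivity)
      nlinarith [norm_nonneg d]
    have h3 : (t * ‖d‖) ^ 2 ≤ r * (t * ‖d‖) := by nlinarith [norm_nonneg d, mul_le_mul_of_nonneg_right h2 (mul_nonneg ht.le (norm_nonneg d))]
    nlinarith [mul_le_mul_of_nonneg_left h3 (mul_nonneg hK hC)]
  exact le_of_mul_le_mul_left h1 ht

end Vale.Agent.P084.Smooth
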