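import Vale.Agent.P084.Smooth.Spectral

/-!
A totally symmetric form `g (τ (a, b)) c` in which every `u` satisfies
`J u (τ (u, w)) = δ(u) * g (u, w)` vanishes, for a semidefinite `g` of rank at least two.

The form is bounded for the seminorm of `g` (approximate eigenvectors); bounded near maximisers
exist on the whole space and on the orthogonal of a near maximiser `a`; for a vector `r` of the
plane of two near maximisers the form on the orthogonal of `r` is small compared with its gradient.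
-/

open Set Filter Topology

namespace Vale.Agent.P084.Smooth

namespace Cubic

variable {H : Type*} [NormedAddCommGroup H] [NormedSpace ℝ H]

lemma constants {Γ P L : ℝ} (hΓ : 1 ≤ Γ) (hP0 : 0 ≤ P) (hL0 : 0 < L) :
    ∃ c₀ σ θ : ℝ, 0 < c₀ ∧ c₀ ≤ 1 / 8 ∧ P * c₀ ≤ 1 / 8 ∧ 0 < σ ∧
      (1 + 4 * P) * σ = c₀ * L / 16 ∧ 0 < θ ∧ θ ≤ 1 ∧ θ ^ 2 ≤ θ ∧ θ ≤ L / 4 ∧ θ ≤ σ / 4 ∧
      (2 * Γ * (9 / L) * (1 + 14 * Γ) + (1 + 14 * Γ)) * θ * (9 / L) ≤ 1 ∧
      (6 + 10 * P) * ((2 * Γ * (9 / L) * (1 + 14 * Γ) + (1 + 14 * Γ)) * θ) ≤ c₀ * L / 64 ∧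
      Γ * (9 / L + 9 / σ) * ((1 + 14 * Γ) * θ) ≤ σ * L / (256 * Γ) ∧
      (6 + 10 * (Γ * (9 / L + 9 / σ))) *
        ((2 * Γ * (9 / L) * (1 + 14 * Γ) + (1 + 14 * Γ)) * θ) ≤ σ * L / (256 * Γ) := by
  obtain ⟨c₀, hc₀⟩ : ∃ c, c = 1 / (8 * P + 8) := ⟨_, rfl⟩
  have hc0 : 0 < c₀ := by rw [hc₀]; positivity
  obtain ⟨σ, hσdef⟩ : ∃ c, c = c₀ * L / (16 * (1 + 4 * P)) := ⟨_, rfl⟩
  have hσ : 0 < σ := by rw [hσdef]; positivity
  set W := 2 * Γ * (9 / L) * (1 + 14 * Γ) + (1 + 14 * Γ) with hW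
  have hW0 : 0 < W := by positivity
  set P' := Γ * (9 / L + 9 / σ) with hP'
  have hP'0 : 0 ≤ P' := by positivity
  set C := 1 + 14 * Γ with hC
  have hC0 : 0 < C := by positivity
  set k₁ := 9 / L * W
  set k₂ := (6 + 10 * P) * W * 64 / (c₀ * L)
  set k₃ := P' * C * (256 * Γ) / (σ * L)
  set k₄ := (6 + 10 * P') * W * (256 * Γ) / (σ * L)
  have p1 : 0 ≤ k₁ := by positivity
  have p2 : 0 ≤ k₂ := by positivity
  have p3 : 0 ≤ k₃ := by positivity
  have p4 : 0 ≤ k₄ := by positivity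
  have p5 : 0 ≤ 4 / L := by positivity
  have p6 : 0 ≤ 4 / σ := by positivity
  obtain ⟨θ, hθ, hall⟩ : ∃ θ, 0 < θ ∧ ∀ k, 0 ≤ k → k ≤ 1 + k₁ + k₂ + k₃ + k₄ + 4 / L + 4 / σ →
      θ * k ≤ 1 := by
    refine ⟨1 / (1 + k₁ + k₂ + k₃ + k₄ + 4 / L + 4 / σ), by positivity, fun k hk hle => ?_⟩
    rw [one_div_mul_eq_div, div_le_one (by positivity)]
    exact hle
  have hθ1 : θ ≤ 1 := by simpa using hall 1 zero_le_one (by linarith)
  refine ⟨c₀, σ, θ, hc0, ?_, ?_, hσ, ?_, hθ, hθ1, (sq θ).le.trans (mul_le_of_le_one_left hθ.le hθ1),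
    ?_, ?_, ?_, ?_, ?_, ?_⟩
  · rw [hc₀]; exact div_le_div_of_nonneg_left zero_le_one (by norm_num) (by linarith)
  · rw [hc₀, mul_one_div, div_le_iff₀ (by positivity)]; linarith
  · rw [hσdef]; field_simp
  · have := hall _ p5 (by linarith)
    rw [← mul_div_assoc, div_le_one hL0] at this
    linarith
  · have := hall _ p6 (by linarith)
    rw [← mul_div_assoc, div_le_one hσ] at this
    linarith
  · have := hall _ p1 (by linarith)
    linarith
  · have := hall _ p2 (by linarith)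
    rw [← mul_div_assoc, div_le_one (by positivity)] at this
    linarith
  · have := hall _ p3 (by linarith)
    rw [← mul_div_assoc, div_le_one (by positivity)] at this
    rw [le_div_iff₀ (by positivity)]
    linarith
  · have := hall _ p4 (by linarith)
    rw [← mul_div_assoc, div_le_one (by positivity)] at this
    rw [le_div_iff₀ (by positivity)]
    linarith

/-- The hypotheses. -/
structure Hyp (J : H → H →L[ℝ] ℝ) (g : H →L[ℝ] H →L[ℝ] ℝ) (τ : H →L[ℝ] H →L[ℝ] H) (Γ : ℝ) :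
    Prop where
  le : ∀ u x, |J u x| ≤ ‖x‖
  self : ∀ u, u ≠ 0 → J u u = ‖u‖
  gs : ∀ a b, g a b = g b a
  g0 : ∀ a, 0 ≤ g a a
  ts : ∀ a b, τ a b = τ b a
  tg : ∀ a b c, g (τ a b) c = g (τ a c) b
  eig : ∀ u : H, u ≠ 0 → ∃ δ : ℝ, |δ| ≤ 2 ∧ ∀ w, J u (τ u w) = δ * g u w
  one_le : 1 ≤ Γ
  bound : ∀ a b, |g a b| ≤ Γ ^ 2 * (‖a‖ * ‖b‖)

namespace Hyp

variable {J : H → H →L[ℝ] ℝ} {g : H →L[ℝ] H →L[ℝ] ℝ} {τ : H →L[ℝ] H →L[ℝ] H} {Γ : ℝ}
variable (D : Hyp J g τ Γ)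
include D

lemma perm (a b c : H) :
    g (τ a b) c = g (τ b a) c ∧ g (τ a b) c = g (τ a c) b ∧ g (τ a b) c = g (τ c b) a :=
  ⟨by rw [D.ts], D.tg a b c, by rw [D.ts a b, D.tg b a c, D.ts b c]⟩

lemma abs_g_le (a b : H) : |g a b| ≤ Real.sqrt (g a a) * Real.sqrt (g b b) := by
  rw [← Real.sqrt_mul (D.g0 a)]
  exact Real.abs_le_sqrt (cs_psd g D.gs D.g0 a b)

lemma nm_le (a : H) : Real.sqrt (g a a) ≤ Γ * ‖a‖ := by
  rw [Real.sqrt_le_left (by have := D.one_le; positivity)]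
  refine (le_abs_self _).trans ((D.bound a a).trans (le_of_eq ?_))
  ring

/-- A linear function bounded by `R` on the unit ball of the seminorm. -/
lemma lin_le {W : Set H} (hW : ∀ x ∈ W, ∀ c : ℝ, c • x ∈ W) (φ : H →L[ℝ] ℝ) {R : ℝ}
    (h : ∀ x ∈ W, g x x ≤ 1 → |φ x| ≤ R) {y : H} (hy : y ∈ W) :
    |φ y| ≤ R * Real.sqrt (g y y) := by
  have hR : 0 ≤ R := (abs_nonneg _).trans (h _ (hW y hy 0) (by simp))
  refine le_of_forall_pos_le_add fun ε hε => ?_
  set s := Real.sqrt (g y y) + ε / (R + 1) with hs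
  have hs0 : 0 < s := by have := Real.sqrt_nonneg (g y y); positivity
  have h1 := h _ (hW y hy s⁻¹) (by
    simp only [map_smul, smul_apply, smul_eq_mul]
    rw [← mul_assoc, ← mul_inv, inv_mul_le_iff₀ (by positivity), mul_one]
    calc g y y = Real.sqrt (g y y) * Real.sqrt (g y y) := (Real.mul_self_sqrt (D.g0 y)).symm
      _ ≤ s * s := by
        have : 0 ≤ ε / (R + 1) := by positivity
        exact mul_le_mul (by linarith) (by linarith) (Real.sqrt_nonneg _) hs0.le)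
  rw [map_smul, smul_eq_mul, abs_mul, abs_inv, abs_of_pos hs0, inv_mul_le_iff₀ hs0] at h1
  refine h1.trans ?_
  have h2 : ε / (R + 1) * R ≤ ε := by
    rw [div_mul_eq_mul_div, div_le_iff₀ (by linarith)]; linarith
  rw [hs]; linarith

/-- An approximate eigenvector of a compressed operator, pushed to the orthogonal of `a`. -/
lemma eigvec [CompleteSpace H] {a : H} (ha : g a a = 1 ∨ a = 0) (r : H) {s : ℝ} (hs : 0 < s)
    {k : H} (hk : g a k = 0) (h : s * g k k < g (τ r k) k) :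
    ∃ t, s ≤ t ∧ ∀ ν > (0 : ℝ), ∃ y, g a y = 0 ∧ 1 - ν / s ≤ ‖y‖ ∧
      ‖τ r y - g (τ r y) a • a - t • y‖ ≤ ν := by
  set P : H →L[ℝ] H := 1 - (g a).smulRight a with hPdef
  have hP : ∀ x, P x = x - g a x • a := fun x => by simp [hPdef]
  have hga : ∀ x, g a (P x) = 0 := fun x => by
    rcases ha with ha | ha
    · simp [hP, ha]
    · simp [ha]
  have hPs : ∀ x y, g (P x) y = g x (P y) := fun x y => by
    simp [hP, D.gs x a]; ring
  set A : H →L[ℝ] H := P.comp ((τ r).comp P) with hAdef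
  have hA : ∀ x y, g (A x) y = g x (A y) := fun x y => by
    simp only [hAdef, ContinuousLinearMap.comp_apply]
    rw [hPs, D.tg r (P x) (P y), D.gs (τ r (P y)) (P x), hPs]
  have hAk : g (A k) k = g (τ r k) k := by
    simp only [hAdef, ContinuousLinearMap.comp_apply]
    rw [hPs, show P k = k by simp [hP, hk]]
  obtain ⟨t, ht, hy⟩ := exists_approx g D.gs D.g0 A hA (s := s) (k := k) (by rwa [hAk])
  refine ⟨t, ht, fun ν hν => ?_⟩
  set Cp := 1 + Γ ^ 2 * ‖a‖ ^ 2 with hCp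
  have hCp1 : 1 ≤ Cp := le_add_of_nonneg_right (by positivity)
  obtain ⟨x, hx1, hx⟩ := hy (ν / Cp) (by positivity)
  have ht0 : 0 < t := hs.trans_le ht
  refine ⟨P x, hga x, ?_, ?_⟩
  · have h1 : ‖t • (x - P x)‖ ≤ ν := by
      have e : t • (x - P x) = g a (t • x - A x) • a := by
        rw [map_sub, show g a (A x) = 0 from hga _, map_smul, smul_eq_mul, sub_zero, hP,
          sub_sub_cancel, smul_smul]
      rw [e, norm_smul, Real.norm_eq_abs]
      refine (mul_le_mul_of_nonneg_right ((D.bound _ _).trans (mul_le_mul_of_nonneg_left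
        (mul_le_mul_of_nonneg_left hx (norm_nonneg _)) (sq_nonneg Γ))) (norm_nonneg _)).trans ?_
      calc Γ ^ 2 * (‖a‖ * (ν / Cp)) * ‖a‖ = ν * ((Γ ^ 2 * ‖a‖ ^ 2) / Cp) := by ring
        _ ≤ ν * 1 := mul_le_mul_of_nonneg_left
          ((div_le_one (by linarith)).2 (le_add_of_nonneg_left zero_le_one)) hν.le
        _ = ν := mul_one ν
    rw [norm_smul, Real.norm_of_nonneg ht0.le] at h1
    have h2 : s * ‖x - P x‖ ≤ ν := (mul_le_mul_of_nonneg_right ht (norm_nonneg _)).trans h1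
    rw [← le_div_iff₀' hs] at h2
    have := norm_le_norm_add_norm_sub' x (P x)
    linarith
  · have e : τ r (P x) - g (τ r (P x)) a • a - t • P x =
        (A x - t • x) + g a (t • x - A x) • a := by
      rw [map_sub, show g a (A x) = 0 from hga _, map_smul, smul_eq_mul, sub_zero,
        show A x = τ r (P x) - g a (τ r (P x)) • a from hP _, D.gs (τ r (P x)) a,
        show t • P x = t • x - (t * g a x) • a by rw [hP, smul_sub, smul_smul]]
      abel
    rw [e]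
    refine (norm_add_le _ _).trans ?_
    rw [norm_smul, Real.norm_eq_abs, norm_sub_rev]
    calc _ ≤ ν / Cp + Γ ^ 2 * (‖a‖ * (ν / Cp)) * ‖a‖ := add_le_add hx
          (mul_le_mul_of_nonneg_right ((D.bound _ _).trans (mul_le_mul_of_nonneg_left
            (mul_le_mul_of_nonneg_left hx (norm_nonneg _)) (sq_nonneg Γ))) (norm_nonneg _))
      _ = ν / Cp * Cp := by rw [hCp]; ring
      _ = ν := div_mul_cancel₀ ν (by linarith)

/-- The form is bounded for the seminorm. -/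
lemma diag_le [CompleteSpace H] (a b : H) :
    |g (τ a b) b| ≤ 2 * Γ * Real.sqrt (g a a) * g b b := by
  suffices h : ∀ a b, g (τ a b) b ≤ 2 * Γ * Real.sqrt (g a a) * g b b by
    refine abs_le.2 ⟨?_, h a b⟩
    have := h (-a) b
    simp only [map_neg, neg_apply, neg_neg] at this
    linarith
  intro a b
  refine le_of_forall_pos_le_add fun ε hε => ?_
  by_contra hlt
  rw [not_le] at hlt
  set s := 2 * Γ * Real.sqrt (g a a) + ε / (g b b + 1) with hs
  have hΓ := D.one_le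
  have hgb := D.g0 b
  have hs0 : 0 < s := by
    have : 0 < ε / (g b b + 1) := by positivity
    have : 0 ≤ 2 * Γ * Real.sqrt (g a a) := by positivity
    linarith
  have hlt' : s * g b b < g (τ a b) b := by
    have h2 : ε / (g b b + 1) * g b b ≤ ε := by
      rw [div_mul_eq_mul_div, div_le_iff₀ (by linarith)]; nlinarith
    rw [hs]; linarith
  obtain ⟨t, ht, hy⟩ := D.eigvec (a := 0) (Or.inr rfl) a hs0 (by simp) hlt'
  set μ := (ε / (g b b + 1)) / 4 with hμ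
  have hμ0 : 0 < μ := by positivity
  obtain ⟨y, -, hy1, hy2⟩ := hy (min (s / 2) (μ / 2)) (lt_min (by linarith) (by linarith))
  simp only [map_zero, zero_smul, sub_zero] at hy2
  have hyn : 1 / 2 ≤ ‖y‖ := by
    refine le_trans ?_ hy1
    have h1 : min (s / 2) (μ / 2) / s ≤ s / 2 / s :=
      div_le_div_of_nonneg_right (min_le_left _ _) hs0.le
    have h2 : s / 2 / s = 1 / 2 := by field_simp
    linarith
  have hy0 : y ≠ 0 := norm_pos_iff.1 (by linarith)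
  obtain ⟨δ, hδ, hδe⟩ := D.eig y hy0
  have h3 := (le_abs_self _).trans ((D.le y _).trans hy2)
  rw [map_sub, map_smul, smul_eq_mul, D.self y hy0, D.ts, hδe] at h3
  have h3' := (abs_le.1 ((D.le y _).trans hy2)).1
  rw [map_sub, map_smul, smul_eq_mul, D.self y hy0, D.ts, hδe] at h3'
  have h4 : |δ * g y a| ≤ 2 * (Γ * ‖y‖ * Real.sqrt (g a a)) := by
    rw [abs_mul]
    exact mul_le_mul hδ ((D.abs_g_le y a).trans
      (mul_le_mul_of_nonneg_right (D.nm_le y) (Real.sqrt_nonneg _))) (abs_nonneg _) (by norm_num)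
  have h5 : min (s / 2) (μ / 2) ≤ μ * ‖y‖ := (min_le_right _ _).trans (by nlinarith)
  have h6 : s * ‖y‖ ≤ t * ‖y‖ := mul_le_mul_of_nonneg_right ht (norm_nonneg _)
  have h7 : 0 < μ * ‖y‖ := mul_pos hμ0 (by linarith)
  have h8 := (abs_le.1 h4).2
  have h9 : s * ‖y‖ = 2 * Γ * Real.sqrt (g a a) * ‖y‖ + 4 * (μ * ‖y‖) := by
    rw [hs, hμ]; ring
  linarith

/-- The form is bounded on the unit ball of the seminorm. -/
lemma ball_le [CompleteSpace H] {a b c : H} (ha : g a a ≤ 1) (hb : g b b ≤ 1) (hc : g c c ≤ 1) :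
    |g (τ a b) c| ≤ 2 * Γ := by
  have h1 := abs_le.1 (D.diag_le a (b + c))
  have h2 := abs_le.1 (D.diag_le a (b - c))
  simp only [map_add, map_sub, add_apply, sub_apply, D.tg a c b, D.gs c b] at h1 h2
  have hΓ := D.one_le
  set K := 2 * Γ * Real.sqrt (g a a) with hK
  have hK0 : 0 ≤ K := by positivity
  have hK1 : K ≤ 2 * Γ :=
    mul_le_of_le_one_right (by linarith) ((Real.sqrt_le_left zero_le_one).2 (by simpa using ha))
  have h3 : K * g b b ≤ K * 1 := mul_le_mul_of_nonneg_left hb hK0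
  have h4 : K * g c c ≤ K * 1 := mul_le_mul_of_nonneg_left hc hK0
  rw [abs_le]
  constructor <;> linarith

set_option linter.unusedSectionVars false in
lemma cub_le {p : H} {m : ℝ} (hsup : ∀ x, g x x = 1 → g p x = 0 → g (τ x x) x ≤ m) {v : H}
    (hp : g p v = 0) (hv : 0 < g v v) : g (τ v v) v ≤ m * Real.sqrt (g v v) ^ 3 := by
  set r := Real.sqrt (g v v) with hr
  have hr0 : 0 < r := Real.sqrt_pos.2 hv
  have hrr : r * r = g v v := Real.mul_self_sqrt hv.le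
  have h1 := hsup (r⁻¹ • v) (by
    simp only [map_smul, smul_apply, smul_eq_mul]
    rw [← mul_assoc, ← mul_inv, hrr, inv_mul_cancel₀ hv.ne']) (by simp [hp])
  have e : g (τ v v) v = r ^ 3 * g (τ (r⁻¹ • v) (r⁻¹ • v)) (r⁻¹ • v) := by
    simp only [map_smul, smul_apply, smul_eq_mul]
    field_simp
  rw [e, mul_comm m]
  exact mul_le_mul_of_nonneg_left h1 (by positivity)

/-- First and second order conditions at a near maximiser. -/
lemma near [CompleteSpace H] {p b : H} {m θ : ℝ}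
    (hsup : ∀ x, g x x = 1 → g p x = 0 → g (τ x x) x ≤ m) (hm : 0 ≤ m) (hmM : m ≤ 2 * Γ)
    (hθ : 0 < θ) (hθ1 : θ ≤ 1) (hb : g b b = 1) (hpb : g p b = 0)
    (hn : m - θ ^ 2 ≤ g (τ b b) b) {w : H} (hw : g w w ≤ 1) (hpw : g p w = 0) (hbw : g b w = 0) :
    |g (τ b b) w| ≤ (1 + 14 * Γ) * θ ∧ g (τ b w) w ≤ 31 / 50 * m + θ ^ 2 := by
  have hw0 := D.g0 w
  have hq : ∀ s : ℝ, g (b + s • w) (b + s • w) = 1 + s ^ 2 * g w w := fun s => by
    simp only [map_add, map_smul, add_apply, smul_apply, smul_eq_mul, hb, hbw, D.gs w b]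
    ring
  have e1 : g (τ b w) b = g (τ b b) w := D.tg _ _ _
  have e2 : g (τ w b) b = g (τ b b) w := by rw [D.ts, e1]
  have e3 : g (τ w b) w = g (τ b w) w := by rw [D.ts]
  have e4 : g (τ w w) b = g (τ b w) w := by rw [D.tg, e3]
  have hexp : ∀ s : ℝ, g (τ b b) b + 3 * s * g (τ b b) w + 3 * s ^ 2 * g (τ b w) w +
      s ^ 3 * g (τ w w) w ≤ m * Real.sqrt (1 + s ^ 2 * g w w) ^ 3 := fun s => by
    have h := D.cub_le hsup (v := b + s • w) (by simp [hpb, hpw]) (by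
      rw [hq]; positivity)
    rw [hq] at h
    simp only [map_add, map_smul, add_apply, smul_apply, smul_eq_mul, e1, e2, e3, e4] at h
    linarith
  have hΓ := D.one_le
  constructor
  · have key : ∀ s : ℝ, |s| = θ → 3 * s * g (τ b b) w ≤ 3 * (1 + 14 * Γ) * θ ^ 2 := by
      intro s hs
      have hs2 : s ^ 2 = θ ^ 2 := by rw [← sq_abs, hs]
      have h := hexp s
      have h1 := abs_le.1 (D.ball_le hb.le hw hw)
      have h2 : |s ^ 3 * g (τ w w) w| ≤ θ ^ 2 * (2 * Γ) := by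
        rw [abs_mul, abs_pow, hs]
        exact mul_le_mul (pow_le_pow_of_le_one hθ.le hθ1 (by norm_num)) (D.ball_le hw hw hw)
          (abs_nonneg _) (sq_nonneg _)
      have h3 : θ ^ 2 * -(2 * Γ) ≤ θ ^ 2 * g (τ b w) w :=
        mul_le_mul_of_nonneg_left h1.1 (sq_nonneg _)
      have h4 : Real.sqrt (1 + s ^ 2 * g w w) ≤ 1 + θ ^ 2 / 2 := by
        rw [Real.sqrt_le_left (by positivity), hs2]
        have : θ ^ 2 * g w w ≤ θ ^ 2 * 1 := mul_le_mul_of_nonneg_left hw (sq_nonneg _)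
        nlinarith [sq_nonneg (θ ^ 2)]
      have h5 : Real.sqrt (1 + s ^ 2 * g w w) ^ 3 ≤ 1 + 3 * θ ^ 2 := by
        refine (pow_le_pow_left₀ (Real.sqrt_nonneg _) h4 3).trans ?_
        have hu : θ ^ 2 ≤ 1 := pow_le_one₀ hθ.le hθ1
        have hu0 : 0 ≤ θ ^ 2 := sq_nonneg θ
        nlinarith [mul_le_mul_of_nonneg_left hu hu0, mul_nonneg hu0 (mul_nonneg hu0 hu0),
          mul_le_mul_of_nonneg_left hu (mul_nonneg hu0 hu0)]
      have h6 := mul_le_mul_of_nonneg_left h5 hm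
      have h7 : m * θ ^ 2 ≤ 2 * Γ * θ ^ 2 := mul_le_mul_of_nonneg_right hmM (sq_nonneg _)
      have h9 : 0 ≤ Γ * θ ^ 2 := by positivity
      have h10 := (abs_le.1 h2).1
      rw [hs2] at h h6
      linarith [sq_nonneg θ]
    have h1 := key θ (abs_of_pos hθ)
    have h2 := key (-θ) (by rw [abs_neg, abs_of_pos hθ])
    refine le_of_mul_le_mul_right ?_ (show (0 : ℝ) < 3 * θ by positivity)
    rw [← abs_of_pos (show (0 : ℝ) < 3 * θ by positivity), ← abs_mul, abs_le,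
      abs_of_pos (show (0 : ℝ) < 3 * θ by positivity)]
    constructor <;> linarith
  · have ha := hexp 1
    have hb' := hexp (-1)
    have h4 : Real.sqrt (1 + g w w) ≤ 283 / 200 := by
      rw [Real.sqrt_le_left (by norm_num)]; norm_num; linarith
    have h5 : Real.sqrt (1 + g w w) ^ 3 ≤ 1417 / 500 :=
      (pow_le_pow_left₀ (Real.sqrt_nonneg _) h4 3).trans (by norm_num)
    have h6 := mul_le_mul_of_nonneg_left h5 hm
    norm_num at ha hb'
    linarith [sq_nonneg θ]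

/-- A bounded vector on which the operator of a near maximiser is almost maximal. -/
lemma good_vec [CompleteSpace H] {a b : H} (ha : g a a = 1 ∨ a = 0) {ξ m θ : ℝ}
    (hξ : ∀ x y, g a x = 0 → g a y = 0 → g x x ≤ 1 → g y y ≤ 1 → |g (τ a x) y| ≤ ξ)
    (hξa : ξ * ‖a‖ ≤ 1) (hm : 0 < m) (hθ : 0 < θ) (hθm : θ ≤ m / 100) (ht2 : θ ^ 2 ≤ θ)
    (hb : g b b = 1) (hab : g a b = 0) (hbn : m - θ ^ 2 ≤ g (τ b b) b) :
    ∃ x, g x x = 1 ∧ g a x = 0 ∧ ‖x‖ ≤ 9 / m ∧ m - 3 * θ ^ 2 ≤ g (τ b x) x := by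
  have hΓ := D.one_le
  obtain ⟨t, ht, hy⟩ := D.eigvec ha b (s := m - 2 * θ ^ 2) (by linarith) hab (by
    rw [hb, mul_one]; linarith [pow_pos hθ 2])
  have ht' : m / 2 ≤ t := by linarith
  obtain ⟨ν, hν, hν8, hνΓ⟩ : ∃ ν, 0 < ν ∧ ν ≤ m / 8 ∧ ν ≤ m * θ ^ 2 / (12 * Γ) :=
    ⟨min (m / 8) (m * θ ^ 2 / (12 * Γ)), lt_min (by positivity) (by positivity),
      min_le_left _ _, min_le_right _ _⟩
  obtain ⟨y, hay, hy1, hy2⟩ := hy ν hν
  have hy34 : 3 / 4 ≤ ‖y‖ := by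
    have : ν / (m - 2 * θ ^ 2) ≤ 1 / 4 := by
      rw [div_le_iff₀ (by linarith)]; linarith
    linarith
  have hy0 : y ≠ 0 := norm_pos_iff.1 (by linarith)
  set n := Real.sqrt (g y y) with hn
  have hn0 : 0 ≤ n := Real.sqrt_nonneg _
  obtain ⟨δ, hδ, hδe⟩ := D.eig y hy0
  set e := g (τ b y) a with he
  have heb : |e| ≤ ξ * n := by
    rw [he, show g (τ b y) a = g (τ a b) y by rw [(D.perm b y a).2.1, D.ts b a]]
    exact D.lin_le (W := {x | g a x = 0}) (fun x hx c => by simp_all) (g (τ a b))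
      (fun x hx hx1 => hξ b x hab hx hb.le hx1) hay
  have h3 := (abs_le.1 ((D.le y _).trans hy2)).1
  rw [map_sub, map_sub, map_smul, map_smul, smul_eq_mul, smul_eq_mul, D.self y hy0, D.ts b y,
    hδe] at h3
  have h4 : |δ * g y b| ≤ 2 * n := by
    rw [abs_mul]
    refine mul_le_mul hδ ((D.abs_g_le y b).trans (le_of_eq ?_)) (abs_nonneg _) (by norm_num)
    rw [hb, Real.sqrt_one, mul_one]
  have h5 : |e * J y a| ≤ n := by
    rw [abs_mul]
    calc |e| * |J y a| ≤ (ξ * n) * ‖a‖ :=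
          mul_le_mul heb (D.le y a) (abs_nonneg _) ((abs_nonneg _).trans heb)
      _ = n * (ξ * ‖a‖) := by ring
      _ ≤ n := mul_le_of_le_one_right hn0 hξa
  have h8 := (abs_le.1 h4).2
  have h9 := (abs_le.1 h5).1
  have hty : t * ‖y‖ ≤ 3 * n + ν := by linarith
  have hty2 : m / 2 * ‖y‖ ≤ t * ‖y‖ := mul_le_mul_of_nonneg_right ht' (norm_nonneg _)
  have hm34 : m / 2 * (3 / 4) ≤ m / 2 * ‖y‖ := mul_le_mul_of_nonneg_left hy34 (by linarith)
  have hnpos : m / 12 ≤ n := by linarith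
  have hn1 : 0 < n := lt_of_lt_of_le (by positivity) hnpos
  set x := n⁻¹ • y with hxdef
  have hnn : n * n = g y y := Real.mul_self_sqrt (D.g0 y)
  have hx : g x x = 1 := by
    simp only [hxdef, map_smul, smul_apply, smul_eq_mul]
    rw [← mul_assoc, ← mul_inv, hnn, inv_mul_cancel₀]
    rw [← hnn]; positivity
  have hax : g a x = 0 := by simp [hxdef, hay]
  have hxn : ‖x‖ ≤ 9 / m := by
    rw [hxdef, norm_smul, norm_inv, Real.norm_of_nonneg hn0, inv_mul_le_iff₀ hn1,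
      mul_div_assoc', le_div_iff₀ hm]
    linarith
  set err := τ b y - e • a - t • y with herr
  have hge : |g err y| ≤ Γ * ν * n :=
    (D.abs_g_le err y).trans (mul_le_mul_of_nonneg_right
      ((D.nm_le err).trans (mul_le_mul_of_nonneg_left hy2 (by linarith))) hn0)
  have hbxx : m - 3 * θ ^ 2 ≤ g (τ b x) x := by
    have e1 : g err y = g (τ b y) y - t * g y y := by
      simp only [herr, map_sub, map_smul, sub_apply, smul_apply, smul_eq_mul, hay]
      ring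
    have h10 : Γ * ν * n ≤ θ ^ 2 * (n * n) := by
      have : ν * (12 * Γ) ≤ m * θ ^ 2 := by rwa [le_div_iff₀ (by positivity)] at hνΓ
      have h11 : m * θ ^ 2 ≤ 12 * n * θ ^ 2 :=
        mul_le_mul_of_nonneg_right (by linarith) (sq_nonneg _)
      have h12 : Γ * ν ≤ n * θ ^ 2 := by linarith
      calc Γ * ν * n ≤ n * θ ^ 2 * n := mul_le_mul_of_nonneg_right h12 hn0
        _ = _ := by ring
    have h13 : (t - θ ^ 2) * (n * n) ≤ g (τ b y) y := by
      have := (abs_le.1 hge).1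
      rw [e1, ← hnn] at this
      linarith
    simp only [hxdef, map_smul, smul_apply, smul_eq_mul]
    rw [← mul_assoc, ← mul_inv, le_inv_mul_iff₀ (by positivity)]
    have h14 : (m - 3 * θ ^ 2) * (n * n) ≤ (t - θ ^ 2) * (n * n) :=
      mul_le_mul_of_nonneg_right (by linarith) (by positivity)
    linarith
  exact ⟨x, hx, hax, hxn, hbxx⟩

/-- A vector on which the operator of a near maximiser `b` is almost maximal is almost `± b`. -/
lemma align [CompleteSpace H] {a b x : H} {m θ : ℝ}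
    (hsup : ∀ x, g x x = 1 → g a x = 0 → g (τ x x) x ≤ m) (hm : 0 < m) (hmM : m ≤ 2 * Γ)
    (hθ : 0 < θ) (hθ1 : θ ≤ 1) (hθm : θ ≤ m / 100) (ht2 : θ ^ 2 ≤ θ)
    (hb : g b b = 1) (hab : g a b = 0) (hbn : m - θ ^ 2 ≤ g (τ b b) b)
    (hx : g x x = 1) (hax : g a x = 0) (hbxx : m - 3 * θ ^ 2 ≤ g (τ b x) x) :
    ∃ c w, x = c • b + w ∧ g a w = 0 ∧ g w w = 1 - c ^ 2 ∧
      |g (τ b b) w| ≤ (1 + 14 * Γ) * θ ∧ 1 - c ^ 2 ≤ θ * (17 * (1 + 14 * Γ) / m) := by
  set C := 1 + 14 * Γ with hC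
  have hC1 : 1 ≤ C := by linarith [D.one_le]
  set c := g b x with hcdef
  set w := x - c • b with hwdef
  have hbw : g b w = 0 := by simp [hwdef, hb, hcdef]
  have haw : g a w = 0 := by simp [hwdef, hax, hab]
  have hww : g w w = 1 - c ^ 2 := by
    simp only [hwdef, map_sub, map_smul, sub_apply, smul_apply, smul_eq_mul, hx, hb, D.gs x b,
      ← hcdef]
    ring
  have hc2 : c ^ 2 ≤ 1 := by have := D.g0 w; linarith
  obtain ⟨N1, -⟩ := D.near hsup hm.le hmM hθ hθ1 hb hab hbn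
    (by rw [hww]; linarith [sq_nonneg c]) haw hbw
  have e1 : g (τ b w) b = g (τ b b) w := D.tg _ _ _
  have e2 : g (τ w b) b = g (τ b b) w := by rw [D.ts, e1]
  have e3 : g (τ w b) w = g (τ b w) w := by rw [D.ts]
  have e4 : g (τ w w) b = g (τ b w) w := by rw [D.tg, e3]
  have hN2 : g (τ b w) w ≤ (31 / 50 * m + θ ^ 2) * (1 - c ^ 2) := by
    rcases (D.g0 w).eq_or_lt with h0 | h0
    · have h := (le_abs_self _).trans (D.diag_le b w)
      rw [← h0, mul_zero] at h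
      rw [← hww, ← h0, mul_zero]
      exact h
    set r := Real.sqrt (g w w) with hr
    have hr0 : 0 < r := Real.sqrt_pos.2 h0
    have hrr : r * r = g w w := Real.mul_self_sqrt h0.le
    have := (D.near hsup hm.le hmM hθ hθ1 hb hab hbn (w := r⁻¹ • w) (by
      simp only [map_smul, smul_apply, smul_eq_mul]
      rw [← mul_assoc, ← mul_inv, hrr, inv_mul_cancel₀ h0.ne']) (by simp [haw])
      (by simp [hbw])).2
    simp only [map_smul, smul_apply, smul_eq_mul] at this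
    rw [← mul_assoc, ← mul_inv, hrr, inv_mul_le_iff₀ h0, hww] at this
    linarith
  have hxe : x = c • b + w := by rw [hwdef]; abel
  have hup : g (τ b x) x ≤ c ^ 2 * m + 2 * (C * θ) + (31 / 50 * m + θ ^ 2) * (1 - c ^ 2) := by
    have h : g (τ b x) x = c ^ 2 * g (τ b b) b + 2 * c * g (τ b b) w + g (τ b w) w := by
      rw [hxe]
      simp only [map_add, map_smul, add_apply, smul_apply, smul_eq_mul, e1]
      ring
    rw [h]
    have h1 : c ^ 2 * g (τ b b) b ≤ c ^ 2 * m :=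
      mul_le_mul_of_nonneg_left (hsup b hb hab) (sq_nonneg _)
    have h2 : 2 * c * g (τ b b) w ≤ 2 * (C * θ) := by
      have : |c * g (τ b b) w| ≤ 1 * (C * θ) := by
        rw [abs_mul]
        exact mul_le_mul ((sq_le_one_iff_abs_le_one c).1 hc2) N1 (abs_nonneg _) zero_le_one
      linarith [(abs_le.1 this).2]
    linarith
  set κ := θ * (17 * C / m) with hκdef
  have hcκ : 1 - c ^ 2 ≤ κ := by
    have h1 : (1 - c ^ 2) * (3 / 10 * m) ≤ 5 * C * θ := by
      have h2 : (1 - c ^ 2) * θ ^ 2 ≤ (1 - c ^ 2) * (8 / 100 * m) :=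
        mul_le_mul_of_nonneg_left (by linarith) (by linarith)
      have h3 : θ ^ 2 ≤ C * θ := ht2.trans (le_mul_of_one_le_left hθ.le hC1)
      linarith
    have : 0 ≤ C * θ := by positivity
    rw [hκdef, ← mul_div_assoc, le_div_iff₀ hm]
    linarith
  exact ⟨c, w, hxe, haw, hww, N1, hcκ⟩

/-- The cubic form at a vector almost equal to a near maximiser. -/
lemma cub_combo [CompleteSpace H] {b v : H} {m θ κ d : ℝ} (_hm : 0 ≤ m) (hmM : m ≤ 2 * Γ)
    (hθ : 0 < θ) (hθm : θ ^ 2 ≤ m) (hb : g b b = 1) (hbn : m - θ ^ 2 ≤ g (τ b b) b)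
    (hd : 0 ≤ d) (hvv : g v v = 1 - d ^ 2) (hκ : 1 - d ^ 2 ≤ κ) (hκ1 : κ ≤ 1)
    (hbv : |g (τ b b) v| ≤ (1 + 14 * Γ) * θ) :
    m - θ ^ 2 - 3 * ((1 + 14 * Γ) * θ) - 12 * (Γ * κ) ≤ g (τ (d • b + v) (d • b + v)) (d • b + v) := by
  have hΓ := D.one_le
  have hd2 : d ^ 2 ≤ 1 := by linarith [D.g0 v]
  have hκ0 : 0 ≤ κ := by linarith
  have hd1 : d ≤ 1 := by nlinarith
  have hd3 : (1 - κ) ^ 2 ≤ d ^ 3 := by
    have h1 : (1 - κ) ^ 2 ≤ (d ^ 2) ^ 2 := pow_le_pow_left₀ (by linarith) (by linarith) 2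
    have h2 : d ^ 3 * d ≤ d ^ 3 * 1 := mul_le_mul_of_nonneg_left hd1 (pow_nonneg hd 3)
    have h3 : d ^ 3 * d = (d ^ 2) ^ 2 := by ring
    linarith
  have hbvv : |g (τ b v) v| ≤ 2 * Γ * κ := by
    refine (D.diag_le b v).trans ?_
    rw [hb, Real.sqrt_one, mul_one, hvv]
    exact mul_le_mul_of_nonneg_left hκ (by linarith)
  have hvvv : |g (τ v v) v| ≤ 2 * Γ * κ := by
    refine (D.diag_le v v).trans ?_
    rw [mul_assoc]
    refine mul_le_mul_of_nonneg_left ?_ (by linarith)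
    rw [hvv]
    calc Real.sqrt (1 - d ^ 2) * (1 - d ^ 2) ≤ 1 * (1 - d ^ 2) :=
          mul_le_mul_of_nonneg_right ((Real.sqrt_le_left zero_le_one).2 (by
            linarith [sq_nonneg d])) (by linarith)
      _ ≤ κ := by linarith
  have f1 : g (τ b v) b = g (τ b b) v := D.tg _ _ _
  have f2 : g (τ v b) b = g (τ b b) v := by rw [D.ts, f1]
  have f3 : g (τ v b) v = g (τ b v) v := by rw [D.ts]
  have f4 : g (τ v v) b = g (τ b v) v := by rw [D.tg, f3]
  simp only [map_add, map_smul, add_apply, smul_apply, smul_eq_mul, f1, f2, f3, f4]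
  have q1 : (1 - 2 * κ) * (m - θ ^ 2) ≤ d ^ 3 * g (τ b b) b := by
    have h1 : (1 - 2 * κ) * (m - θ ^ 2) ≤ (1 - κ) ^ 2 * (m - θ ^ 2) :=
      mul_le_mul_of_nonneg_right (by linarith [sq_nonneg κ]) (by linarith)
    exact h1.trans (mul_le_mul hd3 hbn (by linarith) (pow_nonneg hd 3))
  have q2 : -(3 * ((1 + 14 * Γ) * θ)) ≤ 3 * (d ^ 2 * g (τ b b) v) := by
    have : |d ^ 2 * g (τ b b) v| ≤ 1 * ((1 + 14 * Γ) * θ) := by
      rw [abs_mul, abs_of_nonneg (sq_nonneg d)]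
      exact mul_le_mul hd2 hbv (abs_nonneg _) zero_le_one
    linarith [(abs_le.1 this).1]
  have q3 : -(6 * (Γ * κ)) ≤ 3 * (d * g (τ b v) v) := by
    have : |d * g (τ b v) v| ≤ 1 * (2 * Γ * κ) := by
      rw [abs_mul, abs_of_nonneg hd]
      exact mul_le_mul hd1 hbvv (abs_nonneg _) zero_le_one
    linarith [(abs_le.1 this).1]
  have q4 := (abs_le.1 hvvv).1
  have q5 : κ * m ≤ κ * (2 * Γ) := mul_le_mul_of_nonneg_left hmM hκ0
  have q6 : 0 ≤ κ * θ ^ 2 := by positivity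
  linarith

/-- Bounded near maximisers. -/
lemma good [CompleteSpace H] {a : H} (ha : g a a = 1 ∨ a = 0) {ξ m : ℝ}
    (hξ : ∀ x y, g a x = 0 → g a y = 0 → g x x ≤ 1 → g y y ≤ 1 → |g (τ a x) y| ≤ ξ)
    (hξa : ξ * ‖a‖ ≤ 1) (hsup : ∀ x, g x x = 1 → g a x = 0 → g (τ x x) x ≤ m)
    (hnear : ∀ η > (0 : ℝ), ∃ x, g x x = 1 ∧ g a x = 0 ∧ m - η ≤ g (τ x x) x)
    (hm : 0 < m) (hmM : m ≤ 2 * Γ) {η : ℝ} (hη : 0 < η) :
    ∃ b, g b b = 1 ∧ g a b = 0 ∧ m - η ≤ g (τ b b) b ∧ ‖b‖ ≤ 9 / m := by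
  have hΓ := D.one_le
  set C := 1 + 14 * Γ with hC
  have hC1 : 1 ≤ C := by linarith
  set Z := 1 + 3 * C + 12 * Γ * (17 * C / m) + 17 * C / m + 100 / m with hZ
  have hZ0 : 0 < Z := by positivity
  set θ := min 1 (min η 1 / Z) with hθdef
  have hθ : 0 < θ := lt_min one_pos (by positivity)
  have hθ1 : θ ≤ 1 := min_le_left _ _
  have hθZ : θ * Z ≤ min η 1 := by
    rw [← le_div_iff₀ hZ0]; exact min_le_right _ _
  have hθη : θ * (1 + 3 * C + 12 * Γ * (17 * C / m)) ≤ η := by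
    refine le_trans ?_ (hθZ.trans (min_le_left _ _))
    refine mul_le_mul_of_nonneg_left ?_ hθ.le
    have : 0 ≤ 17 * C / m := by positivity
    have : 0 ≤ 100 / m := by positivity
    linarith
  have hsplit : θ * Z = θ * (1 + 3 * C + 12 * Γ * (17 * C / m)) + θ * (17 * C / m) +
      θ * (100 / m) := by rw [hZ]; ring
  have hθ1' := hθZ.trans (min_le_right η 1)
  have hκ : θ * (17 * C / m) ≤ 1 ∧ θ * (100 / m) ≤ 1 := by
    have : 0 ≤ θ * (17 * C / m) := by positivity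
    have : 0 ≤ θ * (100 / m) := by positivity
    have : 0 ≤ θ * (1 + 3 * C + 12 * Γ * (17 * C / m)) := by positivity
    constructor <;> linarith
  have hθm : θ ≤ m / 100 := by
    have := hκ.2
    rw [← mul_div_assoc, div_le_one hm] at this
    linarith
  have ht2 : θ ^ 2 ≤ θ := (sq θ).le.trans (mul_le_of_le_one_left hθ.le hθ1)
  obtain ⟨b, hb, hab, hbn⟩ := hnear (θ ^ 2) (by positivity)
  obtain ⟨x, hx, hax, hxn, hbxx⟩ := D.good_vec ha hξ hξa hm hθ hθm ht2 hb hab hbn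
  obtain ⟨c, w, hxe, haw, hww, N1, hcκ⟩ :=
    D.align hsup hm hmM hθ hθ1 hθm ht2 hb hab hbn hx hax hbxx
  obtain ⟨σ, hσ, hσc⟩ : ∃ σ : ℝ, (σ = 1 ∨ σ = -1) ∧ 0 ≤ σ * c := by
    rcases le_total 0 c with h | h
    · exact ⟨1, .inl rfl, by linarith⟩
    · exact ⟨-1, .inr rfl, by linarith⟩
  refine ⟨σ • x, ?_, by simp [hax], ?_, ?_⟩
  · rcases hσ with rfl | rfl <;> simp [hx]
  swap
  · rw [norm_smul]
    rcases hσ with rfl | rfl <;> simpa using hxn
  have hd2 : (σ * c) ^ 2 = c ^ 2 := by rcases hσ with rfl | rfl <;> ring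
  have hvv : g (σ • w) (σ • w) = 1 - (σ * c) ^ 2 := by
    rw [hd2, ← hww]; rcases hσ with rfl | rfl <;> simp
  have hbv : |g (τ b b) (σ • w)| ≤ (1 + 14 * Γ) * θ := by
    rcases hσ with rfl | rfl <;> simpa using N1
  have hcomb := D.cub_combo (d := σ * c) hm.le hmM hθ (ht2.trans (by linarith)) hb hbn hσc hvv
    (κ := θ * (17 * C / m)) (by rw [hd2, hC]; exact hcκ) hκ.1 hbv
  rw [show (σ * c) • b + σ • w = σ • x by rw [hxe, smul_add, smul_smul]] at hcomb
  have q7 : θ * (12 * Γ * (17 * C / m)) = 12 * (Γ * (θ * (17 * C / m))) := by ring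
  rw [← hC] at hcomb
  linarith

/-- On the orthogonal of a unit `r` the form is small compared with its gradient at `r`. -/
lemma compressed [CompleteSpace H] {r : H} (hr : g r r = 1) {R : ℝ}
    (hR : ∀ w, g r w = 0 → g w w ≤ 1 → |g (τ r r) w| ≤ R) {w : H} (hw : g r w = 0)
    (hw1 : g w w ≤ 1) : g (τ r w) w ≤ Γ * ‖r‖ * R := by
  have hΓ := D.one_le
  have hR0 : 0 ≤ R := (abs_nonneg _).trans (hR 0 (by simp) (by simp))
  refine le_of_forall_pos_le_add fun ε hε => ?_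
  by_contra hlt
  rw [not_le] at hlt
  set s := Γ * ‖r‖ * R + ε with hs
  have hs0 : 0 < s := by
    have : 0 ≤ Γ * ‖r‖ * R := by positivity
    linarith
  have hlt' : s * g w w < g (τ r w) w := (mul_le_of_le_one_right hs0.le hw1).trans_lt hlt
  obtain ⟨t, ht, hy⟩ := D.eigvec (Or.inl hr) r hs0 hw hlt'
  obtain ⟨y, hry, hy1, hy2⟩ := hy (min (s / 2) (ε / 4)) (lt_min (by linarith) (by linarith))
  have hyn : 1 / 2 ≤ ‖y‖ := by
    have h1 : min (s / 2) (ε / 4) / s ≤ s / 2 / s :=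
      div_le_div_of_nonneg_right (min_le_left _ _) hs0.le
    have h2 : s / 2 / s = 1 / 2 := by field_simp
    linarith
  have hy0 : y ≠ 0 := norm_pos_iff.1 (by linarith)
  obtain ⟨δ, -, hδe⟩ := D.eig y hy0
  have h3 := (abs_le.1 ((D.le y _).trans hy2)).1
  rw [map_sub, map_sub, map_smul, map_smul, smul_eq_mul, smul_eq_mul, D.self y hy0, D.ts r y,
    hδe, D.gs y r, hry, mul_zero] at h3
  have h4 : |g (τ r r) y| ≤ R * (Γ * ‖y‖) :=
    (D.lin_le (W := {x | g r x = 0}) (fun x hx c => by simp_all) (g (τ r r))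
      (fun x hx hx1 => hR x hx hx1) hry).trans (mul_le_mul_of_nonneg_left (D.nm_le y) hR0)
  have he : g (τ y r) r = g (τ r r) y := by rw [D.ts y r, D.tg]
  rw [he] at h3
  have h5 : |g (τ r r) y * J y r| ≤ R * (Γ * ‖y‖) * ‖r‖ := by
    rw [abs_mul]
    exact mul_le_mul h4 (D.le y r) (abs_nonneg _) ((abs_nonneg _).trans h4)
  have h6 : s * ‖y‖ ≤ t * ‖y‖ := mul_le_mul_of_nonneg_right ht (norm_nonneg _)
  have h7 : s * ‖y‖ = R * (Γ * ‖y‖) * ‖r‖ + ε * ‖y‖ := by rw [hs]; ring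
  have h8 : ε * (1 / 2) ≤ ε * ‖y‖ := mul_le_mul_of_nonneg_left hyn hε.le
  linarith [(abs_le.1 h5).1, min_le_right (s / 2) (ε / 4)]

/-- Both sided version. -/
lemma compressed_abs [CompleteSpace H] {r : H} (hr : g r r = 1) {R : ℝ}
    (hR : ∀ w, g r w = 0 → g w w ≤ 1 → |g (τ r r) w| ≤ R) {w : H} (hw : g r w = 0)
    (hw1 : g w w ≤ 1) : |g (τ r w) w| ≤ Γ * ‖r‖ * R := by
  refine abs_le.2 ⟨?_, D.compressed hr hR hw hw1⟩
  have := D.compressed (r := -r) (by simp [hr]) (R := R) (fun w hw hw1 => by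
    simpa using hR w (by simpa using hw) hw1) (w := w) (by simp [hw]) hw1
  simp only [map_neg, neg_apply, norm_neg] at this
  linarith

/-- A plane of two vectors, the first one a near maximiser: the basic inequality. -/
lemma plane [CompleteSpace H] {a b : H} {ξ : ℝ} (ha : g a a = 1) (hb : g b b = 1)
    (hab : g a b = 0) (h1 : ∀ w, g a w = 0 → g w w ≤ 1 → |g (τ a a) w| ≤ ξ)
    (h2 : ∀ x y, g a x = 0 → g a y = 0 → g x x ≤ 1 → g y y ≤ 1 → |g (τ a x) y| ≤ ξ)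
    {ρ : ℝ} (hρ : ∀ w, g a w = 0 → g b w = 0 → g w w ≤ 1 → |g (τ b b) w| ≤ ρ)
    {c s : ℝ} (hc : 0 ≤ c) (hs : 0 ≤ s) (hcs : c ^ 2 + s ^ 2 = 1) :
    c * s ^ 2 * g (τ a a) a + s * c ^ 2 * g (τ b b) b - 6 * ξ ≤
      Γ * (‖a‖ + ‖b‖) *
        (|c * s ^ 2 * g (τ b b) b - s * c ^ 2 * g (τ a a) a| + 10 * ξ + ρ) := by
  have hΓ := D.one_le
  have hρ0 : 0 ≤ ρ := (abs_nonneg _).trans (hρ 0 (by simp) (by simp) (by simp))
  have hξ0 : 0 ≤ ξ := (abs_nonneg _).trans (h1 b hab hb.le)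
  have hc1 : c ≤ 1 := by nlinarith
  have hs1 : s ≤ 1 := by nlinarith
  set r := c • a + s • b with hrdef
  set b' := c • b - s • a with hb'def
  have hr : g r r = 1 := by
    simp [hrdef, ha, hb, hab, D.gs b a]; linarith
  have hrb : g r b' = 0 := by
    simp [hrdef, hb'def, ha, hb, hab, D.gs b a]; ring
  have hb'1 : g b' b' = 1 := by
    simp [hb'def, ha, hb, hab, D.gs b a]; linarith
  have f1 : g (τ a b) a = g (τ a a) b := D.tg _ _ _
  have f2 : g (τ b a) a = g (τ a a) b := by rw [D.ts, f1]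
  have f3 : g (τ b a) b = g (τ a b) b := by rw [D.ts]
  have f4 : g (τ b b) a = g (τ a b) b := by rw [D.tg, f3]
  set A := g (τ a a) a with hA
  set B := g (τ b b) b with hB
  set P := g (τ a a) b with hP
  set Q := g (τ a b) b with hQ
  have hPb : |P| ≤ ξ := h1 b hab hb.le
  have hQb : |Q| ≤ ξ := h2 b b hab hab hb.le hb.le
  have erb : g (τ r r) b' = c * s ^ 2 * B - s * c ^ 2 * A +
      ((c * c * c - 2 * (c * s * s)) * P + (2 * (c * c * s) - s * s * s) * Q) := by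
    simp only [hrdef, hb'def, map_add, map_sub, map_smul, add_apply, smul_apply,
      smul_eq_mul, f1, f2, f3, f4, ← hA, ← hB, ← hP, ← hQ]
    ring
  have ebb : g (τ r b') b' = c * s ^ 2 * A + s * c ^ 2 * B +
      ((s * s * s - 2 * (c * c * s)) * P + (c * c * c - 2 * (c * s * s)) * Q) := by
    simp only [hrdef, hb'def, map_add, map_sub, map_smul, add_apply, sub_apply, smul_apply,
      smul_eq_mul, f1, f2, f3, f4, ← hA, ← hB, ← hP, ← hQ]
    ring
  have pb : ∀ u v : ℝ, 0 ≤ u → u ≤ 1 → 0 ≤ v → v ≤ 1 → |u * u * u - 2 * (u * v * v)| ≤ 3 ∧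
      |2 * (u * u * v) - v * v * v| ≤ 3 := by
    intro u v hu hu1 hv hv1
    have a1 : u * u * u ≤ 1 := mul_le_one₀ (mul_le_one₀ hu1 hu hu1) hu hu1
    have a2 : u * v * v ≤ 1 := mul_le_one₀ (mul_le_one₀ hu1 hv hv1) hv hv1
    have a3 : u * u * v ≤ 1 := mul_le_one₀ (mul_le_one₀ hu1 hu hu1) hv hv1
    have a4 : v * v * v ≤ 1 := mul_le_one₀ (mul_le_one₀ hv1 hv hv1) hv hv1
    have b1 : 0 ≤ u * u * u := by positivity
    have b2 : 0 ≤ u * v * v := by positivity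
    have b3 : 0 ≤ u * u * v := by positivity
    have b4 : 0 ≤ v * v * v := by positivity
    constructor <;> rw [abs_le] <;> constructor <;> linarith
  obtain ⟨c1, c2⟩ := pb c s hc hc1 hs hs1
  have c3 : |s * s * s - 2 * (c * c * s)| ≤ 3 := by rw [abs_sub_comm]; exact c2
  have hsmall : ∀ p q : ℝ, |p| ≤ 3 → |q| ≤ 3 → |p * P + q * Q| ≤ 6 * ξ := by
    intro p q hp hq
    refine (abs_add_le _ _).trans ?_
    rw [abs_mul, abs_mul]
    have := mul_le_mul hp hPb (abs_nonneg _) (by norm_num)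
    have := mul_le_mul hq hQb (abs_nonneg _) (by norm_num)
    linarith
  have hR : ∀ w, g r w = 0 → g w w ≤ 1 →
      |g (τ r r) w| ≤ |c * s ^ 2 * B - s * c ^ 2 * A| + 10 * ξ + ρ := by
    intro w hw hw1
    set p := g b' w with hpdef
    set w' := w - p • b' with hw'def
    have hb'w : g b' w' = 0 := by simp [hw'def, hb'1, hpdef]
    have hrw : g r w' = 0 := by simp [hw'def, hw, hrb]
    have hw'1 : g w' w' = g w w - p ^ 2 := by
      simp [hw'def, hb'1, hpdef, D.gs w b']; ring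
    have hp : |p| ≤ 1 := by
      rw [← sq_le_one_iff_abs_le_one]
      linarith [D.g0 w']
    have haw : g a w' = 0 := by
      have e : a = c • r - s • b' := by
        simp only [hrdef, hb'def]
        match_scalars <;> linarith
      rw [e]; simp [hrw, hb'w]
    have hbw : g b w' = 0 := by
      have e : b = s • r + c • b' := by
        simp only [hrdef, hb'def]
        match_scalars <;> linarith
      rw [e]; simp [hrw, hb'w]
    have hw'le : g w' w' ≤ 1 := by rw [hw'1]; linarith [sq_nonneg p]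
    have e : g (τ r r) w = p * g (τ r r) b' + g (τ r r) w' := by simp [hw'def]
    have e' : g (τ r r) w' = c * c * g (τ a a) w' + 2 * (c * s) * g (τ a b) w' +
        s * s * g (τ b b) w' := by
      simp [hrdef, D.ts b a]; ring
    have t1 : |g (τ r r) b'| ≤ |c * s ^ 2 * B - s * c ^ 2 * A| + 6 * ξ := by
      rw [erb]
      exact (abs_add_le _ _).trans (add_le_add le_rfl (hsmall _ _ c1 c2))
    have t2 : |g (τ r r) w'| ≤ 3 * ξ + ρ := by
      rw [e']
      refine (abs_add_le _ _).trans (add_le_add ((abs_add_le _ _).trans ?_) ?_)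
      · rw [abs_mul (c * c), abs_mul (2 * (c * s)), abs_of_nonneg (by positivity : 0 ≤ c * c),
          abs_of_nonneg (by positivity : 0 ≤ 2 * (c * s))]
        have u1 := mul_le_mul (mul_le_one₀ hc1 hc hc1) (h1 w' haw hw'le) (abs_nonneg _)
          zero_le_one
        have u2 := mul_le_mul (mul_le_of_le_one_right two_pos.le (mul_le_one₀ hc1 hs hs1))
          (h2 b w' hab haw hb.le hw'le) (abs_nonneg _) two_pos.le
        linarith
      · rw [abs_mul, abs_of_nonneg (by positivity : 0 ≤ s * s)]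
        exact (mul_le_mul (mul_le_one₀ hs1 hs hs1) (hρ w' haw hbw hw'le) (abs_nonneg _)
          zero_le_one).trans (by rw [one_mul])
    rw [e]
    refine (abs_add_le _ _).trans ?_
    rw [abs_mul]
    have := mul_le_mul hp t1 (abs_nonneg _) zero_le_one
    linarith
  have key := (le_abs_self _).trans (D.compressed_abs hr hR hrb hb'1.le)
  rw [ebb] at key
  have hbase : 0 ≤ |c * s ^ 2 * B - s * c ^ 2 * A| + 10 * ξ + ρ := by positivity
  have hrn : ‖r‖ ≤ ‖a‖ + ‖b‖ := by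
    refine (norm_add_le _ _).trans ?_
    rw [norm_smul, norm_smul, Real.norm_of_nonneg hc, Real.norm_of_nonneg hs]
    exact add_le_add (mul_le_of_le_one_left (norm_nonneg _) hc1)
      (mul_le_of_le_one_left (norm_nonneg _) hs1)
  have h' := mul_le_mul_of_nonneg_right (mul_le_mul_of_nonneg_left hrn (by linarith : 0 ≤ Γ)) hbase
  have := (abs_le.1 (hsmall _ _ c3 c1)).1
  linarith

/-- No near maximiser when the form is small on the orthogonal. -/
lemma case_small [CompleteSpace H] {a b₁ : H} {L m σ ξ P c₀ : ℝ} (ha : g a a = 1)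
    (hb₁ : g b₁ b₁ = 1) (hab₁ : g a b₁ = 0)
    (h1 : ∀ w, g a w = 0 → g w w ≤ 1 → |g (τ a a) w| ≤ ξ)
    (h2 : ∀ x y, g a x = 0 → g a y = 0 → g x x ≤ 1 → g y y ≤ 1 → |g (τ a x) y| ≤ ξ)
    (hle2 : ∀ x, g x x = 1 → g a x = 0 → g (τ x x) x ≤ m) (hmσ : m < σ) (hL0 : 0 < L)
    (hA0 : L / 2 ≤ g (τ a a) a) (hAL : g (τ a a) a ≤ L) (hP0 : 0 ≤ P)
    (g4 : Γ * (‖a‖ + ‖b₁‖) ≤ P) (hc0 : 0 < c₀) (hc08 : c₀ ≤ 1 / 8) (hPc : P * c₀ ≤ 1 / 8)
    (g7 : (1 + 4 * P) * σ = c₀ * L / 16) (g8 : (6 + 10 * P) * ξ ≤ c₀ * L / 64) : False := by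
  have hΓ := D.one_le
  have hξ0 : 0 ≤ ξ := (abs_nonneg _).trans (h1 b₁ hab₁ hb₁.le)
  set A := g (τ a a) a with hA
  have habs : ∀ x, g a x = 0 → 0 < g x x →
      |g (τ x x) x| ≤ m * Real.sqrt (g x x) ^ 3 := fun x hx hx0 => by
    refine abs_le.2 ⟨?_, D.cub_le hle2 hx hx0⟩
    have := D.cub_le hle2 (v := -x) (by simp [hx]) (by simpa using hx0)
    simp at this
    linarith
  have hm0 : 0 ≤ m := by
    have h1 := hle2 b₁ hb₁ hab₁
    have h2 := hle2 (-b₁) (by simp [hb₁]) (by simp [hab₁])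
    simp at h2
    linarith
  have hρ : ∀ w, g a w = 0 → g b₁ w = 0 → g w w ≤ 1 → |g (τ b₁ b₁) w| ≤ 3 * σ := by
    intro w hw hbw hw1
    have hbound : ∀ v : H, g a v = 0 → 0 < g v v → g v v ≤ 2 → |g (τ v v) v| ≤ 3 * m := by
      intro v hv hv0 hv2
      refine (habs v hv hv0).trans ?_
      rw [mul_comm]
      refine mul_le_mul_of_nonneg_right ?_ hm0
      refine (pow_le_pow_left₀ (Real.sqrt_nonneg _) ((Real.sqrt_le_left (by norm_num)).2
        (show g v v ≤ (141422 / 100000 : ℝ) ^ 2 by norm_num; linarith)) 3).trans (by norm_num)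
    have hbpos : ∀ σ' : ℝ, σ' ^ 2 = 1 → g (b₁ + σ' • w) (b₁ + σ' • w) = 1 + g w w :=
      fun σ' hσ' => by
        simp [hb₁, hbw, D.gs w b₁, ← mul_assoc, ← sq, hσ']
    have q1 := abs_le.1 (hbound (b₁ + (1 : ℝ) • w) (by simp [hab₁, hw])
      (by rw [hbpos 1 (by norm_num)]; linarith [D.g0 w]) (by rw [hbpos 1 (by norm_num)]; linarith))
    have q2 := abs_le.1 (hbound (b₁ + (-1 : ℝ) • w) (by simp [hab₁, hw])
      (by rw [hbpos (-1) (by norm_num)]; linarith [D.g0 w])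
      (by rw [hbpos (-1) (by norm_num)]; linarith))
    have q3 : |g (τ w w) w| ≤ 3 * m := by
      rcases (D.g0 w).eq_or_lt with h0 | h0
      · refine (D.diag_le w w).trans ?_
        rw [← h0, mul_zero]; linarith
      · exact hbound w hw h0 (by linarith)
    have q3' := abs_le.1 q3
    have e1 : g (τ b₁ w) b₁ = g (τ b₁ b₁) w := D.tg _ _ _
    have e2 : g (τ w b₁) b₁ = g (τ b₁ b₁) w := by rw [D.ts, e1]
    have e3 : g (τ w b₁) w = g (τ b₁ w) w := by rw [D.ts]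
    have e4 : g (τ w w) b₁ = g (τ b₁ w) w := by rw [D.tg, e3]
    simp [e1, e2, e3, e4] at q1 q2
    rw [abs_le]
    constructor <;> linarith
  obtain ⟨s, hs, hcs, hs34⟩ : ∃ s : ℝ, 0 ≤ s ∧ c₀ ^ 2 + s ^ 2 = 1 ∧ 3 / 4 ≤ s ^ 2 := by
    have : c₀ ^ 2 ≤ (1 / 8) ^ 2 := pow_le_pow_left₀ hc0.le hc08 2
    norm_num at this
    refine ⟨Real.sqrt (1 - c₀ ^ 2), Real.sqrt_nonneg _, ?_, ?_⟩ <;>
      rw [Real.sq_sqrt (by linarith)] <;> linarith
  have hpl := D.plane ha hb₁ hab₁ h1 h2 hρ hc0.le hs hcs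
  set B := g (τ b₁ b₁) b₁ with hB
  have hBm : |B| ≤ σ := by
    refine (habs b₁ hab₁ (by rw [hb₁]; exact one_pos)).trans ?_
    rw [hb₁, Real.sqrt_one, one_pow, mul_one]; exact hmσ.le
  have hs1 : s ≤ 1 := by nlinarith
  have hc1 : c₀ ≤ 1 := by linarith
  have g1 : |c₀ * s ^ 2 * B - s * c₀ ^ 2 * A| ≤ σ + c₀ ^ 2 * L := by
    refine (abs_sub _ _).trans (add_le_add ?_ ?_)
    · rw [abs_mul, abs_of_nonneg (by positivity : 0 ≤ c₀ * s ^ 2)]
      exact (mul_le_mul (mul_le_one₀ hc1 (sq_nonneg s) (pow_le_one₀ hs hs1)) hBm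
        (abs_nonneg _) zero_le_one).trans (by rw [one_mul])
    · rw [abs_of_nonneg (mul_nonneg (by positivity) (by linarith))]
      calc s * c₀ ^ 2 * A ≤ 1 * c₀ ^ 2 * L :=
            mul_le_mul (mul_le_mul_of_nonneg_right hs1 (sq_nonneg _)) hAL (by linarith)
              (by positivity)
        _ = c₀ ^ 2 * L := by ring
  have g2 : -σ ≤ s * c₀ ^ 2 * B := by
    have : |s * c₀ ^ 2 * B| ≤ 1 * σ := by
      rw [abs_mul, abs_of_nonneg (by positivity : 0 ≤ s * c₀ ^ 2)]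
      exact mul_le_mul (mul_le_one₀ hs1 (sq_nonneg _) (pow_le_one₀ hc0.le hc1)) hBm
        (abs_nonneg _) zero_le_one
    linarith [(abs_le.1 this).1]
  have g3 : c₀ * (3 / 4) * (L / 2) ≤ c₀ * s ^ 2 * A :=
    mul_le_mul (mul_le_mul_of_nonneg_left hs34 hc0.le) hA0 (by linarith) (by positivity)
  have hσ0 : 0 ≤ σ := (abs_nonneg _).trans hBm
  have g5 := mul_le_mul g4 (add_le_add (add_le_add g1 le_rfl) le_rfl : _ + 10 * ξ + 3 * σ ≤
    σ + c₀ ^ 2 * L + 10 * ξ + 3 * σ) (by positivity) hP0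
  have g6 : P * c₀ * (c₀ * L) ≤ 1 / 8 * (c₀ * L) := mul_le_mul_of_nonneg_right hPc (by positivity)
  have : 0 < c₀ * L := mul_pos hc0 hL0
  linarith

/-- No pair of near maximisers. -/
lemma case_large [CompleteSpace H] {a b : H} {L σ ξ ρ P' : ℝ} (ha : g a a = 1)
    (hb : g b b = 1) (hab : g a b = 0)
    (h1 : ∀ w, g a w = 0 → g w w ≤ 1 → |g (τ a a) w| ≤ ξ)
    (h2 : ∀ x y, g a x = 0 → g a y = 0 → g x x ≤ 1 → g y y ≤ 1 → |g (τ a x) y| ≤ ξ)
    (hρ : ∀ w, g a w = 0 → g b w = 0 → g w w ≤ 1 → |g (τ b b) w| ≤ ρ)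
    (hL0 : 0 < L) (hLM : L ≤ 2 * Γ) (hA0 : L / 2 ≤ g (τ a a) a) (hAL : g (τ a a) a ≤ L)
    (hσ : 0 < σ) (hB0 : σ / 2 ≤ g (τ b b) b) (hBL : g (τ b b) b ≤ L)
    (g4 : Γ * (‖a‖ + ‖b‖) ≤ P')
    (g6 : P' * ρ ≤ σ * L / (256 * Γ)) (g7 : (6 + 10 * P') * ξ ≤ σ * L / (256 * Γ)) : False := by
  have hΓ := D.one_le
  have hξ0 : 0 ≤ ξ := (abs_nonneg _).trans (h1 b hab hb.le)
  have hρ0 : 0 ≤ ρ := (abs_nonneg _).trans (hρ 0 (by simp) (by simp) (by simp))
  set A := g (τ a a) a with hA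
  set B := g (τ b b) b with hB
  have hA' : 0 < A := by linarith
  have hB' : 0 < B := by linarith
  set N := Real.sqrt (A ^ 2 + B ^ 2) with hN
  have hN0 : 0 < N := Real.sqrt_pos.2 (by positivity)
  have hNN : N ^ 2 = A ^ 2 + B ^ 2 := Real.sq_sqrt (by positivity)
  have hN4 : N ≤ 4 * Γ := by
    rw [hN, Real.sqrt_le_left (by linarith)]
    have : A ^ 2 ≤ (2 * Γ) ^ 2 := pow_le_pow_left₀ hA'.le (hAL.trans hLM) 2
    have : B ^ 2 ≤ (2 * Γ) ^ 2 := pow_le_pow_left₀ hB'.le (hBL.trans hLM) 2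
    nlinarith
  have hpl := D.plane ha hb hab h1 h2 hρ (c := B / N) (s := A / N) (by positivity)
    (by positivity) (by rw [div_pow, div_pow, hNN]; field_simp; ring)
  rw [show B / N * (A / N) ^ 2 * B - A / N * (B / N) ^ 2 * A = 0 by ring, abs_zero, zero_add,
    show B / N * (A / N) ^ 2 * A + A / N * (B / N) ^ 2 * B = A * B / N by
      field_simp
      rw [hNN]] at hpl
  have g3 : σ * L / (16 * Γ) ≤ A * B / N := by
    rw [div_le_div_iff₀ (by positivity) hN0]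
    have q1 : σ * L * N ≤ σ * L * (4 * Γ) := mul_le_mul_of_nonneg_left hN4 (by positivity)
    have q2 : σ / 2 * (L / 2) ≤ B * A := mul_le_mul hB0 hA0 (by positivity) hB'.le
    have q3 := mul_le_mul_of_nonneg_right q2 (show 0 ≤ 16 * Γ by positivity)
    linarith
  have g5 := mul_le_mul_of_nonneg_right g4 (show 0 ≤ 10 * ξ + ρ by positivity)
  have g8 : σ * L / (16 * Γ) = 16 * (σ * L / (256 * Γ)) := by field_simp; ring
  have : 0 < σ * L / (256 * Γ) := by positivity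
  linarith

/-- Bounds at a bounded near maximiser. -/
lemma bilin [CompleteSpace H] {a : H} {L θ C W ξ : ℝ} (hL0 : 0 < L) (hLM : L ≤ 2 * Γ)
    (hθ : 0 < θ) (hθ1 : θ ≤ 1) (hle : ∀ x, g x x = 1 → g (τ x x) x ≤ L) (ha : g a a = 1)
    (han : L - θ ^ 2 ≤ g (τ a a) a) (haD : ‖a‖ ≤ 9 / L) (hC : C = 1 + 14 * Γ)
    (hW : W = 2 * Γ * (9 / L) * C + C) (hξdef : ξ = W * θ) :
    (∀ w, g a w = 0 → g w w ≤ 1 → |g (τ a a) w| ≤ ξ) ∧
      ∀ x y, g a x = 0 → g a y = 0 → g x x ≤ 1 → g y y ≤ 1 → |g (τ a x) y| ≤ ξ := by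
  have hΓ := D.one_le
  have hC0 : 0 ≤ C := by linarith
  have hN : ∀ w, g a w = 0 → g w w ≤ 1 → |g (τ a a) w| ≤ C * θ := fun w hw hw1 =>
    by rw [hC]; exact (D.near (p := 0) (fun x hx _ => hle x hx) hL0.le hLM hθ hθ1 ha (by simp) han hw1 (by simp)
      hw).1
  have h1 : ∀ w, g a w = 0 → g w w ≤ 1 → |g (τ a a) w| ≤ ξ := fun w hw hw1 => by
    refine (hN w hw hw1).trans ?_
    rw [hξdef, hW]
    exact mul_le_mul_of_nonneg_right (le_add_of_nonneg_left (by positivity)) hθ.le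
  have hdiag : ∀ w, g a w = 0 → g w w ≤ 1 → |g (τ a w) w| ≤ Γ * (9 / L) * (C * θ) :=
    fun w hw hw1 => (D.compressed_abs ha hN hw hw1).trans (mul_le_mul_of_nonneg_right
      (mul_le_mul_of_nonneg_left haD (by linarith)) (by positivity))
  have h2 : ∀ x y, g a x = 0 → g a y = 0 → g x x ≤ 1 → g y y ≤ 1 → |g (τ a x) y| ≤ ξ := by
    intro x y hx hy hx1 hy1
    have hps : ∀ σ' : ℝ, σ' ^ 2 = 1 →
        |g (τ a ((1 / 2 : ℝ) • (x + σ' • y))) ((1 / 2 : ℝ) • (x + σ' • y))| ≤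
          Γ * (9 / L) * (C * θ) := by
      intro σ' hσ'
      refine hdiag _ (by simp [hx, hy]) ?_
      have hxy := abs_le.1 ((D.abs_g_le x y).trans (mul_le_one₀
        ((Real.sqrt_le_left zero_le_one).2 (by simpa using hx1)) (Real.sqrt_nonneg _)
        ((Real.sqrt_le_left zero_le_one).2 (by simpa using hy1))))
      simp [D.gs y x]
      have hσabs : σ' = 1 ∨ σ' = -1 := sq_eq_one_iff.1 hσ'
      rcases hσabs with rfl | rfl <;> linarith
    have q1 := abs_le.1 (hps 1 (by norm_num))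
    have q2 := abs_le.1 (hps (-1) (by norm_num))
    simp [D.tg a y x] at q1 q2
    have hW' : Γ * (9 / L) * (C * θ) * 2 ≤ ξ := by
      rw [hξdef, hW]
      have : 0 ≤ C * θ := by positivity
      linarith
    rw [abs_le]
    constructor <;> linarith
  exact ⟨h1, h2⟩

/-- A bounded unit vector orthogonal to `a`. -/
lemma exists_bounded_perp {e₀ f₀ : H} (he : g e₀ e₀ = 1) (hf : g f₀ f₀ = 1) (hef : g e₀ f₀ = 0)
    (a : H) : ∃ b, g b b = 1 ∧ g a b = 0 ∧ ‖b‖ ≤ ‖e₀‖ + ‖f₀‖ := by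
  set p := g a f₀ with hp
  set q := g a e₀ with hq
  rcases eq_or_ne (p ^ 2 + q ^ 2) 0 with h0 | h0
  · have : q = 0 := by nlinarith
    exact ⟨e₀, he, this, le_add_of_nonneg_right (norm_nonneg _)⟩
  have hN0 : 0 < p ^ 2 + q ^ 2 := lt_of_le_of_ne (by positivity) (Ne.symm h0)
  set N := Real.sqrt (p ^ 2 + q ^ 2) with hN
  have hN1 : 0 < N := Real.sqrt_pos.2 hN0
  have hNN : N * N = p ^ 2 + q ^ 2 := Real.mul_self_sqrt hN0.le
  refine ⟨N⁻¹ • (p • e₀ - q • f₀), ?_, by simp [← hp, ← hq]; ring_nf; simp, ?_⟩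
  · simp [he, hf, hef, D.gs f₀ e₀]
    field_simp
    linarith
  · have hp1 : |p| ≤ N := Real.abs_le_sqrt (by linarith [sq_nonneg q])
    have hq1 : |q| ≤ N := Real.abs_le_sqrt (by linarith [sq_nonneg p])
    rw [norm_smul, norm_inv, Real.norm_of_nonneg hN1.le, inv_mul_le_iff₀ hN1, mul_add]
    refine (norm_sub_le _ _).trans ?_
    rw [norm_smul, norm_smul, Real.norm_eq_abs, Real.norm_eq_abs]
    gcongr

/-- The cubic form is not positive. -/
lemma cub_nonpos [CompleteSpace H] (hrank : ∃ e f : H, g e e = 1 ∧ g f f = 1 ∧ g e f = 0) :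
    ∀ x, g x x = 1 → g (τ x x) x ≤ 0 := by
  obtain ⟨e₀, f₀, he, hf, hef⟩ := hrank
  have hΓ := D.one_le
  set S : Set ℝ := (fun x => g (τ x x) x) '' {x | g x x = 1} with hS
  have hne : S.Nonempty := ⟨_, e₀, he, rfl⟩
  have hbd : BddAbove S := ⟨2 * Γ, by
    rintro _ ⟨x, hx, rfl⟩
    exact (le_abs_self _).trans (D.ball_le (le_of_eq hx) (le_of_eq hx) (le_of_eq hx))⟩
  set L := sSup S with hL
  have hle : ∀ x, g x x = 1 → g (τ x x) x ≤ L := fun x hx => le_csSup hbd ⟨x, hx, rfl⟩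
  intro x hx
  by_contra hpos
  rw [not_le] at hpos
  have hL0 : 0 < L := hpos.trans_le (hle x hx)
  have hLM : L ≤ 2 * Γ := csSup_le hne (by
    rintro _ ⟨x, hx, rfl⟩
    exact (le_abs_self _).trans (D.ball_le (le_of_eq hx) (le_of_eq hx) (le_of_eq hx)))
  have hpos9 : 0 ≤ 9 / L := by positivity
  obtain ⟨P, hP⟩ : ∃ P, P = Γ * (9 / L + (‖e₀‖ + ‖f₀‖)) := ⟨_, rfl⟩
  have hP0 : 0 ≤ P := by rw [hP]; positivity
  obtain ⟨c₀, σ, θ, hc0, hc08, hPc, hσ, g7, hθ, hθ1, hθ2, hθL, hθσ, k1, k2, k3, k4⟩ :=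
    Cubic.constants (Γ := Γ) hΓ hP0 hL0
  -- the first vector
  obtain ⟨a, ha, -, han, haD⟩ := D.good (a := 0) (Or.inr rfl) (ξ := 0)
    (fun x y _ _ _ _ => by simp) (by simp) (fun x hx _ => hle x hx)
    (fun η hη => by
      obtain ⟨_, ⟨y, hy, rfl⟩, hy'⟩ := exists_lt_of_lt_csSup hne (show L - η < L by linarith)
      exact ⟨y, hy, by simp, hy'.le⟩) hL0 hLM (η := θ ^ 2) (by positivity)
  set C := 1 + 14 * Γ with hC
  set W := 2 * Γ * (9 / L) * C + C with hW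
  have hW0 : 0 < W := by positivity
  set ξ := W * θ with hξdef
  have hξ0 : 0 ≤ ξ := by positivity
  obtain ⟨h1, h2⟩ := D.bilin hL0 hLM hθ hθ1 hle ha han haD hC hW hξdef
  set S2 : Set ℝ := (fun x => g (τ x x) x) '' {x | g x x = 1 ∧ g a x = 0} with hS2
  obtain ⟨b₁, hb₁, hab₁, hb₁n⟩ := D.exists_bounded_perp he hf hef a
  have hne2 : S2.Nonempty := ⟨_, b₁, ⟨hb₁, hab₁⟩, rfl⟩
  have hbd2 : BddAbove S2 := hbd.mono (image_mono fun x hx => hx.1)
  set m := sSup S2 with hmdef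
  have hle2 : ∀ x, g x x = 1 → g a x = 0 → g (τ x x) x ≤ m := fun x hx hx' =>
    le_csSup hbd2 ⟨x, ⟨hx, hx'⟩, rfl⟩
  have hmL : m ≤ L := csSup_le hne2 (by
    rintro _ ⟨x, hx, rfl⟩
    exact hle x hx.1)
  set A := g (τ a a) a with hA
  have hA0 : L / 2 ≤ A := by linarith
  have hAL : A ≤ L := hle a ha
  rcases lt_or_ge m σ with hmσ | hmσ
  · refine D.case_small ha hb₁ hab₁ h1 h2 hle2 hmσ hL0 hA0 hAL hP0
      (by rw [hP]; exact mul_le_mul_of_nonneg_left (add_le_add haD hb₁n) (by linarith)) hc0 hc08 hPc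
      g7 ?_
    rw [hξdef]; exact k2
  · -- two near maximisers
    have hξa : ξ * ‖a‖ ≤ 1 := by
      refine (mul_le_mul_of_nonneg_left haD hξ0).trans ?_
      rw [hξdef]; exact k1
    have hm0 : 0 < m := hσ.trans_le hmσ
    obtain ⟨b, hb, hab, hbn, hbD⟩ := D.good (Or.inl ha) h2 hξa hle2
      (fun η hη => by
        obtain ⟨_, ⟨y, ⟨hy, hy2⟩, rfl⟩, hy'⟩ :=
          exists_lt_of_lt_csSup hne2 (show m - η < m by linarith)
        exact ⟨y, hy, hy2, hy'.le⟩) hm0 (hmL.trans hLM) (η := θ ^ 2) (by positivity)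
    have hρ : ∀ w, g a w = 0 → g b w = 0 → g w w ≤ 1 → |g (τ b b) w| ≤ C * θ := fun w hw hw' hw1 =>
      (D.near hle2 hm0.le (hmL.trans hLM) hθ hθ1 hb hab hbn hw1 hw hw').1
    refine D.case_large ha hb hab h1 h2 hρ hL0 hLM hA0 hAL hσ (by linarith) (hle b hb)
      (mul_le_mul_of_nonneg_left (add_le_add haD
        (hbD.trans (div_le_div_of_nonneg_left (by norm_num) hσ hmσ))) (by linarith)) ?_ ?_
    · exact k3
    · rw [hξdef]; exact k4

end Hyp

end Cubic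

/-- The totally symmetric form vanishes. -/
theorem cubic_zero {H : Type*} [NormedAddCommGroup H] [NormedSpace ℝ H] [CompleteSpace H]
    (J : H → H →L[ℝ] ℝ) (hJ : ∀ u x, |J u x| ≤ ‖x‖) (hJu : ∀ u, u ≠ 0 → J u u = ‖u‖)
    (g : H →L[ℝ] H →L[ℝ] ℝ) (hgs : ∀ a b, g a b = g b a) (hg0 : ∀ a, 0 ≤ g a a)
    (hrank : ∃ e f : H, g e e = 1 ∧ g f f = 1 ∧ g e f = 0)
    (τ : H →L[ℝ] H →L[ℝ] H) (hτs : ∀ a b, τ a b = τ b a)
    (hτg : ∀ a b c, g (τ a b) c = g (τ a c) b)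
    (hEig : ∀ u : H, u ≠ 0 → ∃ δ : ℝ, |δ| ≤ 2 ∧ ∀ w, J u (τ u w) = δ * g u w) :
    ∀ a b c, g (τ a b) c = 0 := by
  set Γ := Real.sqrt (max 1 ‖g‖) with hΓ
  have D : Cubic.Hyp J g τ Γ :=
    { le := hJ, self := hJu, gs := hgs, g0 := hg0, ts := hτs, tg := hτg, eig := hEig
      one_le := Real.one_le_sqrt.2 (le_max_left _ _)
      bound := fun a b => by
        rw [hΓ, Real.sq_sqrt (le_trans zero_le_one (le_max_left _ _))]
        refine (g.le_opNorm₂ a b).trans ?_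
        rw [mul_assoc]
        exact mul_le_mul_of_nonneg_right (le_max_right _ _) (by positivity) }
  have h1 : ∀ x, g (τ x x) x = 0 := by
    intro x
    rcases (hg0 x).eq_or_lt with h | h
    · refine abs_nonpos_iff.1 ((D.diag_le x x).trans ?_)
      rw [← h, mul_zero]
    have h2 := D.cub_le (p := 0) (fun y hy _ => D.cub_nonpos hrank y hy) (by simp) h
    have h3 := D.cub_le (p := 0) (fun y hy _ => D.cub_nonpos hrank y hy) (v := -x) (by simp)
      (by simpa using h)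
    simp at h2 h3
    linarith
  have h2 : ∀ a b, g (τ a a) b = 0 := fun a b => by
    have p1 := h1 (a + b)
    have p2 := h1 (a - b)
    simp only [map_add, map_sub, add_apply, sub_apply, h1 a, h1 b, hτs b a, hτg a b a,
      hτg b b a] at p1 p2
    linarith
  intro a b c
  have := h2 (a + b) c
  simp only [map_add, add_apply, h2, hτs b a, zero_add, add_zero] at this
  linarith

end Vale.Agent.P084.Smooth
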