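import Vale.Agent.P084.Smooth.Nice

/-!
Isometries of spheres, extended homogeneously, between spaces with such norms.
-/

open Set Filter Topology Metric

namespace Vale.Agent.P084.Smooth

variable {X Y : Type*} [NormedAddCommGroup X] [NormedSpace ℝ X]
  [NormedAddCommGroup Y] [NormedSpace ℝ Y]

variable (X Y) in
/-- An isometry of unit spheres with its inverse, extended homogeneously. -/
structure Ext where
  /-- the map -/
  F : X → Y
  /-- the inverse -/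
  G : Y → X
  norm_F : ∀ x, ‖F x‖ = ‖x‖
  smul_F : ∀ (t : ℝ) x, 0 ≤ t → F (t • x) = t • F x
  GF : ∀ x, G (F x) = x
  FG : ∀ y, F (G y) = y
  iso : ∀ x y, ‖x‖ = 1 → ‖y‖ = 1 → ‖F x - F y‖ = ‖x - y‖
  lipF : ∀ x y, ‖F x - F y‖ ≤ 3 * ‖x - y‖
  lipG : ∀ x y, ‖G x - G y‖ ≤ 3 * ‖x - y‖

lemma second_diff_arith {sa sb t K C : ℝ} (hC : 0 ≤ C) (hK : 0 ≤ K) (hK1 : K ≤ 1 / 8)
    (ht : 7 / 8 ≤ t) (ht1 : t ≤ 9 / 8) (ha : -K ≤ sa - t) (ha' : sa - t ≤ K)
    (hb : -K ≤ sb - t) (hb' : sb - t ≤ K) (hS : 2 * t ≤ sa + sb)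
    (key : 2 * (sa * sb) ≤ (sa + sb) * (t + 2 * K ^ 2) + sa * sb * (C * (64 * K ^ 2))) :
    sa + sb ≤ 2 * t + 16 * (1024 * C + 64) * K ^ 2 := by
  have hK2 : 0 ≤ K ^ 2 := sq_nonneg K
  have h1 : sa * sb ≤ 4 := by nlinarith
  have h2 : (sa - sb) ^ 2 ≤ 4 * K ^ 2 := by nlinarith
  have h3 := mul_le_mul_of_nonneg_right h1 (by positivity : 0 ≤ C * (64 * K ^ 2))
  have h4 : (sa + sb) * K ^ 2 ≤ 3 * K ^ 2 := mul_le_mul_of_nonneg_right (by linarith) hK2
  have h5 : (sa + sb) * (sa + sb - 2 * t) ≤ (512 * C + 16) * K ^ 2 := by nlinarith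
  have h6 : sa + sb - 2 * t ≤ (sa + sb) * (sa + sb - 2 * t) :=
    le_mul_of_one_le_left (by linarith) (by linarith)
  have h7 : 0 ≤ C * K ^ 2 := by positivity
  nlinarith

lemma obs_arith (A m L Pd Pz Qd Qz d C1 C2 C3 : ℝ)
    (b1 : |A - (Qd - m * Qz)| ≤ C2 * (2 * d) ^ 2) (b2 : |A - (Pd - m * Pz)| ≤ C3 * (6 * d) ^ 2)
    (b3 : |(Pz - Qz) * (m - L)| ≤ 2 * (C1 * d ^ 2)) :
    |Pd - (Qd + (Pz - Qz) * L)| ≤ (C2 * 4 + C3 * 36 + 2 * C1) * d ^ 2 := by
  rw [abs_le] at b1 b2 b3 ⊢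
  constructor <;> linarith [b1.1, b1.2, b2.1, b2.2, b3.1, b3.2]

namespace Ext

variable (S : Ext X Y)

lemma norm_G (y : Y) : ‖S.G y‖ = ‖y‖ := by rw [← S.norm_F, S.FG]

/-- The inverse. -/
def symm : Ext Y X where
  F := S.G
  G := S.F
  norm_F := S.norm_G
  smul_F t y ht := by conv_lhs => rw [← S.FG y, ← S.smul_F t _ ht, S.GF]
  GF := S.FG
  FG := S.GF
  iso a b ha hb := by
    have := S.iso (S.G a) (S.G b) (by rw [S.norm_G, ha]) (by rw [S.norm_G, hb])
    rw [S.FG, S.FG] at this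
    exact this.symm
  lipF := S.lipG
  lipG := S.lipF

lemma F_zero : S.F 0 = 0 := by simpa using S.smul_F 0 0 le_rfl

lemma F_ne {x : X} (hx : x ≠ 0) : S.F x ≠ 0 := fun h => hx (by
  rw [← norm_eq_zero, ← S.norm_F, h, norm_zero])

lemma continuous_F : Continuous S.F :=
  (LipschitzWith.of_dist_le_mul (K := 3) fun x y => by
    rw [dist_eq_norm, dist_eq_norm]; exact_mod_cast S.lipF x y).continuous

lemma F_unit (x : X) : S.F (unit x) = unit (S.F x) := by
  rw [unit, unit, S.smul_F _ _ (by positivity), S.norm_F]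

lemma iso' {a b : X} (h : ‖a‖ = ‖b‖) : ‖S.F a - S.F b‖ = ‖a - b‖ := by
  rcases eq_or_ne a 0 with rfl | ha
  · rw [norm_zero] at h
    rw [norm_eq_zero.1 h.symm]; simp
  have hb : b ≠ 0 := fun e => ha (by rw [← norm_eq_zero, h, e, norm_zero])
  have h1 := S.iso _ _ (norm_unit ha) (norm_unit hb)
  rw [S.F_unit, S.F_unit, unit, unit, unit, unit, S.norm_F, S.norm_F, ← h, ← smul_sub, ← smul_sub,
    norm_smul, norm_smul] at h1
  exact mul_left_cancel₀ (by simpa using ha) h1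

lemma neg_F (hX : Nice X) (x : X) : S.F (-x) = -S.F x := by
  rcases eq_or_ne x 0 with rfl | hx
  · simp [S.F_zero]
  set w := S.G (-S.F x)
  have hw : ‖w‖ = ‖x‖ := by rw [S.norm_G, norm_neg, S.norm_F]
  have h2 : ‖w - x‖ = 2 * ‖x‖ := by
    rw [← S.iso' hw, S.FG, ← neg_add', norm_neg, ← two_smul ℝ, norm_smul, S.norm_F]; norm_num
  have hx' := norm_unit hx
  have hw' : ‖-(‖x‖⁻¹ • w)‖ = 1 := by
    rw [norm_neg, norm_smul, norm_inv, norm_norm, hw, inv_mul_cancel₀ (norm_ne_zero_iff.2 hx)]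
  have := hX.rot_eq hw' hx' (le_of_eq (by
    rw [neg_add_eq_sub, norm_sub_rev, unit, ← smul_sub, norm_smul, norm_inv, norm_norm, h2]
    field_simp [norm_ne_zero_iff.2 hx]))
  rw [unit, ← smul_neg] at this
  have e : -w = x := smul_right_injective X (inv_ne_zero (norm_ne_zero_iff.2 hx)) this
  rw [← e, neg_neg]
  show S.F w = _
  rw [show S.F w = -S.F x from S.FG _, e]

lemma sum (hX : Nice X) {a b : X} (h : ‖a‖ = ‖b‖) : ‖S.F a + S.F b‖ = ‖a + b‖ := by
  have := S.iso' (a := a) (b := -b) (by rw [norm_neg, h])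
  rwa [S.neg_F hX, sub_neg_eq_add, sub_neg_eq_add] at this

include S in
/-- The target inherits the properties of the source. -/
theorem nice_target (hX : Nice X) : Nice Y := by
  refine ⟨?_, ?_, ?_⟩
  · have := hX.complete
    refine Metric.complete_of_cauchySeq_tendsto fun u hu => ?_
    have hG : UniformContinuous S.G := (LipschitzWith.of_dist_le_mul (K := 3) fun x y => by
      rw [dist_eq_norm, dist_eq_norm]; exact_mod_cast S.lipG x y).uniformContinuous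
    obtain ⟨z, hz⟩ := cauchySeq_tendsto_of_complete (hG.comp_cauchySeq hu)
    exact ⟨S.F z, by simpa [Function.comp_def, S.FG] using (S.continuous_F.tendsto z).comp hz⟩
  · intro y hy ε hε
    obtain ⟨η, hη, h⟩ := hX.lur (S.G y) (by rw [S.norm_G, hy]) ε hε
    refine ⟨η, hη, fun a ha hd => ?_⟩
    have hab : ‖S.G a‖ = ‖S.G y‖ := by rw [S.norm_G, S.norm_G, ha, hy]
    have h1 := S.sum hX hab
    have h2 := S.iso' hab
    rw [S.FG, S.FG] at h1 h2
    rw [h1]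
    exact h _ (by rw [S.norm_G, ha]) (hd.trans h2.le)
  · intro w hw
    obtain ⟨r, hr, C, h⟩ := hX.smooth (S.G w) (by rw [S.norm_G, hw])
    set C' := max C 0
    refine ⟨min (1 / 8) (r / 32), by positivity, 16 * (1024 * C' + 64), fun y k hy hk => ?_⟩
    have hy1 : 7 / 8 ≤ ‖y‖ ∧ ‖y‖ ≤ 9 / 8 := by
      have := abs_norm_sub_norm_le y w
      rw [hw, abs_le] at this
      constructor <;> linarith [hy.trans (min_le_left _ _)]
    have hk1 : ‖k‖ ≤ 1 / 8 := hk.trans (min_le_left _ _)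
    set t := ‖y‖
    set sa := ‖y + k‖ with hsa
    set sb := ‖y - k‖ with hsb
    have hsa1 : |sa - t| ≤ ‖k‖ := by simpa [hsa] using abs_norm_sub_norm_le (y + k) y
    have hsb1 : |sb - t| ≤ ‖k‖ := by simpa [hsb] using abs_norm_sub_norm_le (y - k) y
    rw [abs_le] at hsa1 hsb1
    have hsa0 : 0 < sa := by linarith
    have hsb0 : 0 < sb := by linarith
    have hane : y + k ≠ 0 := norm_pos_iff.1 hsa0
    have hbne : y - k ≠ 0 := norm_pos_iff.1 hsb0
    have hw0 : w ≠ 0 := ne_zero_of_norm_one hw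
    have hclose : ∀ v : Y, v ≠ 0 → ‖v - y‖ ≤ ‖k‖ → ‖unit v - w‖ ≤ r / 8 := fun v hv hvy => by
      have h1 := norm_unit_sub_unit_le hw0 hv
      rw [hw, div_one, unit, hw, inv_one, one_smul, norm_sub_rev w (unit v), norm_sub_rev w v] at h1
      linarith [norm_sub_le_norm_sub_add_norm_sub v y w, hy.trans (min_le_right _ _),
        hk.trans (min_le_right _ _)]
    set a := unit (y + k) with ha
    set b := unit (y - k) with hb
    have ha1 : ‖a‖ = 1 := norm_unit hane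
    have hb1 : ‖b‖ = 1 := norm_unit hbne
    -- the source gives a lower bound on the sum
    have hlow : 2 ≤ ‖a + b‖ + C' * ‖a - b‖ ^ 2 := by
      have hab : ‖S.G a‖ = ‖S.G b‖ := by rw [S.norm_G, S.norm_G, ha1, hb1]
      have h1 := S.sum hX hab
      have h2 := S.iso' hab
      rw [S.FG, S.FG] at h1 h2
      have da := (S.lipG a w).trans
        (mul_le_mul_of_nonneg_left (hclose _ hane (by simp)) (by norm_num))
      have db := (S.lipG b w).trans
        (mul_le_mul_of_nonneg_left (hclose _ hbne (by simp)) (by norm_num))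
      set u := S.G a
      set v := S.G b
      have h3 := h ((2 : ℝ)⁻¹ • (u + v)) ((2 : ℝ)⁻¹ • (u - v)) (by
          rw [show (2 : ℝ)⁻¹ • (u + v) - S.G w = (2 : ℝ)⁻¹ • ((u - S.G w) + (v - S.G w)) by module,
            norm_smul]
          norm_num
          linarith [norm_add_le (u - S.G w) (v - S.G w)]) (by
          rw [norm_smul]; norm_num
          linarith [norm_sub_le_norm_sub_add_norm_sub u (S.G w) v, norm_sub_rev v (S.G w)])
      rw [show (2 : ℝ)⁻¹ • (u + v) + (2 : ℝ)⁻¹ • (u - v) = u by module,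
        show (2 : ℝ)⁻¹ • (u + v) - (2 : ℝ)⁻¹ • (u - v) = v by module, norm_smul, norm_smul,
        S.norm_G, S.norm_G, ha1, hb1] at h3
      norm_num at h3
      rw [h1, h2]
      have : C * (1 / 2 * ‖u - v‖) ^ 2 ≤ C' * ‖u - v‖ ^ 2 := by
        refine (mul_le_mul_of_nonneg_right (le_max_left C 0) (sq_nonneg _)).trans
          (mul_le_mul_of_nonneg_left ?_ (le_max_right _ _))
        nlinarith [norm_nonneg (u - v)]
      linarith
    have hd : ‖a - b‖ ≤ 8 * ‖k‖ := by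
      refine (norm_unit_sub_unit_le hane hbne).trans ?_
      rw [div_le_iff₀ hsa0, show y + k - (y - k) = (2 : ℝ) • k by module, norm_smul]
      norm_num
      nlinarith [norm_nonneg k]
    have hsum : ‖a + b‖ ≤ (sa⁻¹ + sb⁻¹) * (t + 2 * ‖k‖ ^ 2) := by
      have e : a + b = (sa⁻¹ + sb⁻¹) • (y + ((sb - sa) / (sa + sb)) • k) := by
        rw [smul_add, smul_smul,
          show (sa⁻¹ + sb⁻¹) * ((sb - sa) / (sa + sb)) = sa⁻¹ - sb⁻¹ by field_simp; ring]
        simp only [ha, hb, unit, ← hsa, ← hsb]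
        module
      rw [e, norm_smul, Real.norm_of_nonneg (by positivity)]
      refine mul_le_mul_of_nonneg_left ((norm_add_le _ _).trans (add_le_add le_rfl ?_))
        (by positivity)
      rw [norm_smul, Real.norm_eq_abs, abs_div, abs_of_pos (by positivity : 0 < sa + sb),
        div_mul_eq_mul_div, div_le_iff₀ (by positivity)]
      have : |sb - sa| ≤ 2 * ‖k‖ := abs_le.2 ⟨by linarith, by linarith⟩
      nlinarith [norm_nonneg k, mul_le_mul_of_nonneg_right this (norm_nonneg k)]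
    have key : 2 * (sa * sb) ≤ (sa + sb) * (t + 2 * ‖k‖ ^ 2) + sa * sb * (C' * (64 * ‖k‖ ^ 2)) := by
      have h1 : 2 ≤ (sa⁻¹ + sb⁻¹) * (t + 2 * ‖k‖ ^ 2) + C' * (64 * ‖k‖ ^ 2) := by
        have : C' * ‖a - b‖ ^ 2 ≤ C' * (64 * ‖k‖ ^ 2) := by
          refine mul_le_mul_of_nonneg_left ?_ (le_max_right _ _)
          nlinarith [norm_nonneg (a - b)]
        linarith
      have := mul_le_mul_of_nonneg_left h1 (mul_pos hsa0 hsb0).le
      rw [mul_add, ← mul_assoc, show sa * sb * (sa⁻¹ + sb⁻¹) = sa + sb by field_simp; ring] at this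
      linarith
    show sa + sb ≤ 2 * t + _
    have hS : 2 * t ≤ sa + sb := by
      have := norm_add_le (y + k) (y - k)
      rw [show y + k + (y - k) = (2 : ℝ) • y by module, norm_smul] at this
      norm_num at this
      exact this
    exact second_diff_arith (le_max_right _ _) (norm_nonneg k) hk1 hy1.1 hy1.2 hsa1.1 hsa1.2
      hsb1.1 hsb1.2 hS key

section Deriv

variable (hX : Nice X) (hY : Nice Y)
include hX hY

/-- The functionals of points near `F x₀` norm chords of the sphere. -/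
lemma exists_chord {x₀ : X} (hx₀ : ‖x₀‖ = 1) {η : ℝ} (hη : 0 < η) :
    ∃ ρ > (0 : ℝ), ∀ x, ‖x - x₀‖ ≤ ρ → ∀ e : Y, ‖e‖ = 1 → ‖e - S.F x₀‖ ≤ ρ →
      ∃ z, ‖z‖ = 1 ∧ ‖z + x₀‖ ≤ η ∧ dn (S.F x - ‖x‖ • S.F z) = dn e := by
  have hx0 := ne_zero_of_norm_one hx₀
  have hw : ‖S.F x₀‖ = 1 := by rw [S.norm_F, hx₀]
  set δ := min (1 / 2) (η / 9) with hδ
  have hδ0 : 0 < δ := lt_min (by norm_num) (by positivity)
  refine ⟨δ / 12, by positivity, fun x hx1 e he hed => ?_⟩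
  have hδ12 : δ ≤ 1 / 2 := min_le_left _ _
  have hxn : x ≠ 0 := fun e => by rw [e, zero_sub, norm_neg, hx₀] at hx1; linarith
  have hew : ‖e - S.F x₀‖ ≤ δ / 2 := by linarith
  set a := S.F (unit x) with ha
  have ha1 : ‖a‖ = 1 := by rw [S.norm_F, norm_unit hxn]
  have haw : ‖a - S.F x₀‖ ≤ δ / 2 := by
    have h1 := norm_unit_sub_unit_le hx0 hxn
    rw [hx₀, div_one, unit, hx₀, inv_one, one_smul, norm_sub_rev x₀ (unit x), norm_sub_rev x₀ x] at h1
    linarith [S.lipF (unit x) x₀]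
  have hae : ‖a - e‖ ≤ δ := by
    linarith [norm_sub_le_norm_sub_add_norm_sub a (S.F x₀) e, norm_sub_rev e (S.F x₀)]
  obtain ⟨s, hs, hs1⟩ : ∃ s ∈ Icc (1 : ℝ) 3, ‖a - s • e‖ = 1 := by
    refine intermediate_value_Icc (by norm_num) (by fun_prop : Continuous fun s : ℝ => ‖a - s • e‖).continuousOn ?_
    refine ⟨by simp only [one_smul]; linarith, ?_⟩
    have := norm_sub_norm_le ((3 : ℝ) • e) a
    rw [norm_smul, he, ha1, norm_sub_rev] at this
    norm_num at this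
    linarith
  have hs2 : |s - 2| ≤ δ := by
    have h1 := abs_norm_sub_norm_le (a - s • e) ((1 - s) • e)
    rw [show a - s • e - (1 - s) • e = a - e by module, hs1, norm_smul, he, mul_one,
      Real.norm_eq_abs, abs_of_nonpos (by linarith [hs.1] : 1 - s ≤ 0)] at h1
    rw [show s - 2 = -(1 - -(1 - s)) by ring, abs_neg]
    exact h1.trans hae
  refine ⟨S.G (a - s • e), by rw [S.norm_G, hs1], ?_, ?_⟩
  · have h1 := S.lipG (a - s • e) (-S.F x₀)
    rw [← S.neg_F hX, S.GF, sub_neg_eq_add, S.neg_F hX] at h1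
    refine h1.trans ?_
    have : ‖a - s • e - -S.F x₀‖ ≤ 3 * δ := by
      rw [show a - s • e - -S.F x₀ = (a - e) + ((S.F x₀ - e) + (2 - s) • e) by module]
      refine (norm_add_le _ _).trans ((add_le_add le_rfl (norm_add_le _ _)).trans ?_)
      rw [norm_smul, he, mul_one, Real.norm_eq_abs, abs_sub_comm, norm_sub_rev (S.F x₀)]
      linarith
    linarith [min_le_right (1 / 2 : ℝ) (η / 9)]
  · rw [S.FG, ha, S.F_unit, unit, S.norm_F, smul_sub, smul_smul,
      mul_inv_cancel₀ (norm_ne_zero_iff.2 hxn), one_smul, sub_sub_cancel, smul_smul,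
      hY.dn_smul (ne_zero_of_norm_one he) (by have := norm_pos_iff.2 hxn; nlinarith [hs.1])]

/-- First order expansion of `F` seen by one functional. -/
lemma exists_obs {x₀ : X} (hx₀ : ‖x₀‖ = 1) : ∃ ρ > (0 : ℝ), ∃ rad > (0 : ℝ), ∃ K : ℝ, 0 ≤ K ∧
    ∀ x, ‖x - x₀‖ ≤ rad → ∀ e : Y, ‖e‖ = 1 → ‖e - S.F x₀‖ ≤ ρ →
      ∃ D : X →L[ℝ] ℝ, ∀ y, ‖y - x₀‖ ≤ rad →
        |dn e (S.F y - S.F x) - D (y - x)| ≤ K * ‖y - x‖ ^ 2 := by
  have hx0 := ne_zero_of_norm_one hx₀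
  have h2 : (2 : ℝ) • x₀ ≠ 0 := smul_ne_zero two_ne_zero hx0
  have h2' : (2 : ℝ) • S.F x₀ ≠ 0 := smul_ne_zero two_ne_zero (S.F_ne hx0)
  obtain ⟨r1, hr1, C1, hC1, hn⟩ := (hX.c11At_norm hx0).data
  obtain ⟨r2', hr2', C2, hC2, hu⟩ := (hX.c11At_norm h2).data
  obtain ⟨r3, hr3, C3, hC3, hU⟩ := (hY.c11At_norm h2').data
  set r2 := min r2' 1 with hr2def
  have hr2 : 0 < r2 := lt_min hr2' one_pos
  obtain ⟨ρ, hρ, hch⟩ := S.exists_chord hX hY hx₀ (η := min (r2 / 4) (r3 / 12)) (by positivity)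
  set rad := min (min r1 ρ) (min (r2 / 8) (r3 / 24))
  refine ⟨ρ, hρ, rad, by positivity, C2 * 4 + C3 * 36 + 2 * C1, by positivity,
    fun x hx e he hed => ?_⟩
  obtain ⟨z, hz, hzx, hzp⟩ :=
    hch x (hx.trans ((min_le_left _ _).trans (min_le_right _ _))) e he hed
  have hp : ‖dn (S.F x - ‖x‖ • S.F z)‖ = 1 := by
    rw [hzp]; exact (hY.dn_spec (ne_zero_of_norm_one he)).1
  rw [← hzp]
  have near : ∀ y, ‖y - x₀‖ ≤ rad → ‖y - ‖y‖ • z - (2 : ℝ) • x₀‖ ≤ r2 ∧
      ‖S.F y - ‖y‖ • S.F z - (2 : ℝ) • S.F x₀‖ ≤ r3 := by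
    intro y hy
    have h1 := abs_norm_sub_norm_le y x₀
    rw [hx₀] at h1
    have hy2 := hy.trans ((min_le_right _ _).trans (min_le_left _ _))
    have hy3 := hy.trans ((min_le_right _ _).trans (min_le_right _ _))
    constructor
    · rw [show y - ‖y‖ • z - (2 : ℝ) • x₀ =
        (y - x₀) + ((1 - ‖y‖) • z + -(z + x₀)) by module]
      refine (norm_add_le _ _).trans ((add_le_add le_rfl (norm_add_le _ _)).trans ?_)
      rw [norm_neg, norm_smul, hz, mul_one, Real.norm_eq_abs, abs_sub_comm]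
      linarith [hzx.trans (min_le_left _ _)]
    · have hz' : ‖S.F z + S.F x₀‖ ≤ 3 * ‖z + x₀‖ := by
        have := S.lipF z (-x₀)
        rwa [S.neg_F hX, sub_neg_eq_add, sub_neg_eq_add] at this
      rw [show S.F y - ‖y‖ • S.F z - (2 : ℝ) • S.F x₀ =
        (S.F y - S.F x₀) + ((1 - ‖y‖) • S.F z + -(S.F z + S.F x₀)) by module]
      refine (norm_add_le _ _).trans ((add_le_add le_rfl (norm_add_le _ _)).trans ?_)
      rw [norm_neg, norm_smul, S.norm_F, hz, mul_one, Real.norm_eq_abs, abs_sub_comm]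
      linarith [hzx.trans (min_le_right _ _), S.lipF y x₀]
  set q := dn (x - ‖x‖ • z) with hq
  set p := dn (S.F x - ‖x‖ • S.F z) with hp'
  refine ⟨q + (p (S.F z) - q z) • dn x, fun y hy => ?_⟩
  obtain ⟨nx2, nx3⟩ := near x hx
  obtain ⟨ny2, ny3⟩ := near y hy
  have e1 := ((hu _ (nx2.trans (min_le_left _ _))).2 _ (ny2.trans (min_le_left _ _))).1
  have e2 := ((hU _ nx3).2 _ ny3).1
  have e3 := ((hn x (hx.trans ((min_le_left _ _).trans (min_le_left _ _)))).2 y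
    (hy.trans ((min_le_left _ _).trans (min_le_left _ _)))).1
  have eiso : ∀ w : X, ‖S.F w - ‖w‖ • S.F z‖ = ‖w - ‖w‖ • z‖ := fun w => by
    rw [← S.smul_F _ _ (norm_nonneg w)]
    exact S.iso' (by rw [norm_smul, norm_norm, hz, mul_one])
  simp only [eiso, Real.norm_eq_abs] at e1 e2 e3
  rw [dn] at hq hp'
  rw [← hq] at e1
  rw [← hp'] at e2
  set m := ‖y‖ - ‖x‖ with hm
  have hmd : |m| ≤ ‖y - x‖ := abs_norm_sub_norm_le y x
  rw [show y - ‖y‖ • z - (x - ‖x‖ • z) = (y - x) - m • z by rw [hm]; module] at e1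
  rw [show S.F y - ‖y‖ • S.F z - (S.F x - ‖x‖ • S.F z) = (S.F y - S.F x) - m • S.F z by
    rw [hm]; module] at e2
  have d1 : ‖(y - x) - m • z‖ ≤ 2 * ‖y - x‖ := by
    refine (norm_sub_le _ _).trans ?_
    rw [norm_smul, hz, mul_one, Real.norm_eq_abs]; linarith
  have d2 : ‖(S.F y - S.F x) - m • S.F z‖ ≤ 6 * ‖y - x‖ := by
    refine (norm_sub_le _ _).trans ?_
    rw [norm_smul, S.norm_F, hz, mul_one, Real.norm_eq_abs]
    linarith [S.lipF y x, norm_nonneg (y - x)]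
  have b1 := e1.trans (mul_le_mul_of_nonneg_left (pow_le_pow_left₀ (norm_nonneg _) d1 2) hC2)
  have b2 := e2.trans (mul_le_mul_of_nonneg_left (pow_le_pow_left₀ (norm_nonneg _) d2 2) hC3)
  have hpz : |p (S.F z) - q z| ≤ 2 := by
    have h1 := p.le_opNorm (S.F z)
    rw [hp, S.norm_F, hz, one_mul, Real.norm_eq_abs] at h1
    have hne : x - ‖x‖ • z ≠ 0 := fun e => by
      rw [e, zero_sub, norm_neg, norm_smul, hx₀, Real.norm_two] at nx2
      linarith [nx2.trans (min_le_right _ _)]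
    have h2 := hX.dn_le hne z
    rw [hz] at h2
    calc |p (S.F z) - q z| ≤ |p (S.F z)| + |q z| := abs_sub _ _
      _ ≤ 2 := by linarith
  have b3 : |(p (S.F z) - q z) * (m - dn x (y - x))| ≤ 2 * (C1 * ‖y - x‖ ^ 2) := by
    rw [abs_mul]; exact mul_le_mul hpz e3 (abs_nonneg _) (by norm_num)
  rw [map_sub q, map_smul q, smul_eq_mul] at b1
  rw [map_sub p, map_smul p, smul_eq_mul] at b2
  rw [add_apply, smul_apply, smul_eq_mul]
  exact obs_arith _ _ _ _ _ _ _ _ _ _ _ b1 b2 b3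

/-- The extension is `C^{1,1}`. -/
theorem c11At_F_of_unit {x₀ : X} (hx₀ : ‖x₀‖ = 1) : C11At S.F x₀ := by
  obtain ⟨ρ, hρ, rad, hrad, K, hK, step⟩ := S.exists_obs hX hY hx₀
  obtain ⟨K', hK', hnorm⟩ := hY.norming (w := S.F x₀) (by rw [S.norm_F, hx₀]) hρ
  have := hY.complete
  refine exists_linear_approx
    {T : Y →L[ℝ] ℝ | ∃ e : Y, ‖e‖ = 1 ∧ ‖e - S.F x₀‖ ≤ ρ ∧ T = dn e} (K := K') hK' ?_
    (g := S.F) (r := rad) (C := K) (L := 3) hrad hK (fun x y _ _ => S.lipF y x)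
    fun x hx T hT => ?_
  · exact fun w B hB hT => hnorm w B hB fun e he hed => hT _ ⟨e, he, hed, rfl⟩
  · obtain ⟨e, he, hed, rfl⟩ := hT
    obtain ⟨D, hD⟩ := step x hx e he hed
    exact ⟨D, hD⟩

theorem c11At_F {x : X} (hx : x ≠ 0) : C11At S.F x := by
  obtain ⟨r, hr, C, hC, h⟩ := S.c11At_F_of_unit hX hY (norm_unit hx)
  have ht : 0 < ‖x‖ := norm_pos_iff.2 hx
  refine .of_exists ⟨r * ‖x‖, by positivity, C / ‖x‖,
    fun y hy => ⟨fderiv ℝ S.F (‖x‖⁻¹ • y), fun z hz => ?_⟩⟩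
  have hscale : ∀ w : X, ‖w - x‖ ≤ r * ‖x‖ → ‖‖x‖⁻¹ • w - unit x‖ ≤ r := fun w hw => by
    rw [unit, ← smul_sub, norm_smul, norm_inv, norm_norm, inv_mul_le_iff₀ ht, mul_comm]
    exact hw
  have h1 := h _ _ (hscale y hy) (hscale z hz)
  rw [S.smul_F _ _ (inv_pos.2 ht).le, S.smul_F _ _ (inv_pos.2 ht).le] at h1
  simp only [← smul_sub, map_smul, norm_smul, norm_inv, norm_norm] at h1
  rw [inv_mul_le_iff₀ ht] at h1
  refine h1.trans (le_of_eq ?_)
  field_simp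

end Deriv

end Ext

end Vale.Agent.P084.Smooth
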