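import Vale.Agent.P084.Smooth.Nice

/-!
For a locally uniformly rotund norm no field of kernel vectors of the second derivative exists.
-/

open Set Filter Topology Metric

namespace Vale.Agent.P084.Smooth

variable {X : Type*} [NormedAddCommGroup X] [NormedSpace ℝ X]

/-- Euler polygons along a field of kernel vectors would keep the derivative of the norm. -/
theorem Nice.no_kernel_field (hX : Nice X) {x₀ : X} (hx₀ : x₀ ≠ 0) (hdX : C11At dn x₀)
    (z : X → X) (φ : X →L[ℝ] ℝ) {r M c : ℝ} (hr : 0 < r) (hc : 0 < c)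
    (hz : ∀ x, ‖x - x₀‖ ≤ r →
      ‖z x‖ ≤ M ∧ dn x (z x) = 0 ∧ fderiv ℝ dn x (z x) = 0 ∧ c ≤ φ (z x)) : False := by
  obtain ⟨r1, hr1, C1, hC1, hd⟩ := hdX.data
  obtain ⟨r2, hr2, C2, hC2, hn⟩ := (hX.c11At_norm hx₀).data
  have hM : 0 ≤ M := (norm_nonneg _).trans (hz x₀ (by simpa using hr.le)).1
  set n0 := ‖x₀‖
  have hn0 : 0 < n0 := norm_pos_iff.2 hx₀
  set σ := min (min r r1) (min r2 (n0 / 2)) / (M + 1) with hσ
  have hσ0 : 0 < σ := by positivity
  have hσM : σ * M ≤ min (min r r1) (min r2 (n0 / 2)) := by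
    rw [hσ, div_mul_eq_mul_div, div_le_iff₀ (by positivity)]
    exact mul_le_mul_of_nonneg_left (by linarith) (by positivity)
  set Q := (C1 + C2) * (σ * M) ^ 2 with hQ
  have hQ0 : 0 ≤ Q := by positivity
  set Ψ := ‖φ‖ + 1 with hΨ
  have hΨ0 : 0 < Ψ := by positivity
  set ε := σ * c / (4 * Ψ * n0) with hε
  have hε0 : 0 < ε := by positivity
  obtain ⟨η, hη, hlur⟩ := hX.lur (unit x₀) (norm_unit hx₀) ε hε0
  obtain ⟨n, hn'⟩ := exists_nat_gt (Q * Ψ * 4 / (σ * c) + Q * (2 + 2 * n0) / (η * n0))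
  set N : ℝ := (n : ℝ) + 1 with hN
  have hN0 : 0 < N := by positivity
  set h := σ / N with hh
  have hh0 : 0 < h := by positivity
  set X' : ℕ → X := fun i => (fun x => x + h • z x)^[i] x₀ with hX'
  have key : ∀ i : ℕ, i ≤ n + 1 → ‖X' i - x₀‖ ≤ i * (h * M) ∧
      ‖dn (X' i) - dn x₀‖ ≤ i * (C1 * (h * M) ^ 2) ∧
      |‖X' i‖ - n0| ≤ i * (C2 * (h * M) ^ 2) ∧ i * (h * c) ≤ φ (X' i - x₀) := by
    intro i
    induction i with
    | zero => intro; simp [hX', n0]
    | succ i ih =>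
      intro hi
      obtain ⟨a1, a2, a3, a4⟩ := ih (Nat.le_of_succ_le hi)
      have hiN : ((i : ℝ) + 1) * (h * M) ≤ σ * M := by
        have h1 : ((i : ℝ) + 1) ≤ N := by
          rw [hN]; exact_mod_cast hi
        have h2 : N * h = σ := mul_div_cancel₀ σ hN0.ne'
        calc ((i : ℝ) + 1) * (h * M) ≤ N * (h * M) :=
              mul_le_mul_of_nonneg_right h1 (by positivity)
          _ = σ * M := by rw [← mul_assoc, h2]
      have hle := hiN.trans hσM
      have hin : ‖X' i - x₀‖ ≤ min (min r r1) (min r2 (n0 / 2)) := by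
        linarith [mul_nonneg hh0.le hM]
      obtain ⟨z1, z2, z3, z4⟩ := hz (X' i) (hin.trans ((min_le_left _ _).trans (min_le_left _ _)))
      have hstep : X' (i + 1) = X' i + h • z (X' i) := by
        simp only [hX', Function.iterate_succ_apply']
      have hd0 : ‖X' (i + 1) - X' i‖ ≤ h * M := by
        rw [hstep, add_sub_cancel_left, norm_smul, Real.norm_of_nonneg hh0.le]
        exact mul_le_mul_of_nonneg_left z1 hh0.le
      have b1 : ‖X' (i + 1) - x₀‖ ≤ ((i + 1 : ℕ) : ℝ) * (h * M) := by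
        push_cast
        linarith [norm_sub_le_norm_sub_add_norm_sub (X' (i + 1)) (X' i) x₀]
      have hin' : ‖X' (i + 1) - x₀‖ ≤ min (min r r1) (min r2 (n0 / 2)) := by
        push_cast at b1
        linarith
      have e1 := ((hd (X' i) (hin.trans ((min_le_left _ _).trans (min_le_right _ _)))).2 _
        (hin'.trans ((min_le_left _ _).trans (min_le_right _ _)))).1
      have e2 := ((hn (X' i) (hin.trans ((min_le_right _ _).trans (min_le_left _ _)))).2 _
        (hin'.trans ((min_le_right _ _).trans (min_le_left _ _)))).1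
      have hd0' := pow_le_pow_left₀ (norm_nonneg _) hd0 2
      have hdiff : X' (i + 1) - X' i = h • z (X' i) := by rw [hstep, add_sub_cancel_left]
      rw [hdiff, map_smul, z3, smul_zero, sub_zero, ← hdiff] at e1
      change ‖_ - _ - dn (X' i) (X' (i + 1) - X' i)‖ ≤ _ at e2
      rw [hdiff, map_smul, z2, smul_zero, sub_zero, ← hdiff, Real.norm_eq_abs] at e2
      refine ⟨b1, ?_, ?_, ?_⟩ <;> push_cast
      · have := norm_sub_le_norm_sub_add_norm_sub (dn (X' (i + 1))) (dn (X' i)) (dn x₀)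
        linarith [e1.trans (mul_le_mul_of_nonneg_left hd0' hC1)]
      · have := abs_sub_le ‖X' (i + 1)‖ ‖X' i‖ n0
        linarith [e2.trans (mul_le_mul_of_nonneg_left hd0' hC2)]
      · rw [hstep, add_sub_right_comm, map_add, map_smul, smul_eq_mul]
        linarith [mul_le_mul_of_nonneg_left z4 hh0.le]
  obtain ⟨k1, k2, k3, k4⟩ := key (n + 1) le_rfl
  set y := X' (n + 1)
  push_cast at k1 k2 k3 k4
  rw [← hN] at k1 k2 k3 k4
  have hNh : N * h = σ := mul_div_cancel₀ σ hN0.ne'
  rw [← mul_assoc, hNh] at k1 k4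
  have hQN : ∀ C : ℝ, C * (σ * M) ^ 2 / N = N * (C * (h * M) ^ 2) := fun C => by
    rw [hh]; field_simp
  rw [← hQN] at k2 k3
  have hQ1 : C1 * (σ * M) ^ 2 / N ≤ Q / N := by
    gcongr; rw [hQ]; gcongr; linarith
  have hQ2 : C2 * (σ * M) ^ 2 / N ≤ Q / N := by
    gcongr; rw [hQ]; gcongr; linarith
  have hbig1 : Q / N * Ψ ≤ σ * c / 4 := by
    have h1 : Q * Ψ * 4 / (σ * c) ≤ N := by
      have : 0 ≤ Q * (2 + 2 * n0) / (η * n0) := by positivity
      linarith
    rw [div_le_iff₀ (by positivity)] at h1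
    rw [div_mul_eq_mul_div, div_le_iff₀ hN0]
    linarith
  have hbig2 : Q / N * (2 + 2 * n0) < η * n0 := by
    have h1 : Q * (2 + 2 * n0) / (η * n0) < N := by
      have : 0 ≤ Q * Ψ * 4 / (σ * c) := by positivity
      linarith
    rw [div_lt_iff₀ (by positivity)] at h1
    rw [div_mul_eq_mul_div, div_lt_iff₀ hN0]
    linarith
  have hy0 : y ≠ 0 := fun e => by
    rw [e, zero_sub, norm_neg] at k1
    linarith [k1.trans (hσM.trans ((min_le_right _ _).trans (min_le_right _ _)))]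
  have hclose : ‖unit y - unit x₀‖ < ε := by
    by_contra hfar
    have h1 := hlur (unit y) (norm_unit hy0) (le_of_not_gt hfar)
    have h2 := (le_abs_self _).trans (hX.dn_le hy0 (unit y + unit x₀))
    rw [map_add, unit, map_smul, (hX.dn_spec hy0).2, smul_eq_mul,
      inv_mul_cancel₀ (norm_ne_zero_iff.2 hy0)] at h2
    have h3 : 1 - Q / N ≤ dn y (unit x₀) := by
      have h4 := (dn y - dn x₀).le_opNorm (unit x₀)
      rw [norm_unit hx₀, mul_one, sub_apply, Real.norm_eq_abs, abs_le] at h4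
      have h5 : dn x₀ (unit x₀) = 1 := by
        rw [unit, map_smul, (hX.dn_spec hx₀).2, smul_eq_mul, inv_mul_cancel₀ hn0.ne']
      linarith
    have h6 : Q / N < η := by
      by_contra h7
      rw [not_lt] at h7
      nlinarith [mul_le_mul_of_nonneg_right h7 hn0.le, div_nonneg hQ0 hN0.le]
    rw [show ‖y‖⁻¹ • y = unit y from rfl] at h2
    linarith
  have hdist : ‖y - x₀‖ ≤ Q / N + n0 * ε := by
    rw [show y - x₀ = (‖y‖ - n0) • unit y + n0 • (unit y - unit x₀) by
      rw [smul_sub, smul_unit hx₀, sub_smul, smul_unit hy0]; abel]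
    refine (norm_add_le _ _).trans ?_
    rw [norm_smul, norm_smul, norm_unit hy0, mul_one, Real.norm_eq_abs,
      Real.norm_of_nonneg hn0.le]
    exact add_le_add (k3.trans hQ2) (mul_le_mul_of_nonneg_left hclose.le hn0.le)
  have h8 := (le_abs_self _).trans (φ.le_opNorm (y - x₀))
  have h9 : ‖φ‖ * ‖y - x₀‖ ≤ Ψ * (Q / N + n0 * ε) :=
    mul_le_mul (by linarith [hΨ]) hdist (norm_nonneg _) hΨ0.le
  have h10 : Ψ * (n0 * ε) = σ * c / 4 := by rw [hε]; field_simp
  nlinarith [mul_pos hσ0 hc]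

end Vale.Agent.P084.Smooth
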