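import Mathlib

/-!
Operators on a Banach space which are symmetric for a positive semidefinite form.
-/

open Set Filter Topology

namespace Vale.Agent.P084.Smooth

variable {H : Type*} [NormedAddCommGroup H] [NormedSpace ℝ H]
variable (B : H →L[ℝ] H →L[ℝ] ℝ) (hBs : ∀ a b, B a b = B b a) (hB0 : ∀ a, 0 ≤ B a a)

include hBs hB0 in
/-- The Cauchy-Schwarz inequality for a semidefinite form. -/
lemma cs_psd (a b : H) : B a b ^ 2 ≤ B a a * B b b := by
  have h : ∀ x : ℝ, 0 ≤ B b b * (x * x) + 2 * B a b * x + B a a := fun x => by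
    have := hB0 (a + x • b)
    simp only [map_add, map_smul, add_apply, smul_apply, smul_eq_mul, hBs b a] at this
    linarith
  have := discrim_le_zero h
  rw [discrim] at this
  nlinarith

variable (A : H →L[ℝ] H) (hA : ∀ x y, B (A x) y = B x (A y))
include hBs hB0 hA

lemma krein_sq (k : H) : B (A k) (A k) ≤ ‖A‖ ^ 2 * B k k := by
  rcases (hB0 k).eq_or_lt with h0 | h0
  · have h1 := cs_psd B hBs hB0 (A (A k)) k
    rw [hA (A k) k, ← h0, mul_zero] at h1
    have h2 : B (A k) (A k) = 0 := pow_eq_zero_iff two_ne_zero |>.1 (le_antisymm h1 (sq_nonneg _))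
    rw [h2, ← h0]; simp
  set q := B (A k) (A k) / B k k with hq
  have hq0 : 0 ≤ q := div_nonneg (hB0 _) h0.le
  suffices hle : q ≤ ‖A‖ ^ 2 by
    rwa [hq, div_le_iff₀ h0] at hle
  have hit : ∀ n : ℕ, q ^ (2 ^ n) * B k k ≤ B ((A ^ (2 ^ n)) k) ((A ^ (2 ^ n)) k) := by
    intro n
    induction n with
    | zero =>
      simp only [pow_zero, pow_one]
      rw [hq, div_mul_cancel₀ _ h0.ne']
    | succ n ih =>
      have hsymm : ∀ (j : ℕ) (x y : H), B ((A ^ j) x) y = B x ((A ^ j) y) := by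
        intro j
        induction j with
        | zero => intro x y; simp
        | succ j ihj =>
          intro x y
          rw [pow_succ', mul_apply_eq_comp, hA, ihj]
          congr 1
          rw [← mul_apply_eq_comp, ← pow_succ, ← pow_succ']
      set m := 2 ^ n
      have h1 := cs_psd B hBs hB0 ((A ^ m) ((A ^ m) k)) k
      rw [hsymm m ((A ^ m) k) k] at h1
      have h2 : (q ^ m * B k k) ^ 2 ≤ B ((A ^ m) k) ((A ^ m) k) ^ 2 :=
        pow_le_pow_left₀ (mul_nonneg (pow_nonneg hq0 _) h0.le) ih 2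
      rw [pow_succ, pow_mul, pow_mul, pow_two (A ^ m), mul_apply_eq_comp]
      refine le_of_mul_le_mul_right ?_ h0
      linarith
  by_contra hlt
  rw [not_le] at hlt
  set Γ := ‖B‖ * ‖k‖ ^ 2
  rcases eq_or_lt_of_le (sq_nonneg ‖A‖) with hA0 | hA0
  · have := hit 0
    simp only [pow_zero, pow_one] at this
    have hAz : A = 0 := norm_eq_zero.1 (pow_eq_zero_iff two_ne_zero |>.1 hA0.symm)
    rw [hAz] at this
    simp only [zero_apply, map_zero] at this
    nlinarith
  have hgrow := (tendsto_pow_atTop_atTop_of_one_lt ((one_lt_div hA0).2 hlt)).comp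
    (tendsto_pow_atTop_atTop_of_one_lt (one_lt_two : (1 : ℕ) < 2))
  obtain ⟨n, hn⟩ := (hgrow.eventually_gt_atTop (Γ / B k k)).exists
  simp only [Function.comp_apply, div_pow] at hn
  rw [div_lt_div_iff₀ h0 (by positivity)] at hn
  have h3 : B ((A ^ (2 ^ n)) k) ((A ^ (2 ^ n)) k) ≤ Γ * (‖A‖ ^ 2) ^ (2 ^ n) := by
    have h4 : ‖(A ^ (2 ^ n)) k‖ ≤ ‖A‖ ^ (2 ^ n) * ‖k‖ :=
      ((A ^ (2 ^ n)).le_opNorm k).trans (mul_le_mul_of_nonneg_right
        (norm_pow_le' _ (Nat.two_pow_pos n)) (norm_nonneg _))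
    refine (le_abs_self _).trans ((B.le_opNorm₂ _ _).trans ?_)
    calc ‖B‖ * ‖(A ^ (2 ^ n)) k‖ * ‖(A ^ (2 ^ n)) k‖
        ≤ ‖B‖ * (‖A‖ ^ (2 ^ n) * ‖k‖) * (‖A‖ ^ (2 ^ n) * ‖k‖) := by gcongr
      _ = Γ * (‖A‖ ^ 2) ^ (2 ^ n) := by simp only [Γ, mul_comm 2, pow_mul]; ring
  linarith [hit n]

/-- A symmetric operator is bounded for the form. -/
lemma krein (k : H) : |B (A k) k| ≤ ‖A‖ * B k k := by
  refine abs_le_of_sq_le_sq ?_ (mul_nonneg (norm_nonneg _) (hB0 k))
  calc B (A k) k ^ 2 ≤ B (A k) (A k) * B k k := cs_psd B hBs hB0 _ _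
    _ ≤ ‖A‖ ^ 2 * B k k * B k k :=
      mul_le_mul_of_nonneg_right (krein_sq B hBs hB0 A hA k) (hB0 k)
    _ = (‖A‖ * B k k) ^ 2 := by ring

variable [CompleteSpace H]

/-- If no real number above `s` is an approximate eigenvalue, the form of `A` is at most `s`. -/
theorem le_of_bounded_below {s : ℝ}
    (h : ∀ t, s ≤ t → ∃ c > (0 : ℝ), ∀ k, c * ‖k‖ ≤ ‖t • k - A k‖) (k : H) :
    B (A k) k ≤ s * B k k := by
  rcases subsingleton_or_nontrivial H with hH | hH
  · rw [Subsingleton.elim k 0]; simp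
  set P : ℝ → (H →L[ℝ] H) := fun t => t • 1 - A with hP
  have hPa : ∀ t x, P t x = t • x - A x := fun t x => by simp [hP]
  set S : Set ℝ := {t | s ≤ t ∧ IsUnit (P t) ∧ ∀ x, B (A x) x ≤ t * B x x} with hS
  have hbig : max s (‖A‖ + 1) ∈ S := by
    set t := max s (‖A‖ + 1)
    have ht : ‖A‖ < t := (lt_add_one _).trans_le (le_max_right _ _)
    have ht0 : 0 < t := (norm_nonneg _).trans_lt ht
    refine ⟨le_max_left _ _, ?_, fun x => ((le_abs_self _).trans (krein B hBs hB0 A hA x)).trans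
      (mul_le_mul_of_nonneg_right ht.le (hB0 x))⟩
    have h1 : ‖t⁻¹ • A‖ < 1 := by
      rw [norm_smul, Real.norm_of_nonneg (inv_nonneg.2 ht0.le), inv_mul_lt_iff₀ ht0, mul_one]
      exact ht
    have h2 : IsUnit (1 - t⁻¹ • A) := ⟨Units.oneSub _ h1, rfl⟩
    have e : P t = algebraMap ℝ (H →L[ℝ] H) t * (1 - t⁻¹ • A) := by
      rw [← Algebra.smul_def, smul_sub, smul_smul, mul_inv_cancel₀ ht0.ne', one_smul]
    rw [e]
    exact ((IsUnit.mk0 t ht0.ne').map _).mul h2
  have hSb : BddBelow S := ⟨s, fun t ht => ht.1⟩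
  set t0 := sInf S
  have hst : s ≤ t0 := le_csInf ⟨_, hbig⟩ fun t ht => ht.1
  obtain ⟨c, hc, hbelow⟩ := h t0 hst
  have hpsd : ∀ x, B (A x) x ≤ t0 * B x x := fun x => by
    refine le_of_forall_pos_le_add fun ε hε => ?_
    obtain ⟨t, ht, htlt⟩ := exists_lt_of_csInf_lt ⟨_, hbig⟩
      (show t0 < t0 + ε / (B x x + 1) by have := hB0 x; linarith [show 0 < ε / (B x x + 1) by positivity])
    refine (ht.2.2 x).trans ?_
    have h1 : (t - t0) * B x x ≤ ε / (B x x + 1) * B x x :=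
      mul_le_mul_of_nonneg_right (by linarith) (hB0 x)
    have h2 : ε / (B x x + 1) * B x x ≤ ε := by
      rw [div_mul_eq_mul_div, div_le_iff₀ (by linarith [hB0 x])]
      nlinarith [hB0 x]
    linarith
  have hunit : IsUnit (P t0) := by
    obtain ⟨t, htS, htlt⟩ := exists_lt_of_csInf_lt ⟨_, hbig⟩
      (show t0 < t0 + c / 4 by linarith)
    have hle : t0 ≤ t := csInf_le hSb htS
    obtain ⟨u, hu⟩ := htS.2.1
    have hinv : ‖(↑u⁻¹ : H →L[ℝ] H)‖ ≤ 2 / c := by
      refine ContinuousLinearMap.opNorm_le_bound _ (by positivity) fun y => ?_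
      set x := (↑u⁻¹ : H →L[ℝ] H) y
      have hx : P t x = y := by rw [← hu, ← mul_apply_eq_comp, u.mul_inv, one_apply_eq_self]
      have h1 := hbelow x
      have h2 : ‖t0 • x - A x‖ ≤ ‖y‖ + (t - t0) * ‖x‖ := by
        rw [show t0 • x - A x = y - (t - t0) • x by rw [← hx, hPa]; module]
        refine (norm_sub_le _ _).trans ?_
        rw [norm_smul, Real.norm_of_nonneg (by linarith)]
      rw [div_mul_eq_mul_div, le_div_iff₀ hc]
      nlinarith [norm_nonneg x]
    have hupos : 0 < ‖(↑u⁻¹ : H →L[ℝ] H)‖ := norm_pos_iff.2 u⁻¹.ne_zero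
    refine ⟨Units.ofNearby u (P t0) ?_, rfl⟩
    rw [hu, show P t0 - P t = (t0 - t) • (1 : H →L[ℝ] H) by simp [hP, sub_smul], norm_smul,
      norm_one, mul_one, Real.norm_eq_abs, abs_sub_comm, abs_of_nonneg (by linarith),
      inv_eq_one_div, lt_div_iff₀ hupos]
    calc (t - t0) * ‖(↑u⁻¹ : H →L[ℝ] H)‖ ≤ c / 4 * (2 / c) :=
          mul_le_mul (by linarith) hinv (norm_nonneg _) (by linarith)
      _ < 1 := by field_simp; norm_num
  suffices heq : t0 = s by rw [← heq]; exact hpsd k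
  by_contra hne
  have hlt : s < t0 := lt_of_le_of_ne hst (Ne.symm hne)
  obtain ⟨u, hu⟩ := hunit
  set R := (↑u⁻¹ : H →L[ℝ] H)
  have hRpos : 0 < ‖R‖ := norm_pos_iff.2 u⁻¹.ne_zero
  set B' := t0 • B - B.comp A with hB'
  have hB'a : ∀ x y, B' x y = t0 * B x y - B (A x) y := fun x y => by simp [hB']
  have hB'0 : ∀ x, 0 ≤ B' x x := fun x => by rw [hB'a]; linarith [hpsd x]
  have hB's : ∀ x y, B' x y = B' y x := fun x y => by rw [hB'a, hB'a, hA x y, hBs x y, hBs x]
  have hPR : ∀ x, P t0 (R x) = x := fun x => by rw [← hu, ← mul_apply_eq_comp, u.mul_inv, one_apply_eq_self]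
  have hPB : ∀ x y, B (P t0 x) y = B' x y := fun x y => by
    rw [hPa, map_sub, map_smul, hB'a]; simp
  have hR : ∀ x y, B (R x) y = B x (R y) := fun x y => by
    conv_lhs => rw [← hPR y]
    conv_rhs => rw [← hPR x]
    rw [hPB, hBs, hPB, hB's]
  have hlow : ∀ x, B x x ≤ ‖R‖ * B' x x := fun x => by
    have h1 := cs_psd B' hB's hB'0 (R x) x
    rw [← hPB (R x) x, hPR, ← hPB (R x) (R x), hPR, hBs x (R x)] at h1
    have h2 := mul_le_mul_of_nonneg_right
      ((le_abs_self _).trans (krein B hBs hB0 R hR x)) (hB'0 x)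
    rcases (hB0 x).eq_or_lt with h3 | h3
    · rw [← h3]; exact mul_nonneg hRpos.le (hB'0 x)
    refine le_of_mul_le_mul_right (a := B x x) ?_ h3
    linarith
  set d := min (t0 - s) (1 / (2 * ‖R‖))
  have hd : 0 < d := lt_min (by linarith) (by positivity)
  have hdR : d * ‖R‖ ≤ 1 / 2 := by
    refine (mul_le_mul_of_nonneg_right (min_le_right _ _) hRpos.le).trans (le_of_eq ?_)
    field_simp
  have hmem : t0 - d ∈ S := by
    refine ⟨by linarith [min_le_left (t0 - s) (1 / (2 * ‖R‖))], ⟨Units.ofNearby u (P (t0 - d)) ?_, rfl⟩,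
      fun x => ?_⟩
    · rw [hu, show P (t0 - d) - P t0 = (-d) • (1 : H →L[ℝ] H) by
        simp [hP, sub_smul], norm_smul, norm_one, mul_one, norm_neg, Real.norm_of_nonneg hd.le,
        inv_eq_one_div, lt_div_iff₀ hRpos]
      linarith
    · have h1 := mul_le_mul_of_nonneg_left (hlow x) hd.le
      rw [← mul_assoc] at h1
      have h2 : d * ‖R‖ * B' x x ≤ 1 / 2 * B' x x := mul_le_mul_of_nonneg_right hdR (hB'0 x)
      have h3 := hB'0 x
      rw [hB'a] at h1 h2 h3
      linarith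
  linarith [csInf_le hSb hmem]

/-- An excess of the form gives an approximate eigenvector. -/
theorem exists_approx {s : ℝ} {k : H} (h : s * B k k < B (A k) k) :
    ∃ t, s ≤ t ∧ ∀ ν > (0 : ℝ), ∃ y : H, ‖y‖ = 1 ∧ ‖t • y - A y‖ ≤ ν := by
  by_contra hne
  push Not at hne
  refine absurd (le_of_bounded_below B hBs hB0 A hA (fun t ht => ?_) k) (not_le.2 h)
  obtain ⟨ν, hν, hy⟩ := hne t ht
  refine ⟨ν, hν, fun x => ?_⟩
  rcases eq_or_ne x 0 with rfl | hx
  · simp
  have hx' := norm_pos_iff.2 hx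
  have h1 := (hy (‖x‖⁻¹ • x) (by rw [norm_smul, norm_inv, norm_norm, inv_mul_cancel₀ hx'.ne'])).le
  rw [map_smul, smul_comm t, ← smul_sub, norm_smul, norm_inv, norm_norm,
    le_inv_mul_iff₀ hx'] at h1
  linarith

end Vale.Agent.P084.Smooth
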