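import Vale.Agent.P084.Smooth.Nice
import Vale.Agent.P084.Smooth.Spectral

/-!
A symmetric tensor with values in the null space of the form is a multiple of the form.
-/

open Set Filter Topology Metric ContinuousLinearMap

namespace Vale.Agent.P084.Smooth

variable {X : Type*} [NormedAddCommGroup X] [NormedSpace ℝ X]

namespace Nice

variable (hX : Nice X)
include hX

/-- The second derivative of the norm is semidefinite. -/
lemma hess_nonneg {u : X} (hu : u ≠ 0) (hd : DifferentiableAt ℝ dn u) (w : X) :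
    0 ≤ fderiv ℝ dn u w w := by
  set l : ℝ → X := fun t => u + t • w with hl
  have hl' : HasDerivAt l w 0 := by
    simpa [hl] using ((hasDerivAt_id (0 : ℝ)).smul_const w).const_add u
  have hl0 : l 0 = u := by simp [hl]
  have hphi : HasDerivAt (fun t => dn (l t) w) (fderiv ℝ dn u w w) 0 := by
    have h := hd.hasFDerivAt
    rw [← hl0] at h
    have := ((ContinuousLinearMap.apply ℝ ℝ w).hasFDerivAt.comp (l 0) h).comp_hasDerivAt 0 hl'
    simpa [hl0, Function.comp_def] using this
  have s1 : Tendsto (fun t : ℝ => t⁻¹ * (dn (l t) w - dn u w)) (𝓝[>] 0)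
      (𝓝 (fderiv ℝ dn u w w)) := by
    have := (hasDerivAt_iff_tendsto_slope.1 hphi).mono_left
      (nhdsWithin_mono (0 : ℝ) (show Ioi (0 : ℝ) ⊆ {0}ᶜ from fun t ht => ne_of_gt ht))
    simpa [slope_fun_def, hl0, Pi.smul_def] using this
  refine ge_of_tendsto s1 ?_
  have hne : ∀ᶠ t in 𝓝[>] (0 : ℝ), l t ≠ 0 :=
    (hl'.continuousAt.eventually_ne (by rw [hl0]; exact hu)).filter_mono nhdsWithin_le_nhds
  filter_upwards [hne, self_mem_nhdsWithin] with t htne (ht : 0 < t)
  have h1 := (hX.dn_spec htne).2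
  have h2 := (le_abs_self _).trans (hX.dn_le hu (l t))
  have h3 := (le_abs_self _).trans (hX.dn_le htne u)
  have e1 : dn (l t) (l t) = dn (l t) u + t * dn (l t) w := by
    show dn (l t) (u + t • w) = _
    rw [map_add, map_smul, smul_eq_mul]
  have e2 : dn u (l t) = ‖u‖ + t * dn u w := by
    show dn u (u + t • w) = _
    rw [map_add, map_smul, smul_eq_mul, (hX.dn_spec hu).2]
  rw [e2] at h2
  have h4 : t * dn u w ≤ t * dn (l t) w := by linarith
  exact mul_nonneg (inv_nonneg.2 ht.le) (sub_nonneg.2 (le_of_mul_le_mul_left h4 ht))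

/-- The second derivative of the norm kills the point. -/
lemma hess_radial {u : X} (hu : u ≠ 0) (hd : DifferentiableAt ℝ dn u) : fderiv ℝ dn u u = 0 := by
  have h1 : HasDerivAt (fun t : ℝ => dn (t • u)) (fderiv ℝ dn u u) 1 := by
    have hl : HasDerivAt (fun t : ℝ => t • u) u 1 := by
      simpa using (hasDerivAt_id (1 : ℝ)).smul_const u
    have h := hd.hasFDerivAt
    rw [← one_smul ℝ u] at h
    have := h.comp_hasDerivAt 1 hl
    simp only [one_smul] at this
    exact this
  have h2 : HasDerivAt (fun t : ℝ => dn (t • u)) 0 1 :=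
    (hasDerivAt_const 1 (dn u)).congr_of_eventuallyEq (by
      filter_upwards [Ioi_mem_nhds one_pos] with t ht
      exact hX.dn_smul hu ht)
  exact h1.unique h2

end Nice

variable {H : Type*} [NormedAddCommGroup H] [NormedSpace ℝ H] (hH : Nice H)
  (hd : ∀ u : H, u ≠ 0 → DifferentiableAt ℝ dn u)
  (hsym : ∀ u : H, u ≠ 0 → ∀ a b, fderiv ℝ dn u a b = fderiv ℝ dn u b a)
  (g : H →L[ℝ] H →L[ℝ] ℝ) (hgs : ∀ a b, g a b = g b a)
  (τ : H →L[ℝ] H →L[ℝ] H) (hτs : ∀ a b, τ a b = τ b a) (hnull : ∀ a b c, g (τ a b) c = 0)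
  (Δ : H → ℝ) (hEig : ∀ u : H, u ≠ 0 → ∀ w, dn u (τ u w) = Δ u * g u w)
include hH hd hsym hgs hτs hnull hEig

omit hsym hnull in
/-- The eigen relation, differentiated. -/
lemma eig_deriv {u : H} (hρ : g u u ≠ 0) {w : H} (hw : g u w = 0) (k : H) :
    fderiv ℝ dn u k (τ u w) + dn u (τ k w) = Δ u * g k w := by
  have hu : u ≠ 0 := fun e => hρ (by simp [e])
  have hJ := (hd u hu).hasFDerivAt
  have hdiag : ∀ w, HasFDerivAt (fun x => τ x w) (τ.flip w) u := fun w => by
    simpa using τ.hasFDerivAt.clm_apply (hasFDerivAt_const w u)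
  have hgd : ∀ w, HasFDerivAt (fun x => g x w) (g.flip w) u := fun w => by
    simpa using g.hasFDerivAt.clm_apply (hasFDerivAt_const w u)
  have h1 := hJ.clm_apply (hdiag w)
  have hq : DifferentiableAt ℝ (fun x => dn x (τ x x) / g x x) u :=
    ((hJ.clm_apply (τ.hasFDerivAt.clm_apply (hasFDerivAt_id u))).differentiableAt.mul
      ((g.hasFDerivAt.clm_apply (hasFDerivAt_id u)).differentiableAt.inv hρ))
  have h2 := hq.hasFDerivAt.mul (hgd w)
  have hev : (fun x => dn x (τ x w)) =ᶠ[𝓝 u] fun x => dn x (τ x x) / g x x * g x w := by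
    have hne : ∀ᶠ x in 𝓝 u, g x x ≠ 0 :=
      (g.hasFDerivAt.clm_apply (hasFDerivAt_id u)).continuousAt.eventually_ne hρ
    filter_upwards [hne] with x hx
    have hx0 : x ≠ 0 := fun e => hx (by simp [e])
    rw [hEig x hx0 w, hEig x hx0 x, mul_div_cancel_right₀ _ hx]
  have h3 := DFunLike.congr_fun (h1.unique (h2.congr_of_eventuallyEq hev)) k
  simp only [add_apply, comp_apply, flip_apply, smul_apply, smul_eq_mul, hw, zero_mul,
    add_zero] at h3
  rw [hEig u hu u, mul_div_cancel_right₀ _ hρ] at h3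
  linarith

variable [CompleteSpace H]

/-- On every vector the pairing with a nondegenerate point is a multiple of the form. -/
lemma pairing_eq {u : H} (hρ : g u u ≠ 0) (x : H) :
    dn u (τ x x) = Δ u * g x x := by
  have hu : u ≠ 0 := fun e => hρ (by simp [e])
  set G := fderiv ℝ dn u with hG
  set P : H →L[ℝ] H := ContinuousLinearMap.id ℝ H - ((g u u)⁻¹ • g u).smulRight u with hP
  have hPa : ∀ x, P x = x - ((g u u)⁻¹ * g u x) • u := fun x => by simp [hP]
  have hgP : ∀ x, g u (P x) = 0 := fun x => by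
    rw [hPa, map_sub, map_smul, smul_eq_mul, mul_right_comm, inv_mul_cancel₀ hρ, one_mul, sub_self]
  have hPτ : ∀ x, P (τ u x) = τ u x := fun x => by
    rw [hPa, hgs u (τ u x), hnull, mul_zero, zero_smul, sub_zero]
  have hGu : ∀ y, G u y = 0 := fun y => by rw [hG, hH.hess_radial hu (hd u hu)]; rfl
  have hGP : ∀ x y, G (P x) y = G x y := fun x y => by
    rw [hPa, map_sub, map_smul, sub_apply, smul_apply, hGu]; simp
  have hGP' : ∀ x y, G x (P y) = G x y := fun x y => by
    rw [hsym u hu, hGP, hsym u hu]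
  set A : H →L[ℝ] H := (τ u).comp P with hA
  have hsA : ∀ x y, G (A x) y = G x (A y) := fun x y => by
    have h1 := eig_deriv hH hd g hgs τ hτs Δ hEig hρ (hgP x) (P y)
    have h2 := eig_deriv hH hd g hgs τ hτs Δ hEig hρ (hgP y) (P x)
    rw [hτs (P y), hgs (P y)] at h1
    calc G (A x) y = G (P y) (τ u (P x)) := by rw [hsym u hu, hGP]; rfl
      _ = G (P x) (τ u (P y)) := by linarith
      _ = G x (A y) := by rw [hGP]; rfl
  have hbelow : ∀ t : ℝ, t ≠ 0 → ∃ c > (0 : ℝ), ∀ y, c * ‖y‖ ≤ ‖t • y - A y‖ := fun t ht => by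
    refine ⟨|t| / (1 + 2 * ‖P‖), by positivity, fun y => ?_⟩
    set p := P y
    set m := ‖t • y - A y‖
    have h1 : ‖t • p - A y‖ ≤ ‖P‖ * m := by
      have := P.le_opNorm (t • y - A y)
      rwa [map_sub, map_smul, show P (A y) = A y from hPτ _] at this
    have h2 : |t| * ‖p‖ ≤ ‖P‖ * m := by
      rcases eq_or_ne p 0 with hp | hp
      · rw [hp]; simp; positivity
      have h3 := hH.dn_le hp (t • p - A y)
      rw [map_sub, map_smul, (hH.dn_spec hp).2, smul_eq_mul,
        show dn p (A y) = 0 by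
          show dn p (τ u p) = 0
          rw [hτs, hEig p hp u, hgs, hgP, mul_zero],
        sub_zero, abs_mul, abs_norm] at h3
      exact h3.trans h1
    have h4 : |t| * ‖y - p‖ ≤ m + ‖P‖ * m := by
      rw [← Real.norm_eq_abs, ← norm_smul,
        show t • (y - p) = (t • y - A y) - (t • p - A y) by module]
      exact (norm_sub_le _ _).trans (add_le_add le_rfl h1)
    have h5 : |t| * ‖y‖ ≤ |t| * ‖y - p‖ + |t| * ‖p‖ := by
      rw [← mul_add]
      exact mul_le_mul_of_nonneg_left (norm_le_norm_sub_add _ _) (abs_nonneg _)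
    rw [div_mul_eq_mul_div, div_le_iff₀ (by positivity)]
    linarith
  have hB0 := fun a => hH.hess_nonneg hu (hd u hu) a
  have hzero : ∀ k, G (A k) k = 0 := fun k => by
    have h1 : ∀ B : H →L[ℝ] H, (∀ x y, G (B x) y = G x (B y)) →
        (∀ t : ℝ, t ≠ 0 → ∃ c > (0 : ℝ), ∀ y, c * ‖y‖ ≤ ‖t • y - B y‖) → G (B k) k ≤ 0 :=
      fun B hB hb => le_of_forall_pos_le_add fun ε hε => by
        have hg1 : 0 < G k k + 1 := by linarith [hB0 k]
        refine (le_of_bounded_below G (hsym u hu) hB0 B hB (s := ε / (G k k + 1))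
          (fun t ht => hb t ?_) k).trans ?_
        · exact ne_of_gt ((div_pos hε hg1).trans_le ht)
        · rw [zero_add, div_mul_eq_mul_div, div_le_iff₀ hg1]
          nlinarith [hB0 k]
    refine le_antisymm (h1 A hsA hbelow) ?_
    have := h1 (-A) (fun x y => by simp [hsA]) fun t ht => by
      obtain ⟨c, hc, h⟩ := hbelow (-t) (neg_ne_zero.2 ht)
      refine ⟨c, hc, fun y => (h y).trans (le_of_eq ?_)⟩
      rw [← norm_neg, neg_apply]
      congr 1
      module
    simp only [neg_apply, map_neg] at this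
    linarith
  set w := P x
  set α := (g u u)⁻¹ * g u x
  have hx : x = w + α • u := by
    rw [show w = x - α • u from hPa x, sub_add_cancel]
  have hww : dn u (τ w w) = Δ u * g w w := by
    have h1 := eig_deriv hH hd g hgs τ hτs Δ hEig hρ (hgP x) w
    have h2 := hzero w
    have hw : P w = w := by
      show P (P x) = P x
      rw [hPa (P x), hgP]; simp
    rw [hsym u hu, show A w = τ u (P w) from rfl, hw] at h2
    rw [show P x = w from rfl] at h1
    linarith
  have huw : g u w = 0 := hgP x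
  rw [hx]
  simp only [map_add, map_smul, add_apply, smul_apply, smul_eq_mul, hτs w u, hgs w u, hEig u hu w,
    hEig u hu u, huw, hww]
  ring

/-- The tensor is a multiple of the form. -/
theorem null_tensor (hg0 : ∀ a, 0 ≤ g a a) {e : H} (he : g e e = 1)
    (hΔ : ∀ u : H, u ≠ 0 → ContinuousAt Δ u) :
    ∃ Z : H, (∀ c, g Z c = 0) ∧ (∀ a b, τ a b = g a b • Z) ∧
      ∀ u : H, u ≠ 0 → dn u Z = Δ u := by
  set Z := τ e e
  have dense : ∀ f f' : H → ℝ, ∀ u : H, u ≠ 0 → ContinuousAt f u → ContinuousAt f' u →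
      (∀ v, g v v ≠ 0 → f v = f' v) → f u = f' u := fun f f' u hu hf hf' h => by
    by_cases hρ : g u u = 0
    · have hue : g u e = 0 := by
        have := cs_psd g hgs hg0 u e
        rw [hρ, zero_mul] at this
        exact pow_eq_zero_iff two_ne_zero |>.1 (le_antisymm this (sq_nonneg _))
      have hl : Tendsto (fun t : ℝ => u + t • e) (𝓝[≠] 0) (𝓝 u) := by
        have : Continuous fun t : ℝ => u + t • e := by fun_prop
        simpa using (this.tendsto 0).mono_left nhdsWithin_le_nhds
      refine tendsto_nhds_unique_of_eventuallyEq (hf.tendsto.comp hl) (hf'.tendsto.comp hl) ?_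
      filter_upwards [self_mem_nhdsWithin] with t (ht : t ≠ 0)
      refine h _ ?_
      simp [hρ, hgs e u, hue, he, ht]
    · exact h u hρ
  have hcont : ∀ (d u : H), u ≠ 0 → ContinuousAt (fun v => dn v d) u := fun d u hu =>
    ((hd u hu).hasFDerivAt.clm_apply (hasFDerivAt_const d u)).continuousAt
  have hquad : ∀ a, τ a a = g a a • Z := fun a => by
    by_contra hne
    have hd0 : τ a a - g a a • Z ≠ 0 := sub_ne_zero.2 hne
    have h0 := dense (fun v => dn v (τ a a - g a a • Z)) (fun _ => 0) _ hd0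
      (hcont _ _ hd0) continuousAt_const fun v hv => by
        rw [map_sub, map_smul, smul_eq_mul, pairing_eq hH hd hsym g hgs τ hτs hnull Δ hEig hv,
          show dn v Z = Δ v * g e e from pairing_eq hH hd hsym g hgs τ hτs hnull Δ hEig hv e, he]
        ring
    change dn (τ a a - g a a • Z) (τ a a - g a a • Z) = 0 at h0
    rw [(hH.dn_spec hd0).2] at h0
    exact hd0 (norm_eq_zero.1 h0)
  refine ⟨Z, fun c => hnull e e c, fun a b => ?_, fun u hu => ?_⟩
  · have h := hquad (a + b)
    simp only [map_add, add_apply, hquad a, hquad b, hτs b a, hgs b a] at h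
    have h2 : (2 : ℝ) • τ a b = (2 : ℝ) • (g a b • Z) :=
      calc (2 : ℝ) • τ a b
          = (g a a • Z + τ a b + (τ a b + g b b • Z)) - (g a a • Z + g b b • Z) := by module
        _ = _ := by rw [h]; module
    exact smul_right_injective H (two_ne_zero' ℝ) h2
  · refine dense (fun v => dn v Z) Δ u hu (hcont _ _ hu) (hΔ u hu) fun v hv => ?_
    have := pairing_eq hH hd hsym g hgs τ hτs hnull Δ hEig hv e
    rwa [he, mul_one] at this

end Vale.Agent.P084.Smooth
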