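import Vale.Agent.P084.Smooth.Second
import Vale.Agent.P084.Smooth.Cubic
import Vale.Agent.P084.Smooth.Null
import Vale.Agent.P084.Smooth.Flow

/-!
In infinite dimension the second derivative of the extended map vanishes, so the map is linear.
-/

open Set Filter Topology Metric ContinuousLinearMap

namespace Vale.Agent.P084.Smooth

variable {X Y : Type*} [NormedAddCommGroup X] [NormedSpace ℝ X]
  [NormedAddCommGroup Y] [NormedSpace ℝ Y]

lemma Nice.submodule (hX : Nice X) (p : Submodule ℝ X) (hp : IsClosed (p : Set X)) : Nice p := by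
  have := hX.complete
  refine ⟨hp.completeSpace_coe, fun x hx ε hε => ?_, fun x hx => ?_⟩
  · obtain ⟨η, hη, h⟩ := hX.lur (x : X) hx ε hε
    exact ⟨η, hη, fun a ha hd => h (a : X) ha hd⟩
  · obtain ⟨r, hr, C, h⟩ := hX.smooth (x : X) hx
    exact ⟨r, hr, C, fun y k hy hk => h (y : X) k hy hk⟩

lemma Nice.dn_submodule (hX : Nice X) {p : Submodule ℝ X} (hp : Nice p) {u : p} (hu : u ≠ 0) :
    dn u = (dn (u : X)).comp p.subtypeL :=
  (hp.hasFDerivAt_norm hu).unique
    ((hX.hasFDerivAt_norm (Subtype.coe_ne_coe.2 hu)).comp u p.subtypeL.hasFDerivAt)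

/-- The second derivative of the norm of a subspace. -/
lemma Nice.fderiv_dn_submodule (hX : Nice X) {p : Submodule ℝ X} (hp : Nice p) {u : p} (hu : u ≠ 0)
    (hd : DifferentiableAt ℝ dn (u : X)) :
    HasFDerivAt (dn : p → p →L[ℝ] ℝ)
      ((fderiv ℝ dn (u : X)).bilinearComp p.subtypeL p.subtypeL) u := by
  have h := (((ContinuousLinearMap.compL ℝ p X ℝ).flip p.subtypeL).hasFDerivAt.comp (u : X)
    hd.hasFDerivAt).comp u p.subtypeL.hasFDerivAt
  refine (h.congr_of_eventuallyEq ?_).congr_fderiv (by ext a b; simp)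
  filter_upwards [isOpen_ne.mem_nhds hu] with w hw
  rw [hX.dn_submodule hp hw]
  simp

/-- A continuous field of kernel vectors of the second derivative vanishes. -/
lemma Nice.field_eq_zero (hX : Nice X) {x : X} (hx : x ≠ 0) (hdX : C11At dn x) {z : X → X}
    (hz : ContinuousAt z x)
    (hk : ∀ᶠ y in 𝓝 x, dn y (z y) = 0 ∧ fderiv ℝ dn y (z y) = 0) : z x = 0 := by
  by_contra h0
  have hm : 0 < ‖z x‖ := norm_pos_iff.2 h0
  have h1 : ∀ᶠ y in 𝓝 x, ‖z y‖ < ‖z x‖ + 1 :=
    hz.norm.eventually_lt continuousAt_const (by linarith)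
  have h2 : ∀ᶠ y in 𝓝 x, ‖z x‖ / 2 < dn (z x) (z y) := by
    refine continuousAt_const.eventually_lt ((dn (z x)).continuous.continuousAt.comp hz) ?_
    simp only [Function.comp_apply, (hX.dn_spec h0).2]
    linarith
  obtain ⟨r, hr, hr'⟩ := Metric.eventually_nhds_iff.1 (hk.and (h1.and h2))
  refine hX.no_kernel_field hx hdX z (dn (z x)) (r := r / 2) (M := ‖z x‖ + 1) (c := ‖z x‖ / 2)
    (by linarith) (by linarith) fun y hy => ?_
  obtain ⟨⟨a, b⟩, c, d⟩ := hr' (show dist y x < r by rw [dist_eq_norm]; linarith)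
  exact ⟨c.le, a, b, d.le⟩

namespace Ext

variable (S : Ext X Y) (hX : Nice X)
include hX

/-- The derivative preserves the norm of tangent vectors. -/
lemma norm_fderiv_tangent {x u : X} (hx : x ≠ 0) (hu : dn x u = 0) :
    ‖fderiv ℝ S.F x u‖ = ‖u‖ := by
  have hY := S.nice_target hX
  set v := unit x with hv
  have hv1 : ‖v‖ = 1 := norm_unit hx
  have hv0 := ne_zero_of_norm_one hv1
  rw [show fderiv ℝ S.F x = fderiv ℝ S.F v from
    (S.fderiv_F_smul hX hY hx (inv_pos.2 (norm_pos_iff.2 hx))).symm]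
  have hu' : dn v u = 0 := by rw [hv, hX.dn_unit hx, hu]
  set l : ℝ → X := fun t => v + t • u with hl
  have hl' : HasDerivAt l u 0 := by simpa [hl] using ((hasDerivAt_id (0 : ℝ)).smul_const u).const_add v
  have hl0 : l 0 = v := by simp [hl]
  set b : ℝ → X := fun t => unit (l t)
  have hb0 : b 0 = v := by simp [b, hl0, unit, hv1]
  have hb : HasDerivAt b u 0 := by
    have hn : HasDerivAt (fun t => ‖l t‖) 0 0 := by
      have h := hX.hasFDerivAt_norm hv0
      rw [← hl0] at h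
      have := h.comp_hasDerivAt 0 hl'
      rwa [hl0, hu'] at this
    have := (hn.inv (by rw [hl0, hv1]; norm_num)).smul hl'
    simp only [hl0, hv1] at this
    convert this using 1
    · rfl
    · simp [hl0, hv1]
  have hF : HasDerivAt (fun t => S.F (b t)) (fderiv ℝ S.F v u) 0 := by
    have h := S.hasFDerivAt_F hX hY hv0
    rw [← hb0] at h
    have := h.comp_hasDerivAt 0 hb
    rwa [hb0] at this
  have hne : ∀ᶠ t in 𝓝[≠] (0 : ℝ), l t ≠ 0 :=
    (hl'.continuousAt.eventually_ne (by rw [hl0]; exact hv0)).filter_mono nhdsWithin_le_nhds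
  refine tendsto_nhds_unique ((hasDerivAt_iff_tendsto_slope.1 hF).norm.congr' ?_)
    (hasDerivAt_iff_tendsto_slope.1 hb).norm
  filter_upwards [hne] with t ht
  rw [slope_def_module, slope_def_module, norm_smul, norm_smul, hb0,
    S.iso _ _ (norm_unit ht) hv1]

variable (hdX : ∀ x : X, x ≠ 0 → C11At dn x)
  (hN : ∀ x : X, x ≠ 0 → DifferentiableAt ℝ (fderiv ℝ dn) x)
  (hNs : ∀ x : X, x ≠ 0 → ∀ a b, fderiv ℝ dn x a b = fderiv ℝ dn x b a)
include hdX hN hNs

omit hN hNs in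
lemma hasFDerivAt_fderiv {v : X} (hv : v ≠ 0) :
    HasFDerivAt (fderiv ℝ S.F) (fderiv ℝ (fderiv ℝ S.F) v) v :=
  (S.c11At_fderiv hX (S.nice_target hX) hdX hv).hasFDerivAt

omit hN hNs in
lemma second_symm {v : X} (hv : v ≠ 0) (a b : X) :
    fderiv ℝ (fderiv ℝ S.F) v a b = fderiv ℝ (fderiv ℝ S.F) v b a :=
  second_derivative_symmetric_of_eventually_of_real
    ((show ∀ᶠ x in 𝓝 v, x ≠ 0 from isOpen_ne.mem_nhds hv).mono
      fun x hx => S.hasFDerivAt_F hX (S.nice_target hX) hx)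
    (S.hasFDerivAt_fderiv hX hdX hv) a b

omit hN hNs in
lemma hasFDerivAt_fderiv_apply {v : X} (hv : v ≠ 0) (a : X) :
    HasFDerivAt (fun x => fderiv ℝ S.F x a) ((fderiv ℝ (fderiv ℝ S.F) v).flip a) v := by
  simpa using (S.hasFDerivAt_fderiv hX hdX hv).clm_apply (hasFDerivAt_const a v)

omit hN hNs in
/-- The second derivative is tangent to the sphere. -/
lemma dn_second {v : X} (hv : v ≠ 0) (a b : X) :
    dn (S.F v) (fderiv ℝ (fderiv ℝ S.F) v b a) = 0 := by
  have hY := S.nice_target hX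
  have hNx : HasFDerivAt (fun x => dn x a) ((fderiv ℝ dn v).flip a) v := by
    simpa using (hdX v hv).hasFDerivAt.clm_apply (hasFDerivAt_const a v)
  have h1 := ((S.c11At_dn_target hX hY hdX (S.F_ne hv)).hasFDerivAt.comp v
    (S.hasFDerivAt_F hX hY hv)).clm_apply (S.hasFDerivAt_fderiv_apply hX hdX hv a)
  have h2 : HasFDerivAt (fun x => dn (S.F x) (fderiv ℝ S.F x a)) ((fderiv ℝ dn v).flip a) v :=
    hNx.congr_of_eventuallyEq
      ((show ∀ᶠ x in 𝓝 v, x ≠ 0 from isOpen_ne.mem_nhds hv).mono fun x hx =>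
        DFunLike.congr_fun (S.dn_comp_fderiv hX hY hx) a)
  have h3 := DFunLike.congr_fun (h1.unique h2) b
  simp only [add_apply, comp_apply, flip_apply, Function.comp_apply] at h3
  rw [S.hess_eq hX hY hdX hv] at h3
  linarith

omit hNs in
lemma differentiableAt_hess {v : X} (hv : v ≠ 0) :
    DifferentiableAt ℝ (fderiv ℝ (dn : Y → Y →L[ℝ] ℝ)) (S.F v) := by
  have hY := S.nice_target hX
  have hFv := S.F_ne hv
  have hG : DifferentiableAt ℝ (fderiv ℝ S.G) (S.F v) :=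
    (S.symm.c11At_fderiv hY hX (fun w hw => S.c11At_dn_target hX hY hdX hw)
      hFv).hasFDerivAt.differentiableAt
  have hN' : DifferentiableAt ℝ (fun w => fderiv ℝ dn (S.G w)) (S.F v) := by
    have h := hN (S.G (S.F v)) (by rw [S.GF]; exact hv)
    exact DifferentiableAt.comp (g := fderiv ℝ dn) (f := S.G) (S.F v) h
      (S.c11At_G hX hY hFv).hasFDerivAt.differentiableAt
  refine (((compL ℝ Y X ℝ).flip.differentiableAt.comp (S.F v) hG).clm_comp
    (hN'.clm_comp hG)).congr_of_eventuallyEq ?_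
  filter_upwards [isOpen_ne.mem_nhds hFv] with w hw
  have hGw : S.G w ≠ 0 := fun e => hw (by rw [← S.FG w, e, S.F_zero])
  ext a b
  have h1 := S.hess_eq hX hY hdX hGw (fderiv ℝ S.G w a) (fderiv ℝ S.G w b)
  have h2 := fun c => DFunLike.congr_fun (S.symm.fderiv_G_F hY hX hw) c
  simp only [symm, comp_apply, id_apply] at h2
  rw [h2, h2, S.FG] at h1
  simpa using h1

omit hN in
lemma hess_symm {v : X} (hv : v ≠ 0) (p q : Y) :
    fderiv ℝ dn (S.F v) p q = fderiv ℝ dn (S.F v) q p := by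
  have hY := S.nice_target hX
  have h := fun y => DFunLike.congr_fun (S.fderiv_F_G hX hY hv) y
  simp only [comp_apply, id_apply] at h
  rw [← h p, ← h q, S.hess_eq hX hY hdX hv, S.hess_eq hX hY hdX hv]
  exact hNs v hv _ _

omit hNs in
lemma third_eq {v : X} (hv : v ≠ 0) (c a b : X) :
    fderiv ℝ (fderiv ℝ dn) (S.F v) (fderiv ℝ S.F v c) (fderiv ℝ S.F v a) (fderiv ℝ S.F v b)
      + fderiv ℝ dn (S.F v) (fderiv ℝ (fderiv ℝ S.F) v c a) (fderiv ℝ S.F v b)
      + fderiv ℝ dn (S.F v) (fderiv ℝ S.F v a) (fderiv ℝ (fderiv ℝ S.F) v c b)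
      = fderiv ℝ (fderiv ℝ dn) v c a b := by
  have hY := S.nice_target hX
  have h0 : HasFDerivAt (fun x => fderiv ℝ (dn : Y → Y →L[ℝ] ℝ) (S.F x))
      ((fderiv ℝ (fderiv ℝ dn) (S.F v)).comp (fderiv ℝ S.F v)) v :=
    HasFDerivAt.comp (g := fderiv ℝ (dn : Y → Y →L[ℝ] ℝ)) (f := S.F) v
      (S.differentiableAt_hess hX hdX hN hv).hasFDerivAt (S.hasFDerivAt_F hX hY hv)
  have h1 := (h0.clm_apply (S.hasFDerivAt_fderiv_apply hX hdX hv a)).clm_apply
    (S.hasFDerivAt_fderiv_apply hX hdX hv b)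
  have h3 := ((hN v hv).hasFDerivAt.clm_apply (hasFDerivAt_const a v)).clm_apply
    (hasFDerivAt_const b v)
  have h2 : HasFDerivAt (fun x => fderiv ℝ dn (S.F x) (fderiv ℝ S.F x a) (fderiv ℝ S.F x b)) _ v :=
    h3.congr_of_eventuallyEq ((show ∀ᶠ x in 𝓝 v, x ≠ 0 from isOpen_ne.mem_nhds hv).mono
      fun x hx => S.hess_eq hX hY hdX hx a b)
  have h4 := DFunLike.congr_fun (h1.unique h2) c
  simp only [add_apply, comp_apply, flip_apply, Function.comp_apply, zero_apply, map_zero,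
    zero_add, add_zero, comp_zero] at h4
  linarith

/-- The tensor formed by the second derivative and the hessian is totally symmetric. -/
lemma tensor_symm {v : X} (hv : v ≠ 0) (c a b : X) :
    fderiv ℝ dn (S.F v) (fderiv ℝ (fderiv ℝ S.F) v c a) (fderiv ℝ S.F v b) =
      fderiv ℝ dn (S.F v) (fderiv ℝ (fderiv ℝ S.F) v c b) (fderiv ℝ S.F v a) := by
  have hY := S.nice_target hX
  have hev : ∀ᶠ w in 𝓝 (S.F v), w ≠ 0 := isOpen_ne.mem_nhds (S.F_ne hv)
  have hev' : ∀ᶠ x in 𝓝 v, x ≠ 0 := isOpen_ne.mem_nhds hv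
  have hN3 : ∀ p q r, fderiv ℝ (fderiv ℝ dn) (S.F v) p q r =
      fderiv ℝ (fderiv ℝ dn) (S.F v) q p r := fun p q r =>
    DFunLike.congr_fun (second_derivative_symmetric_of_eventually_of_real (f := dn)
      (hev.mono fun w hw => (S.c11At_dn_target hX hY hdX hw).hasFDerivAt)
      (S.differentiableAt_hess hX hdX hN hv).hasFDerivAt p q) r
  have hX3 : ∀ p q r, fderiv ℝ (fderiv ℝ dn) v p q r = fderiv ℝ (fderiv ℝ dn) v q p r :=
    fun p q r => DFunLike.congr_fun (second_derivative_symmetric_of_eventually_of_real (f := dn)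
      (hev'.mono fun x hx => (hdX x hx).hasFDerivAt) (hN v hv).hasFDerivAt p q) r
  have hs := S.second_symm hX hdX hv
  have hn := S.hess_symm hX hdX hNs hv
  set A := fderiv ℝ S.F v
  set B := fderiv ℝ (fderiv ℝ S.F) v
  set M := fderiv ℝ (dn : Y → Y →L[ℝ] ℝ) (S.F v)
  have e : ∀ p q r, M (A p) (B q r) = M (B q r) (A p) := fun p q r => hn _ _
  have h1 := S.third_eq hX hdX hN hv c a b
  have h2 := S.third_eq hX hdX hN hv a c b
  have h3 := S.third_eq hX hdX hN hv c b a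
  have h4 := S.third_eq hX hdX hN hv b c a
  have h5 := S.third_eq hX hdX hN hv a b c
  have h6 := S.third_eq hX hdX hN hv b a c
  rw [e] at h1 h2 h3 h4 h5 h6
  linarith [hN3 (A a) (A c) (A b), hN3 (A b) (A c) (A a), hN3 (A a) (A b) (A c), hX3 a c b,
    hX3 b c a, hX3 a b c, congrArg (fun z => M z (A b)) (hs a c),
    congrArg (fun z => M z (A a)) (hs b c), congrArg (fun z => M z (A c)) (hs a b)]

omit hN hNs in
/-- Each tangent vector gives an eigen relation. -/
lemma eig_eq {v : X} (hv : ‖v‖ = 1) {u : X} (hu0 : u ≠ 0) (hu : dn v u = 0) (w : X) :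
    dn (fderiv ℝ S.F v u) (fderiv ℝ (fderiv ℝ S.F) v w u) =
      (dn (fderiv ℝ S.F v u) (fderiv ℝ S.F v v) - dn u v) * fderiv ℝ dn v w u := by
  have hY := S.nice_target hX
  have hv0 := ne_zero_of_norm_one hv
  have hAu : fderiv ℝ S.F v u ≠ 0 := fun e => hu0 (norm_eq_zero.1 (by
    rw [← S.norm_fderiv_tangent hX hv0 hu, e, norm_zero]))
  have hval : u - dn v u • unit v = u := by rw [hu, zero_smul, sub_zero]
  have hunit : DifferentiableAt ℝ (unit : X → X) v :=
    ((hX.hasFDerivAt_norm hv0).differentiableAt.inv (by rw [hv]; norm_num)).smul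
      differentiableAt_id
  have hNx : HasFDerivAt (fun x => dn x u) ((fderiv ℝ dn v).flip u) v := by
    simpa using (hdX v hv0).hasFDerivAt.clm_apply (hasFDerivAt_const u v)
  have hh : HasFDerivAt (fun x => u - dn x u • unit x)
      (-(((fderiv ℝ dn v).flip u).smulRight v)) v := by
    refine ((hNx.smul hunit.hasFDerivAt).const_sub u).congr_fderiv ?_
    rw [hu, zero_smul, zero_add, unit, hv, inv_one, one_smul]
  have hz := (S.hasFDerivAt_fderiv hX hdX hv0).clm_apply hh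
  have D1 := (hY.hasFDerivAt_norm (x := fderiv ℝ S.F v (u - dn v u • unit v))
    (by rw [hval]; exact hAu)).comp v hz
  have D2 := (hX.hasFDerivAt_norm (x := u - dn v u • unit v)
    (by rw [hval]; exact hu0)).comp v hh
  have hev' : ∀ᶠ x in 𝓝 v, x ≠ 0 := isOpen_ne.mem_nhds hv0
  have heq : ((fun y : Y => ‖y‖) ∘ fun x => fderiv ℝ S.F x (u - dn x u • unit x)) =ᶠ[𝓝 v]
      ((fun y : X => ‖y‖) ∘ fun x => u - dn x u • unit x) := hev'.mono fun x hx => by
    refine S.norm_fderiv_tangent hX hx ?_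
    rw [map_sub, map_smul, smul_eq_mul, unit, map_smul, (hX.dn_spec hx).2, smul_eq_mul,
      inv_mul_cancel₀ (norm_ne_zero_iff.2 hx), mul_one, sub_self]
  have key := DFunLike.congr_fun ((D1.congr_of_eventuallyEq heq.symm).unique D2) w
  simp only [comp_apply, add_apply, neg_apply, smulRight_apply, flip_apply, hval, map_neg,
    map_smul, map_add, smul_eq_mul] at key
  linarith

omit hdX hN hNs in
lemma fderiv_F_self {x : X} (hx : x ≠ 0) : fderiv ℝ S.F x x = S.F x := by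
  have h1 : HasDerivAt (fun t : ℝ => S.F (t • x)) (fderiv ℝ S.F x x) 1 := by
    have hl : HasDerivAt (fun t : ℝ => t • x) x 1 := by
      simpa using (hasDerivAt_id (1 : ℝ)).smul_const x
    exact HasFDerivAt.comp_hasDerivAt (x := (1 : ℝ)) (l := S.F)
      (by rw [one_smul]; exact S.hasFDerivAt_F hX (S.nice_target hX) hx) hl
  have h2 : HasDerivAt (fun t : ℝ => S.F (t • x)) (S.F x) 1 := by
    have h3 : HasDerivAt (fun t : ℝ => t • S.F x) (S.F x) 1 := by
      simpa using (hasDerivAt_id (1 : ℝ)).smul_const (S.F x)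
    exact h3.congr_of_eventuallyEq (by
      filter_upwards [Ioi_mem_nhds one_pos] with t ht
      exact S.smul_F t x (le_of_lt ht))
  exact h1.unique h2

/-- At a point of the sphere where the hessian has rank two the second derivative of the map
is the hessian times one vector. -/
theorem second_eq_of_unit {v : X} (hv : ‖v‖ = 1) {a₀ b₀ : X}
    (hrk : fderiv ℝ dn v a₀ b₀ ^ 2 < fderiv ℝ dn v a₀ a₀ * fderiv ℝ dn v b₀ b₀) :
    ∃ Z : X, dn v Z = 0 ∧ fderiv ℝ dn v Z = 0 ∧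
      (∀ a b, fderiv ℝ (fderiv ℝ S.F) v a b = fderiv ℝ dn v a b • fderiv ℝ S.F v Z) ∧
      ∀ u, u ≠ 0 → dn v u = 0 → dn u Z = dn (fderiv ℝ S.F v u) (S.F v) - dn u v := by
  have hY := S.nice_target hX
  have hv0 := ne_zero_of_norm_one hv
  have hdiff := (hdX v hv0).hasFDerivAt.differentiableAt
  set A := fderiv ℝ S.F v with hAdef
  set A' := fderiv ℝ S.G (S.F v) with hA'def
  set B := fderiv ℝ (fderiv ℝ S.F) v with hBdef
  set N := fderiv ℝ dn v with hNdef
  have hBs : ∀ a b, B a b = B b a := S.second_symm hX hdX hv0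
  have hB0 : ∀ a b, dn (S.F v) (B b a) = 0 := fun a b => S.dn_second hX hdX hv0 a b
  have hA'A : ∀ a, A' (A a) = a := fun a => DFunLike.congr_fun (S.fderiv_G_F hX hY hv0) a
  have hAA' : ∀ a, A (A' a) = a := fun a => DFunLike.congr_fun (S.fderiv_F_G hX hY hv0) a
  have hAv : A v = S.F v := S.fderiv_F_self hX hv0
  have hFv1 : ‖S.F v‖ = 1 := by rw [S.norm_F, hv]
  have hNv : N v = 0 := hX.hess_radial hv0 hdiff
  have hN0 : ∀ a, 0 ≤ N a a := fun a => hX.hess_nonneg hv0 hdiff a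
  set T : Submodule ℝ X := (dn v).ker with hT
  have hmem : ∀ {u : X}, u ∈ T ↔ dn v u = 0 := LinearMap.mem_ker
  have hTN : Nice T := hX.submodule T (ContinuousLinearMap.isClosed_ker (dn v))
  have := hTN.complete
  have hdv : ∀ u : Y, dn v (A' u) = dn (S.F v) u := fun u => by
    rw [← S.dn_comp_fderiv hX hY hv0, comp_apply, hAA']
  set π : X →L[ℝ] T := (ContinuousLinearMap.id ℝ X - (dn v).smulRight v).codRestrict T fun z => by
    rw [hmem]
    simp [(hX.dn_spec hv0).2, hv] with hπ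
  have hπv : ∀ a : X, ((π a : T) : X) = a - dn v a • v := fun a => by simp [hπ]
  have hNπ : ∀ a b, N (π a : X) (π b : X) = N a b := fun a b => by
    simp [hπv, hNv, hNs v hv0 a v, hNdef]
    rw [show fderiv ℝ dn v v = 0 from hNv]
    simp
  set g : T →L[ℝ] T →L[ℝ] ℝ := N.bilinearComp T.subtypeL T.subtypeL with hg
  have hga : ∀ a b : T, g a b = N (a : X) (b : X) := fun a b => by simp [hg]
  have hgs : ∀ a b, g a b = g b a := fun a b => by rw [hga, hga]; exact hNs v hv0 _ _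
  have hg0 : ∀ a, 0 ≤ g a a := fun a => by rw [hga]; exact hN0 _
  set τ : T →L[ℝ] T →L[ℝ] T :=
    ((compL ℝ T Y T (π.comp A')).comp (B.bilinearComp T.subtypeL T.subtypeL)) with hτ
  have hτ' : ∀ a b : T, ((τ a b : T) : X) = A' (B a b) := fun a b => by
    simp [hτ, hπ, hdv, hB0]
  have hτs : ∀ a b, τ a b = τ b a := fun a b => Subtype.ext (by rw [hτ', hτ', hBs])
  have hτg : ∀ a b c, g (τ a b) c = g (τ a c) b := fun a b d => by
    rw [hga, hga, hτ', hτ', hNdef, ← S.hess_eq hX hY hdX hv0 (A' (B a b)),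
      ← S.hess_eq hX hY hdX hv0 (A' (B a d)), ← hAdef, hAA', hAA']
    exact S.tensor_symm hX hdX hN hNs hv0 _ _ _
  set Δ : T → ℝ := fun u => dn (A (u : X)) (S.F v) - dn (u : X) v with hΔdef
  have hEig : ∀ u : T, u ≠ 0 → ∀ w, dn u (τ u w) = Δ u * g u w := fun u hu w => by
    have huX : (u : X) ≠ 0 := Subtype.coe_ne_coe.2 hu
    have hAu : A (u : X) ≠ 0 := fun e => huX (by rw [← hA'A u, e, map_zero])
    have d1 := (hY.hasFDerivAt_norm (x := A.comp T.subtypeL u) hAu).comp u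
      (A.comp T.subtypeL).hasFDerivAt
    have e : (fun y : Y => ‖y‖) ∘ (A.comp T.subtypeL) = fun z : T => ‖z‖ :=
      funext fun z => S.norm_fderiv_tangent hX hv0 (hmem.1 z.2)
    rw [e] at d1
    have d2 := DFunLike.congr_fun (d1.unique (hTN.hasFDerivAt_norm hu)) (τ u w)
    simp only [comp_apply, Submodule.subtypeL_apply, hτ', hAA'] at d2
    rw [← d2, hBs, hga, hNs v hv0 (u : X), hΔdef]
    simp only [← hAv]
    exact S.eig_eq hX hdX hv huX (hmem.1 u.2) w
  have hΔ2 : ∀ u : T, u ≠ 0 → |Δ u| ≤ 2 := fun u hu => by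
    have huX : (u : X) ≠ 0 := Subtype.coe_ne_coe.2 hu
    have hAu : A (u : X) ≠ 0 := fun e => huX (by rw [← hA'A u, e, map_zero])
    have h1 := hY.dn_le hAu (S.F v)
    have h2 := hX.dn_le huX v
    rw [hFv1] at h1
    rw [hv] at h2
    exact (abs_sub _ _).trans (by linarith)
  have hrank : ∃ e f : T, g e e = 1 ∧ g f f = 1 ∧ g e f = 0 := by
    have hab : g (π a₀) (π b₀) ^ 2 < g (π a₀) (π a₀) * g (π b₀) (π b₀) := by
      simpa only [hga, hNπ] using hrk
    set a := π a₀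
    set b := π b₀
    have haa : 0 < g a a := lt_of_le_of_ne (hg0 a) fun e => by
      rw [← e, zero_mul] at hab
      exact absurd hab (not_lt.2 (sq_nonneg _))
    set b' := b - (g a b / g a a) • a
    have hab' : g a b' = 0 := by
      simp only [b', map_sub, map_smul, smul_eq_mul, div_mul_cancel₀ _ haa.ne', sub_self]
    have hbb : 0 < g b' b' := by
      have e : g b' b' = g b b - g a b ^ 2 / g a a := by
        simp only [b', map_sub, map_smul, sub_apply, smul_apply, smul_eq_mul, hgs b a]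
        field_simp
        ring
      rw [e, sub_pos, div_lt_iff₀ haa]
      linarith
    refine ⟨(Real.sqrt (g a a))⁻¹ • a, (Real.sqrt (g b' b'))⁻¹ • b', ?_, ?_, ?_⟩
    · simp only [map_smul, smul_apply, smul_eq_mul]
      rw [← mul_assoc, ← mul_inv, Real.mul_self_sqrt haa.le, inv_mul_cancel₀ haa.ne']
    · simp only [map_smul, smul_apply, smul_eq_mul]
      rw [← mul_assoc, ← mul_inv, Real.mul_self_sqrt hbb.le, inv_mul_cancel₀ hbb.ne']
    · simp only [map_smul, smul_apply, smul_eq_mul, hab', mul_zero]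
  have hnull : ∀ a b c, g (τ a b) c = 0 :=
    cubic_zero (fun u : T => dn u) (fun u x => by
      rcases eq_or_ne u 0 with rfl | hu
      · rcases eq_or_ne x 0 with rfl | hx
        · simp
        have : Nontrivial T := ⟨⟨x, 0, hx⟩⟩
        rw [dn, fderiv_zero_of_not_differentiableAt (not_differentiableAt_norm_zero T)]
        simp
      · exact hTN.dn_le hu x)
      (fun u hu => (hTN.dn_spec hu).2) g hgs hg0 hrank τ hτs hτg
      (fun u hu => ⟨Δ u, hΔ2 u hu, hEig u hu⟩)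
  have hTd : ∀ u : T, u ≠ 0 → HasFDerivAt (dn : T → T →L[ℝ] ℝ)
      ((fderiv ℝ dn (u : X)).bilinearComp T.subtypeL T.subtypeL) u := fun u hu =>
    hX.fderiv_dn_submodule hTN hu
      (hdX _ (Subtype.coe_ne_coe.2 hu)).hasFDerivAt.differentiableAt
  obtain ⟨e, f, hee, -, -⟩ := hrank
  obtain ⟨Z, hZ0, hZ1, hZ2⟩ := null_tensor hTN (fun u hu => (hTd u hu).differentiableAt)
    (fun u hu a b => by
      rw [(hTd u hu).fderiv]
      simpa using hNs (u : X) (Subtype.coe_ne_coe.2 hu) (a : X) (b : X))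
    g hgs τ hτs hnull Δ hEig hg0 hee fun u hu => by
      have huX : (u : X) ≠ 0 := Subtype.coe_ne_coe.2 hu
      have hAu : A (u : X) ≠ 0 := fun e => huX (by rw [← hA'A u, e, map_zero])
      have c1 : ContinuousAt (fun w : T => dn (A (w : X))) u :=
        ContinuousAt.comp (g := dn) (f := fun w : T => A (w : X))
          (S.c11At_dn_target hX hY hdX hAu).continuousAt (by fun_prop)
      have c2 : ContinuousAt (fun w : T => dn (w : X)) u :=
        ContinuousAt.comp (g := dn) (f := fun w : T => (w : X))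
          (hdX _ huX).continuousAt (by fun_prop)
      exact (c1.clm_apply continuousAt_const).sub (c2.clm_apply continuousAt_const)
  have hdec : ∀ a : X, a = ((π a : T) : X) + dn v a • v := fun a => by simp [hπv]
  have hrad : ∀ a, B v a = 0 := fun a => by
    have h1 : HasDerivAt (fun t : ℝ => fderiv ℝ S.F (t • v) a) (B v a) 1 := by
      have hl : HasDerivAt (fun t : ℝ => t • v) v 1 := by
        simpa using (hasDerivAt_id (1 : ℝ)).smul_const v
      have h := S.hasFDerivAt_fderiv_apply hX hdX hv0 a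
      rw [← one_smul ℝ v] at h
      have := h.comp_hasDerivAt 1 hl
      simp only [one_smul, flip_apply] at this
      exact this
    have h2 : HasDerivAt (fun t : ℝ => fderiv ℝ S.F (t • v) a) 0 1 :=
      (hasDerivAt_const 1 (A a)).congr_of_eventuallyEq (by
        filter_upwards [Ioi_mem_nhds one_pos] with t ht
        rw [S.fderiv_F_smul hX hY hv0 ht])
    exact h1.unique h2
  refine ⟨(Z : X), hmem.1 Z.2, ?_, fun a b => ?_, fun u hu0 hu => ?_⟩
  · ext b
    have := hZ0 (π b)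
    rw [hga] at this
    rw [zero_apply, ← this, hπv, map_sub, map_smul, hNs v hv0 (Z : X) v, show fderiv ℝ dn v v = 0 from hNv]
    simp [hNdef]
  · have h := congrArg (fun t : T => A (t : X)) (hZ1 (π a) (π b))
    simp only [hτ', hAA', Submodule.coe_smul, map_smul, hga, hNπ] at h
    rw [← h]
    conv_lhs => rw [hdec a, hdec b]
    simp only [map_add, map_smul, add_apply, smul_apply, hrad, hBs (π a : X) v, smul_zero,
      add_zero]
  · have h := hZ2 ⟨u, hmem.2 hu⟩ (fun e => hu0 (congrArg Subtype.val e))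
    rwa [hX.dn_submodule hTN (fun e => hu0 (congrArg Subtype.val e))] at h

omit hN hNs in
/-- The second derivative and the hessian have degree minus one. -/
lemma second_scale {x : X} (hx : x ≠ 0) :
    fderiv ℝ dn x = ‖x‖⁻¹ • fderiv ℝ dn (unit x) ∧
      fderiv ℝ (fderiv ℝ S.F) x = ‖x‖⁻¹ • fderiv ℝ (fderiv ℝ S.F) (unit x) := by
  have hu := ne_zero_of_norm_one (norm_unit hx)
  have hm := (hasFDerivAt_id (𝕜 := ℝ) x).const_smul ‖x‖⁻¹
  constructor
  · have h := (hdX _ hu).hasFDerivAt.comp (f := fun y : X => ‖x‖⁻¹ • y) x hm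
    rw [(h.congr_of_eventuallyEq (by
      filter_upwards [isOpen_ne.mem_nhds hx] with y hy
      exact (hX.dn_smul hy (inv_pos.2 (norm_pos_iff.2 hx))).symm)).fderiv]
    ext a b
    simp [unit]
  · have h := (S.hasFDerivAt_fderiv hX hdX hu).comp (f := fun y : X => ‖x‖⁻¹ • y) x hm
    rw [(h.congr_of_eventuallyEq (by
      filter_upwards [isOpen_ne.mem_nhds hx] with y hy
      exact (S.fderiv_F_smul hX (S.nice_target hX) hy
        (inv_pos.2 (norm_pos_iff.2 hx))).symm)).fderiv]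
    ext a b
    simp [unit]

/-- The same off the sphere. -/
lemma second_eq {x : X} (hx : x ≠ 0) {a₀ b₀ : X}
    (hrk : fderiv ℝ dn x a₀ b₀ ^ 2 < fderiv ℝ dn x a₀ a₀ * fderiv ℝ dn x b₀ b₀) :
    ∃ Z : X, dn x Z = 0 ∧ fderiv ℝ dn x Z = 0 ∧
      (∀ a b, fderiv ℝ (fderiv ℝ S.F) x a b = fderiv ℝ dn x a b • fderiv ℝ S.F x Z) ∧
      ∀ u, u ≠ 0 → dn x u = 0 →
        dn u Z = dn (fderiv ℝ S.F x u) (S.F (unit x)) - dn u (unit x) := by
  obtain ⟨e1, e2⟩ := S.second_scale hX hdX hx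
  have hA : fderiv ℝ S.F (unit x) = fderiv ℝ S.F x :=
    S.fderiv_F_smul hX (S.nice_target hX) hx (inv_pos.2 (norm_pos_iff.2 hx))
  have hr : 0 < ‖x‖⁻¹ := inv_pos.2 (norm_pos_iff.2 hx)
  rw [e1] at hrk
  simp only [smul_apply, smul_eq_mul] at hrk
  obtain ⟨Z, h1, h2, h3, h4⟩ := S.second_eq_of_unit hX hdX hN hNs (norm_unit hx)
    (a₀ := a₀) (b₀ := b₀) (by
      refine lt_of_mul_lt_mul_left ?_ (sq_nonneg ‖x‖⁻¹)
      linarith)
  rw [hX.dn_unit hx] at h1 h4
  rw [hA] at h3 h4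
  refine ⟨Z, h1, by rw [e1, smul_apply, h2, smul_zero], fun a b => ?_, h4⟩
  rw [e1, e2]
  simp only [smul_apply, h3, smul_smul, smul_eq_mul]

/-- Where the hessian has rank two the second derivative of the map vanishes. -/
theorem second_zero_of_rank {x₀ : X} (hx₀ : x₀ ≠ 0) {a₀ b₀ : X}
    (hrk : fderiv ℝ dn x₀ a₀ b₀ ^ 2 < fderiv ℝ dn x₀ a₀ a₀ * fderiv ℝ dn x₀ b₀ b₀) :
    fderiv ℝ (fderiv ℝ S.F) x₀ = 0 := by
  have hY := S.nice_target hX
  have hcN : ∀ a b, ContinuousAt (fun x => fderiv ℝ dn x a b) x₀ := fun a b =>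
    ((hN x₀ hx₀).continuousAt.clm_apply continuousAt_const).clm_apply continuousAt_const
  have hev : ∀ᶠ x in 𝓝 x₀, x ≠ 0 ∧
      fderiv ℝ dn x a₀ b₀ ^ 2 < fderiv ℝ dn x a₀ a₀ * fderiv ℝ dn x b₀ b₀ :=
    (show ∀ᶠ x in 𝓝 x₀, x ≠ 0 from isOpen_ne.mem_nhds hx₀).and
      (((hcN a₀ b₀).pow 2).eventually_lt ((hcN a₀ a₀).mul (hcN b₀ b₀)) hrk)
  have hex : ∀ x : X, ∃ Z : X, x ≠ 0 ∧
      fderiv ℝ dn x a₀ b₀ ^ 2 < fderiv ℝ dn x a₀ a₀ * fderiv ℝ dn x b₀ b₀ →
      dn x Z = 0 ∧ fderiv ℝ dn x Z = 0 ∧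
      (∀ a b, fderiv ℝ (fderiv ℝ S.F) x a b = fderiv ℝ dn x a b • fderiv ℝ S.F x Z) ∧
      ∀ u, u ≠ 0 → dn x u = 0 →
        dn u Z = dn (fderiv ℝ S.F x u) (S.F (unit x)) - dn u (unit x) := fun x => by
    by_cases h : x ≠ 0 ∧
      fderiv ℝ dn x a₀ b₀ ^ 2 < fderiv ℝ dn x a₀ a₀ * fderiv ℝ dn x b₀ b₀
    · obtain ⟨Z, hZ⟩ := S.second_eq hX hdX hN hNs h.1 h.2
      exact ⟨Z, fun _ => hZ⟩
    · exact ⟨0, fun h' => absurd h' h⟩
  choose Z hZ using hex
  obtain ⟨z1, -, z3, z4⟩ := hZ x₀ ⟨hx₀, hrk⟩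
  suffices h0 : Z x₀ = 0 by
    ext a b
    rw [z3, h0, map_zero, smul_zero]
    rfl
  by_contra hne
  set Z0 := Z x₀
  have hm : 0 < ‖Z0‖ := norm_pos_iff.2 hne
  -- boundedness
  have hN00 : 0 < fderiv ℝ dn x₀ a₀ a₀ := by
    refine lt_of_le_of_ne (hX.hess_nonneg hx₀ (hdX x₀ hx₀).hasFDerivAt.differentiableAt a₀)
      fun e => ?_
    rw [← e, zero_mul] at hrk
    exact absurd hrk (not_lt.2 (sq_nonneg _))
  obtain ⟨r, hr, C, hC, hD⟩ := (S.c11At_fderiv hX hY hdX hx₀).data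
  set N0 := fderiv ℝ dn x₀ a₀ a₀
  set M := 3 * (C * ‖a₀‖ * ‖a₀‖ / (N0 / 2))
  have hbd : ∀ᶠ x in 𝓝 x₀, ‖Z x‖ ≤ M := by
    have h1 : ∀ᶠ x in 𝓝 x₀, N0 / 2 < fderiv ℝ dn x a₀ a₀ :=
      continuousAt_const.eventually_lt (hcN a₀ a₀) (by linarith)
    filter_upwards [hev, h1, Metric.ball_mem_nhds x₀ hr] with x hx hx1 hx2
    rw [mem_ball, dist_eq_norm] at hx2
    obtain ⟨-, -, y3, -⟩ := hZ x hx
    have hB : ‖fderiv ℝ (fderiv ℝ S.F) x‖ ≤ C := by
      refine (hD x hx2.le).1.le_of_lip' hC ?_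
      filter_upwards [Metric.ball_mem_nhds x (sub_pos.2 hx2)] with y hy
      rw [mem_ball, dist_eq_norm] at hy
      exact ((hD x hx2.le).2 y
        (by linarith [norm_sub_le_norm_sub_add_norm_sub y x x₀])).2.2
    have h2 : ‖fderiv ℝ S.F x (Z x)‖ ≤ C * ‖a₀‖ * ‖a₀‖ / (N0 / 2) := by
      rw [le_div_iff₀ (by linarith)]
      have h3 := (ContinuousLinearMap.le_opNorm₂ (fderiv ℝ (fderiv ℝ S.F) x) a₀ a₀).trans
        (by gcongr : _ ≤ C * ‖a₀‖ * ‖a₀‖)
      rw [y3, norm_smul, Real.norm_of_nonneg (by linarith)] at h3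
      exact le_trans (by rw [mul_comm]; gcongr) h3
    have h4 := (fderiv ℝ S.G (S.F x)).le_of_opNorm_le
      (S.symm.norm_fderiv_F_le hY (S.F x)) (fderiv ℝ S.F x (Z x))
    rw [show fderiv ℝ S.G (S.F x) (fderiv ℝ S.F x (Z x)) = Z x from
      DFunLike.congr_fun (S.fderiv_G_F hX hY hx.1) (Z x)] at h4
    exact h4.trans (mul_le_mul_of_nonneg_left h2 (by norm_num))
  -- the component along the vector at the base point
  set u : X → X := fun x => Z0 - dn x Z0 • unit x with hu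
  have hux : u x₀ = Z0 := by simp [hu, z1]
  have cdn : ContinuousAt (dn : X → X →L[ℝ] ℝ) x₀ := (hdX x₀ hx₀).continuousAt
  have cunit : ContinuousAt (unit : X → X) x₀ :=
    (continuous_norm.continuousAt.inv₀ (norm_ne_zero_iff.2 hx₀)).smul continuousAt_id
  have cu : ContinuousAt u x₀ :=
    continuousAt_const.sub ((cdn.clm_apply continuousAt_const).smul cunit)
  have hA0 : fderiv ℝ S.F x₀ Z0 ≠ 0 := fun e => hne (by
    rw [← show fderiv ℝ S.G (S.F x₀) (fderiv ℝ S.F x₀ Z0) = Z0 from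
      DFunLike.congr_fun (S.fderiv_G_F hX hY hx₀) Z0, e, map_zero])
  have cAu : ContinuousAt (fun x => fderiv ℝ S.F x (u x)) x₀ :=
    (S.c11At_fderiv hX hY hdX hx₀).continuousAt.clm_apply cu
  have c1 : ContinuousAt (fun x => dn (fderiv ℝ S.F x (u x))) x₀ :=
    ContinuousAt.comp (g := dn) (f := fun x => fderiv ℝ S.F x (u x))
      (by rw [hux]; exact (S.c11At_dn_target hX hY hdX hA0).continuousAt) cAu
  have c2 : ContinuousAt (fun x => dn (u x)) x₀ :=
    ContinuousAt.comp (g := dn) (f := u) (by rw [hux]; exact (hdX Z0 hne).continuousAt) cu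
  have c3 : ContinuousAt (fun x => dn (fderiv ℝ S.F x (u x)) (S.F (unit x)) - dn (u x) (unit x))
      x₀ :=
    (c1.clm_apply (S.continuous_F.continuousAt.comp cunit)).sub (c2.clm_apply cunit)
  have hval : dn (fderiv ℝ S.F x₀ (u x₀)) (S.F (unit x₀)) - dn (u x₀) (unit x₀) = ‖Z0‖ := by
    rw [hux, ← z4 Z0 hne z1, (hX.dn_spec hne).2]
  have e1 : ∀ᶠ x in 𝓝 x₀, 3 * ‖Z0‖ / 4 <
      dn (fderiv ℝ S.F x (u x)) (S.F (unit x)) - dn (u x) (unit x) :=
    continuousAt_const.eventually_lt c3 (by rw [hval]; linarith)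
  have e2 : ∀ᶠ x in 𝓝 x₀, ‖dn (u x) - dn Z0‖ * M < ‖Z0‖ / 4 :=
    ((c2.sub continuousAt_const).norm.mul continuousAt_const).eventually_lt continuousAt_const
      (by show ‖dn (u x₀) - dn Z0‖ * M < _; rw [hux, sub_self, norm_zero, zero_mul]; linarith)
  have e3 : ∀ᶠ x in 𝓝 x₀, u x ≠ 0 := cu.eventually_ne (by rw [hux]; exact hne)
  obtain ⟨r', hr', hball⟩ :=
    Metric.eventually_nhds_iff.1 (hev.and (hbd.and (e1.and (e2.and e3))))
  refine hX.no_kernel_field hx₀ (hdX x₀ hx₀) Z (dn Z0) (r := r' / 2) (M := M) (c := ‖Z0‖ / 2)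
    (by linarith) (by linarith) fun x hx => ?_
  obtain ⟨hx1, hx2, hx3, hx4, hx5⟩ := hball (show dist x x₀ < r' by rw [dist_eq_norm]; linarith)
  obtain ⟨y1, y2, -, y4⟩ := hZ x hx1
  refine ⟨hx2, y1, y2, ?_⟩
  rw [← y4 (u x) hx5 (by
    simp only [hu, map_sub, map_smul, unit, smul_eq_mul, (hX.dn_spec hx1.1).2,
      inv_mul_cancel₀ (norm_ne_zero_iff.2 hx1.1), mul_one, sub_self])] at hx3
  have h5 := (le_abs_self _).trans (((dn (u x) - dn Z0).le_opNorm (Z x)).trans
    (mul_le_mul_of_nonneg_left hx2 (norm_nonneg _)))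
  rw [sub_apply] at h5
  linarith

omit S hN hNs in
/-- Points where the hessian has rank two are dense. -/
lemma exists_rank (hNc : ∀ x : X, x ≠ 0 → ContinuousAt (fderiv ℝ dn) x)
    (hperp : ∀ φ ψ : X →L[ℝ] ℝ, ∃ u : X, u ≠ 0 ∧ φ u = 0 ∧ ψ u = 0)
    (hsymm : ∀ x : X, x ≠ 0 → ∀ a b, fderiv ℝ dn x a b = fderiv ℝ dn x b a)
    {x₀ : X} (hx₀ : x₀ ≠ 0) {U : Set X} (hU : U ∈ 𝓝 x₀) :
    ∃ x ∈ U, x ≠ 0 ∧ ∃ a b, fderiv ℝ dn x a b ^ 2 < fderiv ℝ dn x a a * fderiv ℝ dn x b b := by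
  by_contra! hno
  obtain ⟨U', hU', hU'o, hxU⟩ := _root_.mem_nhds_iff.1 hU
  have hps : ∀ x : X, x ≠ 0 → ∀ a, 0 ≤ fderiv ℝ dn x a a := fun x hx a =>
    hX.hess_nonneg hx (hdX x hx).hasFDerivAt.differentiableAt a
  have hker : ∀ x : X, x ≠ 0 → ∀ z, fderiv ℝ dn x z z = 0 → fderiv ℝ dn x z = 0 := fun x hx z hz => by
    ext b
    have := cs_psd _ (hsymm x hx) (hps x hx) z b
    rw [hz, zero_mul] at this
    exact pow_eq_zero_iff two_ne_zero |>.1 (le_antisymm this (sq_nonneg _))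
  have hproj : ∀ x : X, x ≠ 0 → ∀ c, dn x (c - dn x c • unit x) = 0 ∧
      fderiv ℝ dn x (c - dn x c • unit x) = fderiv ℝ dn x c := fun x hx c => by
    constructor
    · simp only [map_sub, map_smul, unit, smul_eq_mul, (hX.dn_spec hx).2,
        inv_mul_cancel₀ (norm_ne_zero_iff.2 hx), mul_one, sub_self]
    · simp only [map_sub, map_smul, unit, hX.hess_radial hx (hdX x hx).hasFDerivAt.differentiableAt,
        smul_zero, sub_zero]
  have hcont : ∀ x : X, x ≠ 0 → ∀ w : X → X, ContinuousAt w x →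
      ContinuousAt (fun y => w y - dn y (w y) • unit y) x := fun x hx w hw =>
    hw.sub (((hdX x hx).continuousAt.clm_apply hw).smul
      ((continuous_norm.continuousAt.inv₀ (norm_ne_zero_iff.2 hx)).smul continuousAt_id))
  by_cases hflat : ∀ x ∈ U', x ≠ 0 → fderiv ℝ dn x = 0
  · obtain ⟨c, hc0, hc1, -⟩ := hperp (dn x₀) 0
    have h := hX.field_eq_zero hx₀ (hdX x₀ hx₀) (z := fun y => c - dn y c • unit y)
      (hcont x₀ hx₀ _ continuousAt_const) ?_
    · simp only [hc1, zero_smul, sub_zero] at h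
      exact hc0 h
    filter_upwards [hU'o.mem_nhds hxU, isOpen_ne.mem_nhds hx₀] with y hy hy0
    exact ⟨(hproj y hy0 c).1, by rw [(hproj y hy0 c).2, hflat y hy hy0]; rfl⟩
  · push Not at hflat
    obtain ⟨x₁, hx₁U, hx₁, hne⟩ := hflat
    obtain ⟨a, ha⟩ : ∃ a, fderiv ℝ dn x₁ a a ≠ 0 := by
      by_contra! h
      exact hne (ContinuousLinearMap.ext fun z => hker x₁ hx₁ z (h z))
    obtain ⟨c, hc0, hc1, hc2⟩ := hperp (dn x₁) (fderiv ℝ dn x₁ a)
    set lam : X → ℝ := fun y => fderiv ℝ dn y a c / fderiv ℝ dn y a a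
    have cN : ∀ p q, ContinuousAt (fun y => fderiv ℝ dn y p q) x₁ := fun p q =>
      ((hNc x₁ hx₁).clm_apply continuousAt_const).clm_apply continuousAt_const
    set w : X → X := fun y => c - lam y • a with hw
    have cw : ContinuousAt w x₁ :=
      continuousAt_const.sub (((cN a c).div (cN a a) ha).smul continuousAt_const)
    have hw1 : w x₁ = c := by simp [hw, lam, hc2]
    have h := hX.field_eq_zero hx₁ (hdX x₁ hx₁) (z := fun y => w y - dn y (w y) • unit y)
      (hcont x₁ hx₁ w cw) ?_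
    · simp only [hw1, hc1, zero_smul, sub_zero] at h
      exact hc0 h
    filter_upwards [hU'o.mem_nhds hx₁U, isOpen_ne.mem_nhds hx₁,
      (cN a a).eventually_ne ha] with y hy hy0 hya
    refine ⟨(hproj y hy0 _).1, ?_⟩
    rw [(hproj y hy0 _).2]
    refine hker y hy0 _ (le_antisymm ?_ (hps y hy0 _))
    have hle := hno y (hU' hy) hy0 a c
    have hpos : 0 < fderiv ℝ dn y a a := lt_of_le_of_ne (hps y hy0 a) (Ne.symm hya)
    have e : fderiv ℝ dn y (w y) (w y) =
        fderiv ℝ dn y c c - fderiv ℝ dn y a c ^ 2 / fderiv ℝ dn y a a := by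
      simp only [hw, lam, map_sub, map_smul, sub_apply, smul_apply, smul_eq_mul, hsymm y hy0 c a]
      field_simp
      ring
    rw [e, sub_nonpos, le_div_iff₀ hpos]
    linarith

/-- The second derivative of the map vanishes everywhere. -/
theorem second_zero_of_unit (hperp : ∀ φ ψ : X →L[ℝ] ℝ, ∃ u : X, u ≠ 0 ∧ φ u = 0 ∧ ψ u = 0)
    {x₀ : X} (hx₀ : ‖x₀‖ = 1) : fderiv ℝ (fderiv ℝ S.F) x₀ = 0 := by
  have hY := S.nice_target hX
  have hx0 := ne_zero_of_norm_one hx₀
  have hdY : ∀ w : Y, w ≠ 0 → C11At (dn : Y → Y →L[ℝ] ℝ) w := fun w hw =>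
    S.c11At_dn_target hX hY hdX hw
  obtain ⟨ρ, hρ, hch⟩ := S.exists_chord hX hY hx₀ (η := 1 / 4) (by norm_num)
  obtain ⟨K, hK, hnorm⟩ := hY.norming (w := S.F x₀) (by rw [S.norm_F, hx₀]) hρ
  ext a b
  refine norm_le_zero_iff.1 ((hnorm _ 0 le_rfl fun e he hed => ?_).trans_eq (mul_zero K))
  obtain ⟨z, hz, hzx, hzp⟩ := hch x₀ (by simpa using hρ.le) e he hed
  obtain ⟨⟨hne, hne'⟩, -⟩ := S.chord_identity hX hY hx₀ hz
    (y := x₀) (by simp) hzx
  set P : X → Y →L[ℝ] ℝ := fun y => dn (S.F y - ‖y‖ • S.F z) with hP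
  set q : X → X →L[ℝ] ℝ := fun y => dn (y - ‖y‖ • z) with hq
  set R : X → ℝ := fun y => q y b + (P y (S.F z) - q y z) * dn y b with hR
  have cn : C11At (fun y : X => ‖y‖) x₀ := hX.c11At_norm hx0
  have cid : C11At (fun y : X => y) x₀ := .of_contDiffAt contDiffAt_id
  have ckX : ∀ w : X, C11At (fun _ : X => w) x₀ := fun w => .of_contDiffAt contDiffAt_const
  have ckY : ∀ w : Y, C11At (fun _ : X => w) x₀ := fun w => .of_contDiffAt contDiffAt_const
  have cP : C11At P x₀ := by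
    refine C11At.comp (φ := dn) (hdY _ hne') (C11At.map2 (contDiff_fst.sub contDiff_snd)
      (S.c11At_F hX hY hx0) (C11At.map2 contDiff_smul cn (ckY (S.F z))))
  have cq : C11At q x₀ :=
    C11At.comp (φ := dn) (hdX _ hne) (C11At.map2 (contDiff_fst.sub contDiff_snd) cid
      (C11At.map2 contDiff_smul cn (ckX z)))
  have cR : C11At R x₀ := by
    have aX : ContDiff ℝ 2 (fun p : (X →L[ℝ] ℝ) × X => p.1 p.2) :=
      isBoundedBilinearMap_apply.contDiff
    have aY : ContDiff ℝ 2 (fun p : (Y →L[ℝ] ℝ) × Y => p.1 p.2) :=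
      isBoundedBilinearMap_apply.contDiff
    exact C11At.map2 (φ := fun p : ℝ × ℝ => p.1 + p.2) (contDiff_fst.add contDiff_snd)
      (C11At.map2 aX cq (ckX b))
      (C11At.map2 (φ := fun p : ℝ × ℝ => p.1 * p.2) (contDiff_fst.mul contDiff_snd)
        (C11At.map2 (φ := fun p : ℝ × ℝ => p.1 - p.2) (contDiff_fst.sub contDiff_snd)
          (C11At.map2 aY cP (ckY (S.F z))) (C11At.map2 aX cq (ckX z)))
        (C11At.map2 aX (hdX x₀ hx0) (ckX b)))
  obtain ⟨r1, hr1, C1, -, hP1⟩ := cP.data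
  obtain ⟨r2, hr2, C2, -, hR1⟩ := cR.data
  have hid : (fun y => P y (fderiv ℝ S.F y b)) =ᶠ[𝓝 x₀] R := by
    filter_upwards [Metric.ball_mem_nhds x₀ (show (0 : ℝ) < 1 / 4 by norm_num)] with y hy
    rw [mem_ball, dist_eq_norm] at hy
    have h := DFunLike.congr_fun (S.chord_identity hX hY hx₀ hz hy.le hzx).2 b
    simp only [comp_apply, add_apply, smul_apply, smul_eq_mul] at h
    exact h
  have hmain : ∀ᶠ y in 𝓝 x₀, P y (fderiv ℝ (fderiv ℝ S.F) y a b) =
      fderiv ℝ R y a - fderiv ℝ P y a (fderiv ℝ S.F y b) := by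
    filter_upwards [hid.eventuallyEq_nhds, Metric.ball_mem_nhds x₀ hr1,
      Metric.ball_mem_nhds x₀ hr2, isOpen_ne.mem_nhds hx0] with y hy hy1 hy2 hy0
    rw [mem_ball, dist_eq_norm] at hy1 hy2
    have h1 := (hP1 y hy1.le).1.clm_apply (S.hasFDerivAt_fderiv_apply hX hdX hy0 b)
    have h2 := DFunLike.congr_fun (h1.unique ((hR1 y hy2.le).1.congr_of_eventuallyEq hy)) a
    simp only [add_apply, comp_apply, flip_apply] at h2
    linarith
  have hc : ContinuousAt (fun y => fderiv ℝ R y a - fderiv ℝ P y a (fderiv ℝ S.F y b)) x₀ :=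
    (cR.continuousAt_fderiv.clm_apply continuousAt_const).sub
      ((cP.continuousAt_fderiv.clm_apply continuousAt_const).clm_apply
        ((S.c11At_fderiv hX hY hdX hx0).continuousAt.clm_apply continuousAt_const))
  have hx : fderiv ℝ R x₀ a - fderiv ℝ P x₀ a (fderiv ℝ S.F x₀ b) = 0 := by
    by_contra hne0
    obtain ⟨y, hy, hy0, a', b', hrk⟩ := exists_rank hX hdX
      (fun x hx => (hN x hx).continuousAt) hperp hNs hx0 (hmain.and (hc.eventually_ne hne0))
    simp only [Set.mem_setOf_eq] at hy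
    rw [S.second_zero_of_rank hX hdX hN hNs hy0 hrk] at hy
    exact hy.2 (by simpa using hy.1.symm)
  have hf := hmain.self_of_nhds
  rw [hx] at hf
  rw [← hzp]
  show |P x₀ _| ≤ 0
  rw [hf, abs_zero]

/-- The extension is linear. -/
theorem exists_linearIsometryEquiv (hinf : ¬ FiniteDimensional ℝ X) :
    ∃ T : X ≃ₗᵢ[ℝ] Y, ∀ x, T x = S.F x := by
  have hY := S.nice_target hX
  have hperp : ∀ φ ψ : X →L[ℝ] ℝ, ∃ u : X, u ≠ 0 ∧ φ u = 0 ∧ ψ u = 0 := fun φ ψ => by
    by_contra! h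
    refine hinf (Module.Finite.of_injective (φ.toLinearMap.prod ψ.toLinearMap) ?_)
    rw [injective_iff_map_eq_zero]
    intro u hu
    by_contra hu0
    simp only [LinearMap.prod_apply, Function.prod, Prod.mk_eq_zero] at hu
    exact h u hu0 hu.1 hu.2
  have hzero : ∀ x : X, x ≠ 0 → fderiv ℝ (fderiv ℝ S.F) x = 0 := fun x hx => by
    have hv := norm_unit hx
    have h := (S.c11At_fderiv hX hY hdX (ne_zero_of_norm_one hv)).hasFDerivAt
    rw [S.second_zero_of_unit hX hdX hN hNs hperp hv] at h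
    have h' := h.comp (f := fun y : X => ‖x‖⁻¹ • y) x
      ((hasFDerivAt_id (𝕜 := ℝ) x).const_smul ‖x‖⁻¹)
    rw [zero_comp] at h'
    refine HasFDerivAt.fderiv (h'.congr_of_eventuallyEq ?_)
    filter_upwards [isOpen_ne.mem_nhds hx] with y hy
    exact (S.fderiv_F_smul hX hY hy (inv_pos.2 (norm_pos_iff.2 hx))).symm
  have hrank : 1 < Module.rank ℝ X := by
    by_contra h
    exact hinf (Module.rank_lt_aleph0_iff.1 ((not_lt.1 h).trans_lt Cardinal.one_lt_aleph0))
  have hconn := (isConnected_compl_singleton_of_one_lt_rank hrank (0 : X)).isPreconnected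
  obtain ⟨v, -, hv0, -⟩ := hperp 0 0 |> fun ⟨u, hu, h1, h2⟩ => (⟨u, h1, hu, h2⟩ :
    ∃ u : X, (0 : X →L[ℝ] ℝ) u = 0 ∧ u ≠ 0 ∧ (0 : X →L[ℝ] ℝ) u = 0)
  set A := fderiv ℝ S.F v
  have hF : ∀ x, A x = S.F x := fun x => by
    rcases eq_or_ne x 0 with rfl | hx
    · simp [S.F_zero]
    have hA : fderiv ℝ S.F x = A := isOpen_compl_singleton.is_const_of_fderiv_eq_zero hconn
      (fun y hy => (S.c11At_fderiv hX hY hdX hy).hasFDerivAt.differentiableAt.differentiableWithinAt)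
      (fun y hy => hzero y hy) hx hv0
    rw [← hA]
    have h1 : HasDerivAt (fun t : ℝ => S.F (t • x)) (fderiv ℝ S.F x x) 1 := by
      have hl : HasDerivAt (fun t : ℝ => t • x) x 1 := by
        simpa using (hasDerivAt_id (1 : ℝ)).smul_const x
      have h := S.hasFDerivAt_F hX hY hx
      have e : x = (1 : ℝ) • x := (one_smul ℝ x).symm
      exact HasFDerivAt.comp_hasDerivAt (x := (1 : ℝ)) (l := S.F) (by rwa [one_smul]) hl
    have h2 : HasDerivAt (fun t : ℝ => S.F (t • x)) (S.F x) 1 := by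
      have h3 : HasDerivAt (fun t : ℝ => t • S.F x) (S.F x) 1 := by
        simpa using (hasDerivAt_id (1 : ℝ)).smul_const (S.F x)
      exact h3.congr_of_eventuallyEq (by
        filter_upwards [Ioi_mem_nhds one_pos] with t ht
        exact S.smul_F t x (le_of_lt ht))
    exact h1.unique h2
  refine ⟨LinearIsometryEquiv.ofSurjective
    ⟨A.toLinearMap, fun x => by rw [coe_coe, hF, S.norm_F]⟩ fun y => ⟨S.G y, ?_⟩, hF⟩
  change A (S.G y) = y
  rw [hF, S.FG]

end Ext

end Vale.Agent.P084.Smooth
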