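import Vale.Agent.P084.Smooth.C11

/-!
Norms which are locally uniformly rotund and have locally quadratic second differences.
-/

open Set Filter Topology Metric

namespace Vale.Agent.P084.Smooth

variable {X : Type*} [NormedAddCommGroup X] [NormedSpace ℝ X]

variable (X) in
/-- The space is locally uniformly rotund, the norm is `C^{1,1}` off the origin. -/
structure Nice : Prop where
  complete : CompleteSpace X
  lur : ∀ x : X, ‖x‖ = 1 → ∀ ε > (0 : ℝ), ∃ η > (0 : ℝ), ∀ a : X, ‖a‖ = 1 → ε ≤ ‖a - x‖ →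
    ‖a + x‖ ≤ 2 - η
  smooth : ∀ x : X, ‖x‖ = 1 → ∃ r > (0 : ℝ), ∃ C : ℝ, ∀ y k, ‖y - x‖ ≤ r → ‖k‖ ≤ r →
    ‖y + k‖ + ‖y - k‖ ≤ 2 * ‖y‖ + C * ‖k‖ ^ 2

/-- The derivative of the norm. -/
noncomputable def dn (x : X) : X →L[ℝ] ℝ := fderiv ℝ (fun y : X => ‖y‖) x

/-- `x` scaled to norm one. -/
noncomputable def unit (x : X) : X := ‖x‖⁻¹ • x

lemma norm_unit {x : X} (hx : x ≠ 0) : ‖unit x‖ = 1 := by
  rw [unit, norm_smul, norm_inv, norm_norm, inv_mul_cancel₀ (norm_ne_zero_iff.2 hx)]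

lemma smul_unit {x : X} (hx : x ≠ 0) : ‖x‖ • unit x = x := by
  rw [unit, smul_smul, mul_inv_cancel₀ (norm_ne_zero_iff.2 hx), one_smul]

omit [NormedSpace ℝ X] in
lemma ne_zero_of_norm_one {x : X} (h : ‖x‖ = 1) : x ≠ 0 := fun e => by simp [e] at h

lemma norm_unit_sub_unit_le {a b : X} (ha : a ≠ 0) (hb : b ≠ 0) :
    ‖unit a - unit b‖ ≤ 2 * ‖a - b‖ / ‖a‖ := by
  have h : unit a - unit b = ‖a‖⁻¹ • ((a - b) + (‖b‖ - ‖a‖) • unit b) := by
    rw [smul_add, smul_sub, smul_smul, mul_sub, sub_smul, inv_mul_cancel₀ (norm_ne_zero_iff.2 ha),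
      one_smul, ← smul_smul, smul_unit hb, ← unit]
    abel
  rw [h, norm_smul, norm_inv, norm_norm, inv_mul_le_iff₀ (norm_pos_iff.2 ha),
    mul_div_cancel₀ _ (norm_ne_zero_iff.2 ha)]
  refine (norm_add_le _ _).trans ?_
  rw [norm_smul, norm_unit hb, mul_one, Real.norm_eq_abs]
  have := abs_norm_sub_norm_le b a
  rw [norm_sub_rev] at this
  linarith

namespace Nice

variable (hX : Nice X)
include hX

lemma exists_expand {x : X} (hx : ‖x‖ = 1) : ∃ r > (0 : ℝ), ∃ C : ℝ, 0 ≤ C ∧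
    ∀ y, ‖y - x‖ ≤ r → ∃ p : X →L[ℝ] ℝ, ‖p‖ ≤ 1 ∧ p y = ‖y‖ ∧
      ∀ k, ‖k‖ ≤ r → |‖y + k‖ - ‖y‖ - p k| ≤ C * ‖k‖ ^ 2 := by
  obtain ⟨r, hr, C, h⟩ := hX.smooth x hx
  refine ⟨r, hr, max C 0, le_max_right _ _, fun y hy => ?_⟩
  have : Nontrivial X := ⟨⟨x, 0, ne_zero_of_norm_one hx⟩⟩
  obtain ⟨p, hp, hp'⟩ := exists_dual_vector' ℝ y
  have hle : ∀ z, p z ≤ ‖z‖ := fun z => (le_abs_self _).trans ((p.le_opNorm z).trans (by rw [hp, one_mul]))
  refine ⟨p, hp.le, hp', fun k hk => abs_le.2 ⟨?_, ?_⟩⟩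
  · have := hle (y + k)
    rw [map_add, hp'] at this
    simp only [RCLike.ofReal_real_eq_id, id_eq] at this
    have : 0 ≤ max C 0 * ‖k‖ ^ 2 := by positivity
    linarith
  · have h1 := h y k hy hk
    have h2 := hle (y - k)
    rw [map_sub, hp'] at h2
    simp only [RCLike.ofReal_real_eq_id, id_eq] at h2
    have : C * ‖k‖ ^ 2 ≤ max C 0 * ‖k‖ ^ 2 := by gcongr; exact le_max_left _ _
    linarith

lemma c11At_norm_of_unit {x : X} (hx : ‖x‖ = 1) : C11At (fun y : X => ‖y‖) x := by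
  obtain ⟨r, hr, C, _, h⟩ := hX.exists_expand hx
  refine .of_exists ⟨r / 2, by linarith, C, fun y hy => ?_⟩
  obtain ⟨p, -, -, hp⟩ := h y (by linarith)
  refine ⟨p, fun z hz => ?_⟩
  have := hp (z - y) (by linarith [norm_sub_le_norm_sub_add_norm_sub z x y, norm_sub_rev x y])
  rwa [add_sub_cancel] at this

lemma c11At_norm {x : X} (hx : x ≠ 0) : C11At (fun y : X => ‖y‖) x := by
  obtain ⟨r, hr, C, hC, h⟩ := hX.c11At_norm_of_unit (norm_unit hx)
  have ht : 0 < ‖x‖ := norm_pos_iff.2 hx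
  refine .of_exists ⟨r * ‖x‖, by positivity, C / ‖x‖, fun y hy => ?_⟩
  refine ⟨fderiv ℝ (fun y : X => ‖y‖) (‖x‖⁻¹ • y), fun z hz => ?_⟩
  have hscale : ∀ w : X, ‖w - x‖ ≤ r * ‖x‖ → ‖‖x‖⁻¹ • w - unit x‖ ≤ r := fun w hw => by
    rw [unit, ← smul_sub, norm_smul, norm_inv, norm_norm, inv_mul_le_iff₀ ht, mul_comm]
    exact hw
  have h1 := h _ _ (hscale y hy) (hscale z hz)
  simp only [← smul_sub, map_smul, norm_smul, norm_inv, norm_norm, smul_eq_mul] at h1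
  rw [← mul_sub, ← mul_sub, norm_mul, norm_inv, norm_norm, inv_mul_le_iff₀ ht] at h1
  refine h1.trans (le_of_eq ?_)
  field_simp

lemma hasFDerivAt_norm {x : X} (hx : x ≠ 0) : HasFDerivAt (fun y : X => ‖y‖) (dn x) x :=
  (hX.c11At_norm hx).hasFDerivAt

/-- The derivative is the only functional of norm at most one which norms `x`. -/
lemma eq_dn {x : X} (hx : x ≠ 0) {p : X →L[ℝ] ℝ} (h : ‖p‖ ≤ 1) (hp : p x = ‖x‖) : p = dn x := by
  have hmin : IsLocalMin (fun y : X => ‖y‖ - p y) x := Eventually.of_forall fun y => by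
    have := (le_abs_self _).trans ((p.le_opNorm y).trans
      (mul_le_of_le_one_left (norm_nonneg y) h))
    show ‖x‖ - p x ≤ ‖y‖ - p y
    linarith
  have := hmin.hasFDerivAt_eq_zero ((hX.hasFDerivAt_norm hx).sub p.hasFDerivAt)
  exact (sub_eq_zero.1 this).symm

lemma dn_spec {x : X} (hx : x ≠ 0) : ‖dn x‖ = 1 ∧ dn x x = ‖x‖ := by
  have : Nontrivial X := ⟨⟨x, 0, hx⟩⟩
  obtain ⟨p, hp, hp'⟩ := exists_dual_vector' ℝ x
  simp only [RCLike.ofReal_real_eq_id, id_eq] at hp'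
  rw [← hX.eq_dn hx hp.le hp']
  exact ⟨hp, hp'⟩

lemma dn_le {x : X} (hx : x ≠ 0) (y : X) : |dn x y| ≤ ‖y‖ := by
  have := (dn x).le_opNorm y
  rwa [(hX.dn_spec hx).1, one_mul] at this

lemma dn_smul {x : X} (hx : x ≠ 0) {t : ℝ} (ht : 0 < t) : dn (t • x) = dn x := by
  refine (hX.eq_dn (smul_ne_zero ht.ne' hx) (hX.dn_spec hx).1.le ?_).symm
  rw [map_smul, (hX.dn_spec hx).2, norm_smul, Real.norm_of_nonneg ht.le, smul_eq_mul]

lemma dn_neg {x : X} (hx : x ≠ 0) : dn (-x) = -dn x := by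
  refine (hX.eq_dn (neg_ne_zero.2 hx) (by rw [norm_neg]; exact (hX.dn_spec hx).1.le) ?_).symm
  rw [neg_apply, map_neg, neg_neg, norm_neg]
  exact (hX.dn_spec hx).2

lemma dn_unit {x : X} (hx : x ≠ 0) : dn (unit x) = dn x :=
  hX.dn_smul hx (inv_pos.2 (norm_pos_iff.2 hx))

lemma rot_eq {a b : X} (ha : ‖a‖ = 1) (hb : ‖b‖ = 1) (h : 2 ≤ ‖a + b‖) : a = b := by
  by_contra hne
  obtain ⟨η, hη, hlur⟩ := hX.lur b hb ‖a - b‖ (norm_pos_iff.2 (sub_ne_zero.2 hne))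
  linarith [hlur a ha le_rfl]

/-- A unit vector whose sum with `x` is nearly of norm two is near `x`. -/
lemma lur_close {x : X} (hx : ‖x‖ = 1) {ε : ℝ} (hε : 0 < ε) : ∃ η > (0 : ℝ), ∀ a : X, ‖a‖ = 1 →
    2 - η < dn x a + 1 → ‖a - x‖ < ε := by
  obtain ⟨η, hη, h⟩ := hX.lur x hx ε hε
  refine ⟨η, hη, fun a ha hlt => ?_⟩
  by_contra hfar
  have h1 := (le_abs_self _).trans (hX.dn_le (ne_zero_of_norm_one hx) (a + x))
  rw [map_add, (hX.dn_spec (ne_zero_of_norm_one hx)).2, hx] at h1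
  linarith [h a ha (le_of_not_gt hfar)]

/-- The functionals of points near a point of the sphere norm the space. -/
lemma norming {w : X} (hw : ‖w‖ = 1) {ρ : ℝ} (hρ : 0 < ρ) : ∃ K : ℝ, 0 ≤ K ∧ ∀ (u : X) (B : ℝ),
    0 ≤ B → (∀ e : X, ‖e‖ = 1 → ‖e - w‖ ≤ ρ → |dn e u| ≤ B) → ‖u‖ ≤ K * B := by
  have hw0 := ne_zero_of_norm_one hw
  set d := min (1 / 4) (ρ / 4) with hd
  have hd0 : 0 < d := by positivity
  have hd4 : d ≤ 1 / 4 := min_le_left _ _
  have hdρ : d ≤ ρ / 4 := min_le_right _ _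
  obtain ⟨η, hη, hclose⟩ := hX.lur_close hw (half_pos hd0)
  set c := min (η / 3) (d / 4) with hc
  have hc0 : 0 < c := by positivity
  refine ⟨d / c, by positivity, fun u B hB hu => ?_⟩
  rcases eq_or_ne u 0 with rfl | hu0
  · simpa using by positivity
  have hu1 : 0 < ‖u‖ := norm_pos_iff.2 hu0
  set t := d / ‖u‖
  have ht : 0 < t := by positivity
  set h := t • u
  have hh : ‖h‖ = d := by
    rw [show h = t • u from rfl, norm_smul, Real.norm_of_nonneg ht.le]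
    exact div_mul_cancel₀ d hu1.ne'
  have hhu : ∀ e : X, ‖e‖ = 1 → ‖e - w‖ ≤ ρ → |dn e h| ≤ t * B := fun e he hew => by
    rw [map_smul, smul_eq_mul, abs_mul, abs_of_pos ht]
    exact mul_le_mul_of_nonneg_left (hu e he hew) ht.le
  suffices hmain : c ≤ t * B by
    have := mul_le_mul_of_nonneg_right hmain hu1.le
    rw [mul_right_comm, div_mul_cancel₀ d hu1.ne'] at this
    rw [div_mul_eq_mul_div, le_div_iff₀ hc0]
    linarith
  by_contra hlt
  rw [not_le] at hlt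
  have hB' : t * B < η / 3 ∧ t * B < d / 4 :=
    ⟨hlt.trans_le (min_le_left _ _), hlt.trans_le (min_le_right _ _)⟩
  have hwh := abs_norm_sub_norm_le (w + h) w
  rw [hw, add_sub_cancel_left, hh, abs_le] at hwh
  have hne : w + h ≠ 0 := norm_pos_iff.1 (by linarith)
  set s := ‖w + h‖ with hs
  set e := unit (w + h)
  have he : ‖e‖ = 1 := norm_unit hne
  have hew : ‖e - w‖ ≤ ρ := by
    have h1 := norm_unit_sub_unit_le hw0 hne
    rw [hw, div_one, unit, hw, inv_one, one_smul, sub_add_cancel_left, norm_neg, hh,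
      norm_sub_rev w] at h1
    linarith
  have b1 := abs_le.1 (hhu w hw (by simpa using hρ.le))
  have b2 := abs_le.1 (hhu e he hew)
  have b3 : s ≤ 1 + t * B := by
    have h1 := (hX.dn_spec hne).2
    rw [← hX.dn_unit hne, map_add, ← hs] at h1
    have h2 := (le_abs_self _).trans (hX.dn_le (ne_zero_of_norm_one he) w)
    rw [hw] at h2
    linarith
  have b4 : 1 - t * B ≤ s := by
    have h1 := (le_abs_self _).trans (hX.dn_le hw0 (w + h))
    rw [map_add, (hX.dn_spec hw0).2, hw, ← hs] at h1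
    linarith
  have hs0 : 0 < s := by linarith
  have hclose' := hclose e he (by
    rw [show dn w e = s⁻¹ * (1 + dn w h) by
      simp only [e, unit, ← hs, map_smul, map_add, smul_eq_mul, (hX.dn_spec hw0).2, hw]]
    have : 1 - η < s⁻¹ * (1 + dn w h) := by
      rw [lt_inv_mul_iff₀ hs0]
      nlinarith
    linarith)
  have h5 : h = (s - 1) • e + (e - w) := by
    rw [sub_smul, one_smul, show s • e = w + h from smul_unit hne]; abel
  have h6 := norm_add_le ((s - 1) • e) (e - w)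
  rw [← h5, hh, norm_smul, he, mul_one, Real.norm_eq_abs] at h6
  have h7 : |s - 1| ≤ t * B := abs_le.2 ⟨by linarith, by linarith⟩
  linarith

end Nice

end Vale.Agent.P084.Smooth
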