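import Vale.Agent.P084.Smooth.Ext

/-!
Second order regularity of isometries of spheres.
-/

open Set Filter Topology Metric ContinuousLinearMap

namespace Vale.Agent.P084.Smooth

lemma C11At.map2 {E A B H : Type*} [NormedAddCommGroup E] [NormedSpace ℝ E]
    [NormedAddCommGroup A] [NormedSpace ℝ A] [NormedAddCommGroup B] [NormedSpace ℝ B]
    [NormedAddCommGroup H] [NormedSpace ℝ H] {φ : A × B → H} (hφ : ContDiff ℝ 2 φ)
    {f : E → A} {g : E → B} {x : E} (hf : C11At f x) (hg : C11At g x) :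
    C11At (fun y => φ (f y, g y)) x :=
  (C11At.of_contDiffAt hφ.contDiffAt).comp (g := fun y => (f y, g y)) (hf.prodMk hg)

lemma unit_mid_dist {X : Type*} [NormedAddCommGroup X] [NormedSpace ℝ X] {x y : X}
    (h : 1 ≤ ‖x + y‖) (h2 : ‖x + y‖ ≤ 2) :
    ‖unit (x + y) - x‖ ≤ ‖y - x‖ / 2 + (2 - ‖x + y‖) / 2 := by
  rw [show unit (x + y) - x = (2 : ℝ)⁻¹ • (y - x) + (‖x + y‖⁻¹ - 2⁻¹) • (x + y) by
    rw [unit]; module]
  refine (norm_add_le _ _).trans ?_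
  rw [norm_smul, norm_smul, Real.norm_eq_abs, Real.norm_eq_abs, abs_inv, abs_two,
    abs_of_nonneg (sub_nonneg.2 (by gcongr)), sub_mul, inv_mul_cancel₀ (by linarith)]
  linarith

lemma mid_err {Y : Type*} [NormedAddCommGroup Y] [NormedSpace ℝ Y] (u v w a : Y) {s C : ℝ}
    (hs : 1 ≤ s) (hC : 0 ≤ C) (h1 : ‖v - u - a‖ ≤ C)
    (h2 : ‖(2 : ℝ)⁻¹ • w - u - (2 : ℝ)⁻¹ • a‖ ≤ C / 4) :
    ‖s⁻¹ • (u + v) - s⁻¹ • w‖ ≤ 2 * C := by
  rw [show s⁻¹ • (u + v) - s⁻¹ • w = s⁻¹ • ((v - u - a) -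
    (2 : ℝ) • ((2 : ℝ)⁻¹ • w - u - (2 : ℝ)⁻¹ • a)) by module, norm_smul, norm_inv,
    Real.norm_of_nonneg (by linarith : 0 ≤ s), inv_mul_le_iff₀ (by linarith)]
  refine (norm_sub_le _ _).trans ?_
  rw [norm_smul, Real.norm_two]
  nlinarith

lemma cubic_arith {t CY CF CX a b nd ne : ℝ} (hne : 0 ≤ ne) (ht : 0 ≤ t) (ht1 : t ≤ 1)
    (hY : 0 ≤ CY) (hF : 0 ≤ CF) (hX : 0 ≤ CX) (hd : 0 ≤ nd) (hd1 : nd ≤ 2 * CF * t ^ 2)
    (ha : |a| ≤ CY * nd ^ 2) (hb : |b - a| ≤ ne * nd) (he : ne ≤ CY * (3 * (t / 2 + CX * t / 2))) :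
    |b| ≤ (4 * CY * CF ^ 2 + 6 * CY * CF * (1 + CX)) * t ^ 3 := by
  have h1 : nd ^ 2 ≤ 4 * CF ^ 2 * t ^ 3 := by
    refine (pow_le_pow_left₀ hd hd1 2).trans ?_
    nlinarith [mul_nonneg (mul_nonneg (sq_nonneg CF) (pow_nonneg ht 3))
      (show 0 ≤ 1 - t by linarith)]
  have h2 := mul_le_mul_of_nonneg_left h1 hY
  have h3 : ne * nd ≤ CY * (3 * (t / 2 + CX * t / 2)) * (2 * CF * t ^ 2) :=
    mul_le_mul he hd1 hd (by positivity)
  have h4 : 0 ≤ CY * CF * (1 + CX) * t ^ 3 := by positivity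
  have h5 := abs_le.1 (ha.trans h2)
  have h6 := abs_le.1 (hb.trans h3)
  rw [abs_le]; constructor <;> linarith [h5.1, h5.2, h6.1, h6.2]

namespace Ext

variable {X Y : Type*} [NormedAddCommGroup X] [NormedSpace ℝ X]
  [NormedAddCommGroup Y] [NormedSpace ℝ Y] (S : Ext X Y) (hX : Nice X) (hY : Nice Y)

include hX hY

lemma hasFDerivAt_F {x : X} (hx : x ≠ 0) : HasFDerivAt S.F (fderiv ℝ S.F x) x :=
  (S.c11At_F hX hY hx).hasFDerivAt

lemma c11At_G {w : Y} (hw : w ≠ 0) : C11At S.G w := S.symm.c11At_F hY hX hw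

lemma fderiv_G_F {x : X} (hx : x ≠ 0) :
    (fderiv ℝ S.G (S.F x)).comp (fderiv ℝ S.F x) = ContinuousLinearMap.id ℝ X := by
  have h := ((S.c11At_G hX hY (S.F_ne hx)).hasFDerivAt).comp x (S.hasFDerivAt_F hX hY hx)
  rw [show S.G ∘ S.F = id from funext S.GF] at h
  exact h.unique (hasFDerivAt_id x)

lemma fderiv_F_G {x : X} (hx : x ≠ 0) :
    (fderiv ℝ S.F x).comp (fderiv ℝ S.G (S.F x)) = ContinuousLinearMap.id ℝ Y := by
  have := S.symm.fderiv_G_F hY hX (S.F_ne hx)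
  simpa only [symm, S.GF] using this

omit hY in
lemma norm_fderiv_F_le (x : X) : ‖fderiv ℝ S.F x‖ ≤ 3 := by
  have := norm_fderiv_le_of_lipschitz ℝ (x₀ := x) (f := S.F)
    (LipschitzWith.of_dist_le_mul (K := 3) fun a b => by
      rw [dist_eq_norm, dist_eq_norm]; exact_mod_cast S.lipF a b)
  simpa using this

lemma dn_comp_fderiv {x : X} (hx : x ≠ 0) : (dn (S.F x)).comp (fderiv ℝ S.F x) = dn x := by
  have h := (hY.hasFDerivAt_norm (S.F_ne hx)).comp x (S.hasFDerivAt_F hX hY hx)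
  rw [show (fun y : Y => ‖y‖) ∘ S.F = fun y => ‖y‖ from funext S.norm_F] at h
  exact h.unique (hX.hasFDerivAt_norm hx)

/-- One halving step. -/
lemma cubic_step {x₀ x y : X} (hx : ‖x‖ = 1) (hy : ‖y‖ = 1) {r1 r3 CF CX CY : ℝ} (hCF : 0 ≤ CF)
    (hCX : 0 ≤ CX) (hCY : 0 ≤ CY)
    (hF : ∀ u v, ‖u - x₀‖ ≤ r1 → ‖v - x₀‖ ≤ r1 →
      ‖S.F v - S.F u - fderiv ℝ S.F u (v - u)‖ ≤ CF * ‖v - u‖ ^ 2)
    (hM : ∀ a b : Y, ‖a - S.F x₀‖ ≤ r3 → ‖b - S.F x₀‖ ≤ r3 →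
      ‖‖b‖ - ‖a‖ - dn a (b - a)‖ ≤ CY * ‖b - a‖ ^ 2 ∧ ‖dn b - dn a‖ ≤ CY * ‖b - a‖)
    (hs : 2 - CX * ‖y - x‖ ^ 2 ≤ ‖x + y‖) (ht1 : CX * ‖y - x‖ ≤ 1 / 16) (ht16 : ‖y - x‖ ≤ 1 / 16)
    (hr1 : ‖x - x₀‖ + ‖y - x‖ ≤ r1) (hr3 : 3 * ‖x - x₀‖ + 3 * ‖y - x‖ ≤ r3) :
    ∃ m, ‖m‖ = 1 ∧ ‖m - x‖ ≤ 9 / 16 * ‖y - x‖ ∧
      |dn (S.F x) (S.F y) - dn x y| ≤ 2 * |dn (S.F x) (S.F m) - dn x m| +
        2 * (4 * CY * CF ^ 2 + 6 * CY * CF * (1 + CX)) * ‖y - x‖ ^ 3 := by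
  have hxne := ne_zero_of_norm_one hx
  have hFx1 : ‖S.F x‖ = 1 := by rw [S.norm_F, hx]
  set K := 4 * CY * CF ^ 2 + 6 * CY * CF * (1 + CX) with hKdef
  set t := ‖y - x‖
  have ht : 0 ≤ t := norm_nonneg _
  set s := ‖x + y‖ with hsdef
  have ht2 : CX * t ^ 2 ≤ 1 / 16 * t := by nlinarith
  have hs1 : 1 ≤ s := by linarith
  have hs2 : s ≤ 2 := by have := norm_add_le x y; linarith
  have hsne : x + y ≠ 0 := norm_pos_iff.1 (by linarith)
  have hab : ‖x‖ = ‖y‖ := by rw [hx, hy]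
  have hFs : ‖S.F x + S.F y‖ = s := S.sum hX hab
  set m := unit (x + y) with hm
  have hm1 : ‖m‖ = 1 := norm_unit hsne
  have hmx0 : ‖m - x‖ ≤ t / 2 + CX * t ^ 2 / 2 :=
    (unit_mid_dist hs1 hs2).trans (by linarith)
  have hmx : ‖m - x‖ ≤ 9 / 16 * t := by linarith
  have hm3 : ‖S.F m - S.F x₀‖ ≤ r3 := (S.lipF m x₀).trans (by
    linarith [norm_sub_le_norm_sub_add_norm_sub m x x₀])
  refine ⟨m, hm1, hmx, ?_⟩
  set d := s⁻¹ • (S.F x + S.F y) - S.F m with hd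
  have hmid : ‖(2 : ℝ)⁻¹ • (x + y) - x‖ = t / 2 := by
    rw [show (2 : ℝ)⁻¹ • (x + y) - x = (2 : ℝ)⁻¹ • (y - x) by module, norm_smul]
    norm_num; ring
  have q1 := hF x y (by linarith) (by linarith [norm_sub_le_norm_sub_add_norm_sub y x x₀])
  have q2 := hF x ((2 : ℝ)⁻¹ • (x + y)) (by linarith) (by
    linarith [norm_sub_le_norm_sub_add_norm_sub ((2 : ℝ)⁻¹ • (x + y)) x x₀])
  rw [hmid, show (2 : ℝ)⁻¹ • (x + y) - x = (2 : ℝ)⁻¹ • (y - x) by module, map_smul,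
    S.smul_F _ _ (by norm_num)] at q2
  have hd1 : ‖d‖ ≤ 2 * CF * t ^ 2 := by
    rw [hd, hm, unit, S.smul_F _ _ (inv_nonneg.2 (norm_nonneg _)), ← hsdef, mul_assoc]
    exact mid_err _ _ _ _ hs1 (by positivity) q1 (q2.trans (le_of_eq (by ring)))
  have hw : ‖s⁻¹ • (S.F x + S.F y)‖ = 1 := by
    rw [norm_smul, norm_inv, hFs, Real.norm_of_nonneg (by linarith : 0 ≤ s),
      inv_mul_cancel₀ (by linarith)]
  have hwnear : ‖s⁻¹ • (S.F x + S.F y) - S.F x₀‖ ≤ r3 := by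
    have h1 := norm_sub_le_norm_sub_add_norm_sub (s⁻¹ • (S.F x + S.F y)) (S.F x) (S.F x₀)
    have h2 : ‖s⁻¹ • (S.F x + S.F y) - S.F x‖ ≤ 2 * t := by
      have h3 := norm_unit_sub_unit_le (a := S.F x + S.F y) (b := (2 : ℝ) • S.F x)
        (norm_pos_iff.1 (by rw [hFs]; linarith)) (smul_ne_zero two_ne_zero (S.F_ne hxne))
      rw [unit, hFs, unit, norm_smul, Real.norm_two, hFx1, mul_one, smul_smul,
        inv_mul_cancel₀ (two_ne_zero' ℝ), one_smul,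
        show S.F x + S.F y - (2 : ℝ) • S.F x = S.F y - S.F x by module, S.iso _ _ hy hx] at h3
      refine h3.trans ?_
      rw [div_le_iff₀ (by linarith)]; nlinarith
    linarith [S.lipF x x₀]
  have e1 := (hM (S.F m) _ hm3 hwnear).1
  have e2 := (hM (S.F m) (S.F x) hm3 ((S.lipF x x₀).trans (by linarith))).2
  change ‖_ - _ - dn (S.F m) d‖ ≤ _ at e1
  rw [hw, S.norm_F, hm1, sub_self, zero_sub, norm_neg, ← hd, Real.norm_eq_abs] at e1
  change ‖dn (S.F x) - dn (S.F m)‖ ≤ _ at e2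
  have e3 : |dn (S.F x) d| ≤ K * t ^ 3 := by
    have h1 := (dn (S.F x) - dn (S.F m)).le_opNorm d
    rw [sub_apply, Real.norm_eq_abs] at h1
    refine cubic_arith (norm_nonneg _) ht (by linarith) hCY hCF hCX (norm_nonneg d) hd1 e1 h1
      (e2.trans (mul_le_mul_of_nonneg_left ?_ hCY))
    refine (S.lipF x m).trans ?_
    rw [norm_sub_rev]
    have h3 : CX * t ^ 2 ≤ CX * t := mul_le_mul_of_nonneg_left (by nlinarith) hCX
    linarith
  have e4 : dn (S.F x) (S.F y) - dn x y =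
      s * (dn (S.F x) (S.F m) - dn x m) + s * dn (S.F x) d := by
    have h1 : dn x m = s⁻¹ * (1 + dn x y) := by
      rw [hm, unit, map_smul, map_add, (hX.dn_spec hxne).2, hx, smul_eq_mul]
    rw [hd, map_sub, map_smul, map_add, (hY.dn_spec (S.F_ne hxne)).2, hFx1, smul_eq_mul, h1,
      ← mul_add]
    have : s ≠ 0 := by linarith
    field_simp
    ring
  rw [e4]
  refine (abs_add_le _ _).trans ?_
  rw [abs_mul, abs_mul, abs_of_nonneg (by linarith : 0 ≤ s), mul_assoc (2 : ℝ)]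
  exact add_le_add (mul_le_mul_of_nonneg_right hs2 (abs_nonneg _))
    (mul_le_mul hs2 e3 (abs_nonneg _) two_pos.le)

/-- The two distance functions to a point of the sphere have equal slopes up to third order. -/
lemma cubic_sphere {x₀ : X} (hx₀ : ‖x₀‖ = 1) : ∃ ρ > (0 : ℝ), ∃ L : ℝ, 0 ≤ L ∧
    ∀ x, ‖x‖ = 1 → ‖x - x₀‖ ≤ ρ → ∀ y, ‖y‖ = 1 → ‖y - x‖ ≤ ρ →
      |dn (S.F x) (S.F y) - dn x y| ≤ L * ‖y - x‖ ^ 3 := by
  have hx0 := ne_zero_of_norm_one hx₀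
  obtain ⟨r1, hr1, CF, hCF, hF⟩ := (S.c11At_F hX hY hx0).data
  obtain ⟨r2, hr2, CX, hCX, hN⟩ := (hX.c11At_norm hx0).data
  obtain ⟨r3, hr3, CY, hCY, hM⟩ := (hY.c11At_norm (S.F_ne hx0)).data
  set ρ := min (min (r1 / 4) (r2 / 4)) (min (r3 / 16) (1 / (16 * (CX + 1)))) with hρ
  have hρ0 : 0 < ρ := by positivity
  set K := 2 * (4 * CY * CF ^ 2 + 6 * CY * CF * (1 + CX)) with hKdef
  have hK : 0 ≤ K := by positivity
  refine ⟨ρ, hρ0, 2 * K, by positivity, fun x hx hxd => ?_⟩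
  have hρ1 : ρ ≤ r1 / 4 := (min_le_left _ _).trans (min_le_left _ _)
  have hρ2 : ρ ≤ r2 / 4 := (min_le_left _ _).trans (min_le_right _ _)
  have hρ3 : ρ ≤ r3 / 16 := (min_le_right _ _).trans (min_le_left _ _)
  have hρ4 : ρ * (CX + 1) ≤ 1 / 16 := by
    have : ρ ≤ 1 / (16 * (CX + 1)) := (min_le_right _ _).trans (min_le_right _ _)
    rw [le_div_iff₀ (by positivity)] at this
    linarith
  have hρ5 : ρ ≤ 1 / 16 := by nlinarith
  have hxne := ne_zero_of_norm_one hx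
  have hFx1 : ‖S.F x‖ = 1 := by rw [S.norm_F, hx]
  have hnear : ∀ y, ‖y - x‖ ≤ ρ → ‖y - x₀‖ ≤ r1 ∧ ‖y - x₀‖ ≤ r2 ∧ ‖S.F y - S.F x₀‖ ≤ r3 := by
    intro y hy
    have := norm_sub_le_norm_sub_add_norm_sub y x x₀
    exact ⟨by linarith, by linarith, (S.lipF y x₀).trans (by linarith)⟩
  have hxn := hnear x (by simpa using hρ0.le)
  have prior : ∀ y, ‖y‖ = 1 → ‖y - x‖ ≤ ρ →
      |dn (S.F x) (S.F y) - dn x y| ≤ (CX + CY) * ‖y - x‖ ^ 2 ∧ 2 - CX * ‖y - x‖ ^ 2 ≤ ‖x + y‖ := by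
    intro y hy hyd
    obtain ⟨-, n2, n3⟩ := hnear y hyd
    have a := ((hN x hxn.2.1).2 y n2).1
    have b := ((hM (S.F x) hxn.2.2).2 (S.F y) n3).1
    change ‖‖y‖ - ‖x‖ - dn x (y - x)‖ ≤ _ at a
    change ‖‖S.F y‖ - ‖S.F x‖ - dn (S.F x) (S.F y - S.F x)‖ ≤ _ at b
    rw [S.iso _ _ hy hx, S.norm_F, hy, hFx1, map_sub, (hY.dn_spec (S.F_ne hxne)).2, hFx1,
      Real.norm_eq_abs, abs_le] at b
    rw [hy, hx, map_sub, (hX.dn_spec hxne).2, hx, Real.norm_eq_abs, abs_le] at a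
    have h1 := (le_abs_self _).trans (hX.dn_le hxne (x + y))
    rw [map_add, (hX.dn_spec hxne).2, hx] at h1
    constructor
    · rw [abs_le]; constructor <;> linarith
    · linarith
  have step : ∀ y, ‖y‖ = 1 → ‖y - x‖ ≤ ρ → ∃ m, ‖m‖ = 1 ∧ ‖m - x‖ ≤ 9 / 16 * ‖y - x‖ ∧
      |dn (S.F x) (S.F y) - dn x y| ≤
        2 * |dn (S.F x) (S.F m) - dn x m| + K * ‖y - x‖ ^ 3 := by
    intro y hy hyd
    obtain ⟨-, hs⟩ := prior y hy hyd
    have ht := norm_nonneg (y - x)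
    exact S.cubic_step hX hY hx hy hCF hCX hCY
      (fun u v hu hv => ((hF u hu).2 v hv).1)
      (fun a b ha hb => ⟨((hM a ha).2 b hb).1, ((hM a ha).2 b hb).2.1⟩)
      hs (by nlinarith) (by linarith) (by linarith) (by linarith)
  have iter : ∀ n : ℕ, ∀ y, ‖y‖ = 1 → ‖y - x‖ ≤ ρ → |dn (S.F x) (S.F y) - dn x y| ≤
      (CX + CY) * (2 / 3) ^ n * ‖y - x‖ ^ 2 + 2 * K * ‖y - x‖ ^ 3 := by
    intro n
    induction n with
    | zero =>
      intro y hy hyd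
      have := (prior y hy hyd).1
      have : 0 ≤ 2 * K * ‖y - x‖ ^ 3 := by positivity
      simp only [pow_zero, mul_one]
      linarith
    | succ n ih =>
      intro y hy hyd
      obtain ⟨m, hm1, hmx, hle⟩ := step y hy hyd
      have h1 := ih m hm1 (by linarith [norm_nonneg (y - x)])
      have h2 : ‖m - x‖ ^ 2 ≤ 81 / 256 * ‖y - x‖ ^ 2 := by
        refine (pow_le_pow_left₀ (norm_nonneg _) hmx 2).trans (le_of_eq ?_); ring
      have h3 : ‖m - x‖ ^ 3 ≤ 729 / 4096 * ‖y - x‖ ^ 3 := by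
        refine (pow_le_pow_left₀ (norm_nonneg _) hmx 3).trans (le_of_eq ?_); ring
      have ha : 0 ≤ (CX + CY) * (2 / 3 : ℝ) ^ n := by positivity
      have h4 := mul_le_mul_of_nonneg_left h2 ha
      have h5 := mul_le_mul_of_nonneg_left h3 hK
      have h6 : 0 ≤ K * ‖y - x‖ ^ 3 := by positivity
      have h7 : 0 ≤ (CX + CY) * (2 / 3 : ℝ) ^ n * ‖y - x‖ ^ 2 := by positivity
      rw [pow_succ]
      linarith
  intro y hy hyd
  have : Tendsto (fun n : ℕ => (CX + CY) * (2 / 3 : ℝ) ^ n * ‖y - x‖ ^ 2 + 2 * K * ‖y - x‖ ^ 3)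
      atTop (𝓝 (2 * K * ‖y - x‖ ^ 3)) := by
    simpa using (((tendsto_pow_atTop_nhds_zero_of_lt_one (by norm_num : (0 : ℝ) ≤ 2 / 3)
      (by norm_num)).const_mul (CX + CY)).mul_const (‖y - x‖ ^ 2)).add_const (2 * K * ‖y - x‖ ^ 3)
  exact ge_of_tendsto' this fun n => iter n y hy hyd

/-- The same off the sphere. -/
lemma cubic {x₀ : X} (hx₀ : x₀ ≠ 0) : ∃ ρ > (0 : ℝ), ∃ L : ℝ, 0 ≤ L ∧
    ∀ x y, ‖x - x₀‖ ≤ ρ → ‖y - x₀‖ ≤ ρ →
      |dn (S.F x) (S.F y) - dn x y| ≤ L * ‖y - x‖ ^ 3 := by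
  obtain ⟨ρ, hρ, L, hL, h⟩ := S.cubic_sphere hX hY (norm_unit hx₀)
  set c := ‖x₀‖
  have hc : 0 < c := norm_pos_iff.2 hx₀
  refine ⟨min (c / 2) (ρ * c / 8), by positivity, 128 * L / c ^ 2, by positivity,
    fun x y hx hy => ?_⟩
  have hs : ∀ z, ‖z - x₀‖ ≤ c / 2 → c / 2 ≤ ‖z‖ ∧ ‖z‖ ≤ 2 * c := fun z hz => by
    have := abs_le.1 (abs_norm_sub_norm_le z x₀)
    constructor <;> linarith
  obtain ⟨hx1, hx2⟩ := hs x (hx.trans (min_le_left _ _))
  obtain ⟨hy1, hy2⟩ := hs y (hy.trans (min_le_left _ _))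
  have hxne : x ≠ 0 := norm_pos_iff.1 (by linarith)
  have hyne : y ≠ 0 := norm_pos_iff.1 (by linarith)
  have hd : ‖unit y - unit x‖ ≤ 4 * ‖y - x‖ / c := by
    refine (norm_unit_sub_unit_le hyne hxne).trans ?_
    rw [div_le_div_iff₀ (by linarith) hc]
    nlinarith [norm_nonneg (y - x)]
  have hxy : ‖y - x‖ ≤ 2 * (ρ * c / 8) := by
    linarith [norm_sub_le_norm_sub_add_norm_sub y x₀ x, norm_sub_rev x x₀,
      hx.trans (min_le_right _ _), hy.trans (min_le_right _ _)]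
  have h0 : ‖unit x - unit x₀‖ ≤ ρ := by
    refine (norm_unit_sub_unit_le hxne hx₀).trans ?_
    rw [div_le_iff₀ (by linarith)]
    nlinarith [hx.trans (min_le_right _ _)]
  have := h (unit x) (norm_unit hxne) h0 (unit y) (norm_unit hyne)
    (hd.trans (by rw [div_le_iff₀ hc]; linarith))
  rw [S.F_unit x, hY.dn_unit (S.F_ne hxne), hX.dn_unit hxne, unit,
    S.smul_F _ _ (inv_nonneg.2 (norm_nonneg _)), map_smul, map_smul, smul_eq_mul, smul_eq_mul,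
    ← mul_sub, abs_mul, abs_inv, abs_norm, inv_mul_le_iff₀ (by linarith)] at this
  refine this.trans ?_
  have h3 : ‖y‖⁻¹ • y - unit x = unit y - unit x := rfl
  rw [h3]
  calc ‖y‖ * (L * ‖unit y - unit x‖ ^ 3) ≤ 2 * c * (L * (4 * ‖y - x‖ / c) ^ 3) := by gcongr
    _ = 128 * L / c ^ 2 * ‖y - x‖ ^ 3 := by field_simp; ring

variable (hdX : ∀ x : X, x ≠ 0 → C11At dn x)
include S hdX

/-- The derivative of the norm of `Y`, pulled back, is differentiable. -/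
theorem c11At_gamma {x₀ : X} (hx₀ : x₀ ≠ 0) : C11At (fun x => dn (S.F x)) x₀ ∧
    ∀ a, fderiv ℝ (fun x => dn (S.F x)) x₀ a =
      (fderiv ℝ dn x₀ a).comp (fderiv ℝ S.G (S.F x₀)) := by
  obtain ⟨ρ, hρ, L, hL, hcub⟩ := S.cubic hX hY hx₀
  obtain ⟨r1, hr1, CF, hCF, hF⟩ := (S.c11At_F hX hY hx₀).data
  obtain ⟨r2, hr2, CN, hCN, hN⟩ := (hdX x₀ hx₀).data
  obtain ⟨r3, hr3, CM, hCM, hM⟩ := (hY.c11At_norm (S.F_ne hx₀)).data
  obtain ⟨r4, hr4, CG, hCG, hG⟩ := (S.c11At_G hX hY (S.F_ne hx₀)).data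
  set c := ‖x₀‖
  have hc : 0 < c := norm_pos_iff.2 hx₀
  set r := min (min (min ρ r1) (min r2 (r3 / 3))) (min (r4 / 3) (c / 2))
  have hr : 0 < r := by positivity
  set M := ‖fderiv ℝ dn x₀‖ + CN * r2
  set K := 10 * L + 3 * CM * CF
  suffices h : ∀ x, ‖x - x₀‖ ≤ r / 4 → ∀ y, ‖y - x₀‖ ≤ r / 4 →
      ‖dn (S.F y) - dn (S.F x) -
        ((compL ℝ Y X ℝ).flip (fderiv ℝ S.G (S.F x))).comp (fderiv ℝ dn x) (y - x)‖ ≤
          (3 * CN + 3 * M * CG + 3 * K) * ‖y - x‖ ^ 2 by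
    refine ⟨.of_exists ⟨r / 4, by positivity, _, fun x hx => ⟨_, fun y hy => h x hx y hy⟩⟩,
      fun a => ?_⟩
    rw [(hasFDerivAt_of_quad (g := fun x => dn (S.F x)) (by positivity : 0 < r / 4)
      fun y hy => h x₀ (by simpa using by positivity) y hy).fderiv]
    rfl
  intro x hx y hy
  have hall : ∀ z, ‖z - x₀‖ ≤ r → ‖z - x₀‖ ≤ ρ ∧ ‖z - x₀‖ ≤ r1 ∧ ‖z - x₀‖ ≤ r2 ∧
      ‖S.F z - S.F x₀‖ ≤ r3 ∧ ‖S.F z - S.F x₀‖ ≤ r4 ∧ z ≠ 0 := fun z hz => by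
    have h1 := hz.trans ((min_le_left _ _).trans (min_le_left _ _))
    have h2 := hz.trans ((min_le_left _ _).trans (min_le_right _ _))
    refine ⟨h1.trans (min_le_left _ _), h1.trans (min_le_right _ _), h2.trans (min_le_left _ _),
      (S.lipF z x₀).trans (by linarith [h2.trans (min_le_right _ _)]),
      (S.lipF z x₀).trans (by linarith [hz.trans ((min_le_right _ _).trans (min_le_left _ _))]),
      fun e => ?_⟩
    rw [e, zero_sub, norm_neg] at hz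
    linarith [hz.trans ((min_le_right _ _).trans (min_le_right _ _))]
  obtain ⟨x1, x2, x3, x4, x5, xne⟩ := hall x (by linarith)
  obtain ⟨y1, y2, y3, y4, y5, yne⟩ := hall y (by linarith)
  set t := ‖y - x‖
  have ht : 0 ≤ t := norm_nonneg _
  set γd := dn (S.F y) - dn (S.F x)
  have hγ : ‖γd‖ ≤ 3 * CM * t := by
    refine ((hM _ x4).2 _ y4).2.1.trans ?_
    nlinarith [S.lipF y x]
  set E := γd.comp (fderiv ℝ S.F y) - (dn y - dn x) with hE
  have hEn : ‖E‖ ≤ K * t ^ 2 := by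
    refine ContinuousLinearMap.opNorm_le_bound _ (by positivity) fun v => ?_
    rcases eq_or_ne v 0 with rfl | hv
    · simp
    rcases eq_or_ne y x with rfl | hne
    · simp [hE, γd]; positivity
    have ht0 : 0 < t := norm_pos_iff.2 (sub_ne_zero.2 hne)
    have hv' : 0 < ‖v‖ := norm_pos_iff.2 hv
    set h := (t / ‖v‖) • v with hh
    have hh1 : ‖h‖ = t := by
      rw [hh, norm_smul, Real.norm_of_nonneg (div_nonneg ht hv'.le)]
      field_simp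
    have htr : t ≤ r / 2 := by
      linarith [norm_sub_le_norm_sub_add_norm_sub y x₀ x, norm_sub_rev x x₀]
    obtain ⟨z1, z2, -, -, -, -⟩ := hall (y + h) (by
      have := norm_add_le (y - x₀) h
      rw [show y - x₀ + h = y + h - x₀ by abel] at this
      linarith)
    have a1 := hcub y (y + h) y1 z1
    have a2 := hcub x (y + h) x1 z1
    have a3 := hcub x y x1 y1
    have a4 := ((hF y y2).2 (y + h) z2).1
    rw [add_sub_cancel_left, hh1] at a1 a4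
    have h2 : ‖y + h - x‖ ≤ 2 * t := by
      have := norm_add_le (y - x) h
      rw [show y - x + h = y + h - x by abel] at this
      linarith
    have a5 := a2.trans (mul_le_mul_of_nonneg_left (pow_le_pow_left₀ (norm_nonneg _) h2 3) hL)
    have a6 : |γd (S.F (y + h) - S.F y - fderiv ℝ S.F y h)| ≤ 3 * CM * t * (CF * t ^ 2) :=
      (γd.le_opNorm _).trans (mul_le_mul hγ a4 (norm_nonneg _) (by positivity))
    have a7 : dn (S.F y) (S.F y) - dn y y = 0 := by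
      rw [(hY.dn_spec (S.F_ne yne)).2, (hX.dn_spec yne).2, S.norm_F, sub_self]
    have e : E h = (dn (S.F y) (S.F (y + h)) - dn y (y + h))
        - (dn (S.F x) (S.F (y + h)) - dn x (y + h))
        - ((dn (S.F y) (S.F y) - dn y y) - (dn (S.F x) (S.F y) - dn x y))
        - γd (S.F (y + h) - S.F y - fderiv ℝ S.F y h) := by
      simp only [hE, γd, sub_apply, comp_apply, map_sub, map_add]
      ring
    have hb : |E h| ≤ K * t ^ 2 * t := by
      rw [e, a7]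
      rw [abs_le] at a1 a3 a5 a6 ⊢
      constructor <;> linarith [a1.1, a1.2, a3.1, a3.2, a5.1, a5.2, a6.1, a6.2]
    rw [hh, map_smul, smul_eq_mul, abs_mul, abs_of_pos (div_pos ht0 hv'), div_mul_eq_mul_div,
      div_le_iff₀ hv'] at hb
    rw [Real.norm_eq_abs]
    nlinarith
  set Gy := fderiv ℝ S.G (S.F y)
  set Gx := fderiv ℝ S.G (S.F x)
  set N := fderiv ℝ dn x (y - x) with hNdef
  have hid : γd = (dn y - dn x).comp Gy + E.comp Gy := by
    rw [← add_comp, hE, add_sub_cancel, comp_assoc, S.fderiv_F_G hX hY yne, comp_id]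
  have eq1 : γd - N.comp Gx =
      (dn y - dn x - N).comp Gy + N.comp (Gy - Gx) + E.comp Gy := by
    rw [hid]
    simp only [sub_comp, comp_sub]
    abel
  show ‖γd - N.comp Gx‖ ≤ _
  rw [eq1]
  have hGy : ‖Gy‖ ≤ 3 := S.symm.norm_fderiv_F_le (S.nice_target hX) (S.F y)
  have b1 : ‖(dn y - dn x - N).comp Gy‖ ≤ CN * t ^ 2 * 3 :=
    (opNorm_comp_le _ _).trans (mul_le_mul ((hN x x3).2 y y3).1 hGy (norm_nonneg _) (by positivity))
  have hN1 : ‖N‖ ≤ M * t := by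
    refine (le_opNorm _ _).trans (mul_le_mul_of_nonneg_right ?_ ht)
    refine (norm_le_norm_add_norm_sub' _ (fderiv ℝ dn x₀)).trans (add_le_add le_rfl ?_)
    exact ((hN x₀ (by simpa using hr2.le)).2 x x3).2.1.trans (mul_le_mul_of_nonneg_left x3 hCN)
  have hG1 : ‖Gy - Gx‖ ≤ CG * (3 * t) :=
    ((hG _ x5).2 _ y5).2.1.trans (mul_le_mul_of_nonneg_left (S.lipF y x) hCG)
  have b2 : ‖N.comp (Gy - Gx)‖ ≤ M * t * (CG * (3 * t)) :=
    (opNorm_comp_le _ _).trans (mul_le_mul hN1 hG1 (norm_nonneg _) (by positivity))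
  have b3 : ‖E.comp Gy‖ ≤ K * t ^ 2 * 3 :=
    (opNorm_comp_le _ _).trans (mul_le_mul hEn hGy (norm_nonneg _) (by positivity))
  refine (norm_add₃_le).trans ((add_le_add (add_le_add b1 b2) b3).trans (le_of_eq ?_))
  ring

theorem c11At_dn_target {w : Y} (hw : w ≠ 0) : C11At (dn : Y → Y →L[ℝ] ℝ) w := by
  have h := (S.c11At_gamma hX hY hdX (x₀ := S.G w) fun e => hw (by
    rw [← S.FG w, e, S.F_zero])).1
  refine (h.comp (g := S.G) (S.c11At_G hX hY hw)).congr (Eventually.of_forall fun z => ?_)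
  simp [S.FG]

/-- The pullback of the second derivative of the norm. -/
theorem hess_eq {x : X} (hx : x ≠ 0) (a b : X) :
    fderiv ℝ dn (S.F x) (fderiv ℝ S.F x a) (fderiv ℝ S.F x b) = fderiv ℝ dn x a b := by
  have h := ((S.c11At_dn_target hX hY hdX (S.F_ne hx)).hasFDerivAt).comp x
    (S.hasFDerivAt_F hX hY hx)
  have h2 := (S.c11At_gamma hX hY hdX hx).2 a
  rw [show (fun x => dn (S.F x)) = dn ∘ S.F from rfl, h.fderiv] at h2
  rw [comp_apply] at h2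
  rw [h2, comp_apply]
  exact congrArg _ (DFunLike.congr_fun (S.fderiv_G_F hX hY hx) b)

omit hdX in
/-- The derivative of the chord relation. -/
lemma chord_identity {x₀ y z : X} (hx₀ : ‖x₀‖ = 1) (hz : ‖z‖ = 1) (hy4 : ‖y - x₀‖ ≤ 1 / 4)
    (hz4 : ‖z + x₀‖ ≤ 1 / 4) : (y - ‖y‖ • z ≠ 0 ∧ S.F y - ‖y‖ • S.F z ≠ 0) ∧
    (dn (S.F y - ‖y‖ • S.F z)).comp (fderiv ℝ S.F y) = dn (y - ‖y‖ • z) +
      (dn (S.F y - ‖y‖ • S.F z) (S.F z) - dn (y - ‖y‖ • z) z) • dn y := by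
  have hy0 : y ≠ 0 := fun e => by rw [e, zero_sub, norm_neg, hx₀] at hy4; linarith
  have hne : y - ‖y‖ • z ≠ 0 := fun e => by
    have h1 : ‖(2 : ℝ) • x₀‖ ≤ ‖y - x₀‖ + ‖(‖y‖ - 1) • z‖ + ‖z + x₀‖ := by
      rw [show (2 : ℝ) • x₀ = -(y - x₀) + (‖y‖ - 1) • z + (z + x₀) + (y - ‖y‖ • z) by module,
        e, add_zero]
      exact norm_add₃_le.trans (by rw [norm_neg])
    rw [norm_smul, norm_smul, hx₀, hz, Real.norm_two, Real.norm_eq_abs] at h1
    have h2 := abs_norm_sub_norm_le y x₀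
    rw [hx₀] at h2
    linarith
  have eiso : ∀ w : X, ‖S.F w - ‖w‖ • S.F z‖ = ‖w - ‖w‖ • z‖ := fun w => by
    rw [← S.smul_F _ _ (norm_nonneg w)]
    exact S.iso' (by rw [norm_smul, norm_norm, hz, mul_one])
  have hne' : S.F y - ‖y‖ • S.F z ≠ 0 := by
    rw [← norm_ne_zero_iff, eiso, norm_ne_zero_iff]; exact hne
  have dY := (hY.hasFDerivAt_norm hne').comp y
    ((S.hasFDerivAt_F hX hY hy0).sub ((hX.hasFDerivAt_norm hy0).smul_const (S.F z)))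
  have dX := (hX.hasFDerivAt_norm hne).comp y
    ((hasFDerivAt_id y).sub ((hX.hasFDerivAt_norm hy0).smul_const z))
  rw [show (fun w : Y => ‖w‖) ∘ (S.F - fun w : X => ‖w‖ • S.F z) =
    (fun w : X => ‖w‖) ∘ (id - fun w : X => ‖w‖ • z) from funext eiso] at dY
  have := dY.unique dX
  refine ⟨⟨hne, hne'⟩, ?_⟩
  ext v
  have := DFunLike.congr_fun this v
  simp only [comp_apply, sub_apply, smulRight_apply, map_sub, map_smul, smul_eq_mul,
    id_apply] at this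
  simp only [comp_apply, add_apply, smul_apply, smul_eq_mul]
  linarith

/-- The derivative is `C^{1,1}` on the sphere. -/
theorem c11At_fderiv_of_unit {x₀ : X} (hx₀ : ‖x₀‖ = 1) : C11At (fderiv ℝ S.F) x₀ := by
  have hx0 := ne_zero_of_norm_one hx₀
  have hdY : ∀ w : Y, w ≠ 0 → C11At (dn : Y → Y →L[ℝ] ℝ) w := fun w hw =>
    S.c11At_dn_target hX hY hdX hw
  have hn0 : -x₀ ≠ 0 := neg_ne_zero.2 hx0
  set P : X × X → (Y →L[ℝ] ℝ) := fun q => dn (S.F q.1 - ‖q.1‖ • S.F q.2) with hPdef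
  set Q : X × X → (X →L[ℝ] ℝ) := fun q => dn (q.1 - ‖q.1‖ • q.2) +
    (P q (S.F q.2) - dn (q.1 - ‖q.1‖ • q.2) q.2) • dn q.1 with hQdef
  have cfst : C11At (fun q : X × X => q.1) (x₀, -x₀) :=
    .of_contDiffAt contDiff_fst.contDiffAt
  have csnd : C11At (fun q : X × X => q.2) (x₀, -x₀) :=
    .of_contDiffAt contDiff_snd.contDiffAt
  have cF1 : C11At (fun q : X × X => S.F q.1) (x₀, -x₀) :=
    C11At.comp (g := fun q : X × X => q.1) (φ := S.F) (S.c11At_F hX hY hx0) cfst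
  have cF2 : C11At (fun q : X × X => S.F q.2) (x₀, -x₀) :=
    C11At.comp (g := fun q : X × X => q.2) (φ := S.F) (S.c11At_F hX hY hn0) csnd
  have cn : C11At (fun q : X × X => ‖q.1‖) (x₀, -x₀) :=
    C11At.comp (g := fun q : X × X => q.1) (φ := fun y : X => ‖y‖) (hX.c11At_norm hx0) cfst
  have hsub : ContDiff ℝ 2 (fun q : Y × Y => q.1 - q.2) := contDiff_fst.sub contDiff_snd
  have hsubX : ContDiff ℝ 2 (fun q : X × X => q.1 - q.2) := contDiff_fst.sub contDiff_snd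
  have hsmY : ContDiff ℝ 2 (fun q : ℝ × Y => q.1 • q.2) := contDiff_smul
  have hsmX : ContDiff ℝ 2 (fun q : ℝ × X => q.1 • q.2) := contDiff_smul
  have hP : C11At P (x₀, -x₀) := by
    refine C11At.comp (φ := dn) (hdY _ ?_) (C11At.map2 hsub cF1 (C11At.map2 hsmY cn cF2))
    show S.F x₀ - ‖x₀‖ • S.F (-x₀) ≠ 0
    rw [hx₀, one_smul, S.neg_F hX, sub_neg_eq_add, ← two_smul ℝ]
    exact smul_ne_zero two_ne_zero (S.F_ne hx0)
  have hq : C11At (fun q : X × X => dn (q.1 - ‖q.1‖ • q.2)) (x₀, -x₀) := by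
    refine C11At.comp (φ := dn) (hdX _ ?_) (C11At.map2 hsubX cfst (C11At.map2 hsmX cn csnd))
    show x₀ - ‖x₀‖ • -x₀ ≠ 0
    rw [hx₀, one_smul, sub_neg_eq_add, ← two_smul ℝ]
    exact smul_ne_zero two_ne_zero hx0
  have hQ : C11At Q (x₀, -x₀) := by
    have aY : ContDiff ℝ 2 (fun q : (Y →L[ℝ] ℝ) × Y => q.1 q.2) :=
      isBoundedBilinearMap_apply.contDiff
    have aX : ContDiff ℝ 2 (fun q : (X →L[ℝ] ℝ) × X => q.1 q.2) :=
      isBoundedBilinearMap_apply.contDiff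
    have s1 : ContDiff ℝ 2 (fun q : ℝ × ℝ => q.1 - q.2) := contDiff_fst.sub contDiff_snd
    have s2 : ContDiff ℝ 2 (fun q : (X →L[ℝ] ℝ) × (X →L[ℝ] ℝ) => q.1 + q.2) :=
      contDiff_fst.add contDiff_snd
    have s3 : ContDiff ℝ 2 (fun q : ℝ × (X →L[ℝ] ℝ) => q.1 • q.2) := contDiff_smul
    exact C11At.map2 s2 hq (C11At.map2 s3 (C11At.map2 s1 (C11At.map2 aY hP cF2)
      (C11At.map2 aX hq csnd)) (C11At.comp (g := fun q : X × X => q.1) (φ := dn) (hdX x₀ hx0) cfst))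
  obtain ⟨r1, hr1, C1, hC1, hP'⟩ := hP.data
  obtain ⟨r2, hr2, C2, hC2, hQ'⟩ := hQ.data
  obtain ⟨r3, hr3, C3, hC3, hF⟩ := (S.c11At_F hX hY hx0).data
  set η := min (min r1 r2) (1 / 4)
  obtain ⟨ρ, hρ, hch⟩ := S.exists_chord hX hY hx₀ (η := η) (by positivity)
  obtain ⟨K', hK', hnorm⟩ := hY.norming (w := S.F x₀) (by rw [S.norm_F, hx₀]) hρ
  set rad := min (min η ρ) r3
  set M := ‖fderiv ℝ P (x₀, -x₀)‖ + C1 * r1
  set K := C2 + C1 * 3 + M * C3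
  have hM : 0 ≤ M := by positivity
  have hK : 0 ≤ K := by positivity
  have := hY.complete
  refine exists_linear_approx
    {T : (X →L[ℝ] Y) →L[ℝ] (X →L[ℝ] ℝ) |
      ∃ e : Y, ‖e‖ = 1 ∧ ‖e - S.F x₀‖ ≤ ρ ∧ T = compL ℝ X Y ℝ (dn e)}
    (K := K') hK' ?_ (r := rad) (C := K) (L := C3) (by positivity)
    (by positivity) (fun x y hx hy => ((hF x (hx.trans (min_le_right _ _))).2 y
      (hy.trans (min_le_right _ _))).2.1) ?_
  · intro A B hB hT
    refine A.opNorm_le_bound (by positivity) fun v => ?_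
    rw [mul_assoc]
    refine hnorm _ _ (by positivity) fun e he hed => ?_
    exact ((compL ℝ X Y ℝ (dn e) A).le_opNorm v).trans
      (mul_le_mul_of_nonneg_right (hT _ ⟨e, he, hed, rfl⟩) (norm_nonneg v))
  intro x hx T hT
  obtain ⟨e, he, hed, rfl⟩ := hT
  have one : ∃ D : X →L[ℝ] (X →L[ℝ] ℝ), ∀ y, ‖y - x₀‖ ≤ rad →
        ‖(dn e).comp (fderiv ℝ S.F y - fderiv ℝ S.F x) - D (y - x)‖ ≤ K * ‖y - x‖ ^ 2 := by
    obtain ⟨z, hz, hzx, hzp⟩ := hch x (hx.trans ((min_le_left _ _).trans (min_le_right _ _))) e he hed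
    set p := dn e
    have hin : ∀ y, ‖y - x₀‖ ≤ rad → ‖(y, z) - ((x₀, -x₀) : X × X)‖ ≤ r1 ∧
        ‖(y, z) - ((x₀, -x₀) : X × X)‖ ≤ r2 := fun y hy => by
      have h1 : ‖(y, z) - ((x₀, -x₀) : X × X)‖ ≤ η := by
        simp only [Prod.mk_sub_mk, Prod.norm_def, sub_neg_eq_add]
        exact max_le (hy.trans ((min_le_left _ _).trans (min_le_left _ _))) hzx
      exact ⟨h1.trans ((min_le_left _ _).trans (min_le_left _ _)),
        h1.trans ((min_le_left _ _).trans (min_le_right _ _))⟩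
    have hid : ∀ y, ‖y - x₀‖ ≤ rad → (P (y, z)).comp (fderiv ℝ S.F y) = Q (y, z) := fun y hy => by
      have h := S.chord_identity hX hY hx₀ hz
        (hy.trans ((min_le_left _ _).trans ((min_le_left _ _).trans (min_le_right _ _))))
        (hzx.trans (min_le_right _ _))
      simpa only [hQdef, hPdef] using h.2
    set A1 := fderiv ℝ Q (x, z)
    set A2 := fderiv ℝ P (x, z)
    refine ⟨A1.comp (inl ℝ X X) -
      ((compL ℝ X Y ℝ).flip (fderiv ℝ S.F x)).comp (A2.comp (inl ℝ X X)), fun y hy => ?_⟩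
    set t := ‖y - x‖
    have hxz : ((y, z) : X × X) - (x, z) = (y - x, 0) := by simp
    have ht' : ‖((y - x, 0) : X × X)‖ = t := by simp [Prod.norm_def, t]
    have e1 := ((hP' _ (hin x hx).1).2 _ (hin y hy).1).1
    have e2 := ((hQ' _ (hin x hx).2).2 _ (hin y hy).2).1
    rw [hxz, ht'] at e1 e2
    have eq1 : p.comp (fderiv ℝ S.F y - fderiv ℝ S.F x) -
        (A1 (y - x, 0) - (A2 (y - x, 0)).comp (fderiv ℝ S.F x)) =
        (Q (y, z) - Q (x, z) - A1 (y - x, 0)) -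
          (P (y, z) - P (x, z) - A2 (y - x, 0)).comp (fderiv ℝ S.F y) -
          (A2 (y - x, 0)).comp (fderiv ℝ S.F y - fderiv ℝ S.F x) := by
      rw [← hid y hy, ← hid x hx, show P (x, z) = p from hzp]
      simp only [sub_comp, comp_sub]
      abel
    show ‖p.comp (fderiv ℝ S.F y - fderiv ℝ S.F x) -
        (A1 (y - x, 0) - (A2 (y - x, 0)).comp (fderiv ℝ S.F x))‖ ≤ _
    rw [eq1]
    have hA2 : ‖A2 (y - x, 0)‖ ≤ M * t := by
      refine (le_opNorm _ _).trans ?_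
      rw [ht']
      refine mul_le_mul_of_nonneg_right ?_ (norm_nonneg _)
      refine (norm_le_norm_add_norm_sub' _ (fderiv ℝ P (x₀, -x₀))).trans (add_le_add le_rfl ?_)
      exact ((hP' _ (by simpa using hr1.le)).2 _ (hin x hx).1).2.1.trans
        (mul_le_mul_of_nonneg_left (hin x hx).1 hC1)
    have hDF := ((hF x (hx.trans (min_le_right _ _))).2 y (hy.trans (min_le_right _ _))).2.1
    refine (norm_sub_le _ _).trans ((add_le_add (norm_sub_le _ _) le_rfl).trans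
      ((add_le_add (add_le_add e2 ((opNorm_comp_le _ _).trans (mul_le_mul e1
        (S.norm_fderiv_F_le hX y) (norm_nonneg _) (by positivity))))
        ((opNorm_comp_le _ _).trans (mul_le_mul hA2 hDF (norm_nonneg _) (by positivity)))).trans
        (le_of_eq (by simp only [K]; ring))))
  obtain ⟨D, hD⟩ := one
  refine ⟨D, fun y hy => ?_⟩
  rw [compL_apply]
  exact hD y hy

omit hdX in
lemma fderiv_F_smul {x : X} (hx : x ≠ 0) {t : ℝ} (ht : 0 < t) :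
    fderiv ℝ S.F (t • x) = fderiv ℝ S.F x := by
  have h1 := (hasFDerivAt_id (𝕜 := ℝ) (t • x)).const_smul t⁻¹
  have e : t⁻¹ • id (t • x) = x := by rw [id, smul_smul, inv_mul_cancel₀ ht.ne', one_smul]
  have hA := S.hasFDerivAt_F hX hY hx
  rw [← e] at hA
  have h2 := (hA.comp (f := fun y => t⁻¹ • id y) (t • x) h1).const_smul t
  rw [e] at h2
  have h3 : HasFDerivAt S.F (t • (fderiv ℝ S.F x).comp (t⁻¹ • ContinuousLinearMap.id ℝ X)) (t • x) :=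
    h2.congr_of_eventuallyEq (Eventually.of_forall fun y => by
      simp [← S.smul_F t _ ht.le, smul_smul, mul_inv_cancel₀ ht.ne'])
  rw [h3.fderiv]
  ext v
  simp [smul_smul, mul_inv_cancel₀ ht.ne']

/-- The derivative is `C^{1,1}` off the origin. -/
theorem c11At_fderiv {x : X} (hx : x ≠ 0) : C11At (fderiv ℝ S.F) x := by
  have ht : 0 < ‖x‖⁻¹ := inv_pos.2 (norm_pos_iff.2 hx)
  have hl : C11At (fun y : X => ‖x‖⁻¹ • y) x := .of_contDiffAt (contDiff_const_smul _).contDiffAt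
  refine (C11At.comp (φ := fderiv ℝ S.F) (g := fun y : X => ‖x‖⁻¹ • y) (S.c11At_fderiv_of_unit hX hY hdX (norm_unit hx)) hl).congr
    ?_
  filter_upwards [isOpen_ne.mem_nhds hx] with y hy
  exact (S.fderiv_F_smul hX hY hy ht).symm

end Ext

end Vale.Agent.P084.Smooth
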